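import Vale.Agent.P283M.Stm

/-!
# Bounded klt complements for toric contractions with an arbitrary boundary: the statement
-/

open CategoryTheory AlgebraicGeometry

namespace Vale.Agent.P283R.Tor

open Vale.Agent.P289 Vale.Agent.P283M.Stm Vale.Agent.P283M.Stm.Var

/-- `A` is spanned by the monomials `y ^ m`, `m ∈ S`, for a set `S` which generates the lattice:
the coordinate ring of an affine toric variety whose torus has the coordinates `y`. -/
def ToricRing {K : Type} [Field K] [Algebra ℂ K] {d : ℕ} (y : Fin d → K) (A : Set K) : Prop :=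
  ∃ S : Set (Fin d → ℤ), AddSubgroup.closure S = ⊤ ∧
    A = Submodule.span ℂ ((fun m => ∏ i, y i ^ m i) '' S)

/-- The open subset `W` of `X` is a toric variety of dimension `d`: it is covered by affine toric
varieties with the same torus. -/
def Toric {X : Var} (W : X.X.Opens) (d : ℕ) : Prop :=
  ∃ y : Fin d → X.K, AlgebraicIndependent ℂ y ∧ ∀ x ∈ W, ∃ U ≤ W, IsAffineOpen U ∧ x ∈ U ∧
    ToricRing y {g | ∀ x' ∈ U, RegAt g x'}

/-- Shokurov's conjecture on bounded klt complements for the contractions `f` which are toric over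
an affine neighbourhood `V` of `z`; the boundary `B` is arbitrary. -/
def QT : Prop :=
  ∀ d : ℕ, 1 ≤ d → ∀ ε : ℝ, 0 < ε → ∀ R : Finset ℚ, (∀ r ∈ R, 0 ≤ r ∧ r ≤ 1) →
    ∃ n : ℕ, 1 ≤ n ∧ ∀ (X Z : Var) (f : X.X ⟶ Z.X) (ω : DForm ℂ X.K d) (B : X.QDiv)
      (z : Pt Z.X), dimension X.str = d → ω.Nonzero → Pair (ε ≤ ·) ⊤ ω B →
      (∀ y, B y ≠ 0 → B y ∈ R) → Contraction f → FanoType f ω → NefOver f (-logCan ω B) →
      IsClosed ({z} : Set (Pt Z.X)) → (∃ V, IsAffineOpen V ∧ z ∈ V ∧ Toric (f ⁻¹ᵁ V) d) →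
      HasKltComplement f ω B n z

end Vale.Agent.P283R.Tor
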