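import Vale.Agent.P287D.Cb.Row
import Vale.Agent.P287D.Pb.Up

/-!
# P283R, block TOR: monomial maps, logarithmic discrepancies, the Gauss lift of a place
-/

open Set
open Vale.Agent.P285N.Brep (jac Fr)
open Vale.Agent.P297Z
open Vale.Agent.P287D

noncomputable section

namespace Vale.Agent.P283R.To

variable {K K' : Type} [Field K] [Field K'] {n d N : ℕ}

/-- Laurent monomials -/
def mon {ι : Type} [Fintype ι] (z : ι → K) (a : ι → ℤ) : K := ∏ j, z j ^ a j

theorem mon_ne {ι : Type} [Fintype ι] {z : ι → K} (hz : ∀ j, z j ≠ 0) (a : ι → ℤ) :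
    mon z a ≠ 0 := Finset.prod_ne_zero_iff.2 fun j _ => zpow_ne_zero _ (hz j)

theorem mon_add {ι : Type} [Fintype ι] {z : ι → K} (hz : ∀ j, z j ≠ 0) (a b : ι → ℤ) :
    mon z (a + b) = mon z a * mon z b := by
  simp only [mon, Pi.add_apply, zpow_add₀ (hz _), Finset.prod_mul_distrib]

theorem map_mon {ι : Type} [Fintype ι] (φ : K →+* K') (z : ι → K) (a : ι → ℤ) :
    φ (mon z a) = mon (fun j => φ (z j)) a := by
  simp only [mon, map_prod, map_zpow₀]

/-- independent integral vectors are rows of a matrix with nonzero determinant -/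
theorem compl {V : Fin d → Fin N → ℤ} (hV : LinearIndependent ℤ V) :
    ∃ (r : ℕ) (e : Fin N ≃ Fin d ⊕ Fin r) (W : Fin r → Fin N → ℤ),
      (Matrix.of fun i => Sum.elim V W (e i)).det ≠ 0 := by
  have k : ∀ r, d + r ≤ N → ∃ A : Fin (d + r) → Fin N → ℤ, LinearIndependent ℤ A ∧
      ∀ i, A (Fin.castAdd r i) = V i := by
    intro r
    induction r with
    | zero => exact fun _ => ⟨V, hV, fun _ => rfl⟩
    | succ r ih =>
      intro h
      obtain ⟨A, h1, h2⟩ := ih (by omega)
      obtain ⟨x, hx⟩ := exists_linearIndependent_snoc_of_lt_finrank h1 (by simp; omega)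
      exact ⟨Fin.snoc A x, hx, fun i => (Fin.snoc_castSucc (α := fun _ => Fin N → ℤ) x A
        (Fin.castAdd r i)).trans (h2 i)⟩
  have le : d ≤ N := by simpa using hV.fintype_card_le_finrank
  obtain ⟨r, rfl⟩ := Nat.exists_eq_add_of_le le
  obtain ⟨A, h1, h2⟩ := k r le_rfl
  refine ⟨r, finSumFinEquiv.symm, fun l => A (Fin.natAdd d l), fun h => ?_⟩
  have e : (Matrix.of fun i => Sum.elim V (fun l => A (Fin.natAdd d l))
      (finSumFinEquiv.symm i)) = Matrix.of A := by
    ext i j
    refine Fin.addCases (fun i => ?_) (fun i => ?_) i <;> simp [h2]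
  rw [e, ← Matrix.exists_vecMul_eq_zero_iff] at h
  obtain ⟨v, v0, hv⟩ := h
  refine v0 (funext (Fintype.linearIndependent_iff.1 h1 v ?_))
  rw [← hv]
  ext j
  simp [Matrix.vecMul, dotProduct]

variable [Algebra ℂ K] [Algebra ℂ K']

theorem ord_mon {ι : Type} [Fintype ι] (P : Pl K) {z : ι → K} (hz : ∀ j, z j ≠ 0) (a : ι → ℤ) :
    P.ord (mon z a) = ∑ j, a j * P.ord (z j) := by
  classical
  have k : ∀ s : Finset ι, P.ord (∏ j ∈ s, z j ^ a j) = ∑ j ∈ s, a j * P.ord (z j) := by
    intro s
    induction s using Finset.induction_on with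
    | empty => simp
    | insert j s hj ih =>
      rw [Finset.prod_insert hj, Finset.sum_insert hj, Pl.ord_mul _ (zpow_ne_zero _ (hz j))
        (Finset.prod_ne_zero_iff.2 fun j _ => zpow_ne_zero _ (hz j)), ih, Pl.ord_zpow]
  exact k _

theorem ord_prod {ι : Type} [Fintype ι] (P : Pl K) {z : ι → K} (hz : ∀ j, z j ≠ 0) :
    P.ord (∏ j, z j) = ∑ j, P.ord (z j) := by
  simpa [mon] using ord_mon P hz fun _ => 1

theorem der_mon {ι : Type} [Fintype ι] (D : Derivation ℂ K K) {z : ι → K} (hz : ∀ j, z j ≠ 0)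
    (a : ι → ℤ) : D (mon z a) = mon z a * ∑ j, (D (z j) / z j) * a j := by
  classical
  have k : ∀ s : Finset ι, D (∏ j ∈ s, z j ^ a j) =
      (∏ j ∈ s, z j ^ a j) * ∑ j ∈ s, (D (z j) / z j) * a j := by
    intro s
    induction s using Finset.induction_on with
    | empty => simp
    | insert j s hj ih =>
      rw [Finset.prod_insert hj, Finset.sum_insert hj, D.leibniz, ih, D.leibniz_zpow,
        zpow_sub_one₀ (hz j)]
      simp only [smul_eq_mul, zsmul_eq_mul]
      ring
  exact k _

theorem jac_mon (L : Fin n → Derivation ℂ K K) {z : Fin n → K} (hz : ∀ j, z j ≠ 0)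
    (A : Matrix (Fin n) (Fin n) ℤ) : jac L (fun i => mon z (A i)) * ∏ j, z j =
      jac L z * (∏ i, mon z (A i)) * (A.det : ℤ) := by
  let B : Matrix (Fin n) (Fin n) K := Matrix.of fun k j => L k (z j) / z j
  have e1 : jac L z = (∏ j, z j) * B.det := by
    rw [← Matrix.det_mul_row, jac]
    congr 1
    ext k j
    simp [B, mul_div_cancel₀ _ (hz j)]
  have e2 : jac L (fun i => mon z (A i)) = (∏ i, mon z (A i)) *
      (B * (A.map (Int.castRingHom K)).transpose).det := by
    rw [← Matrix.det_mul_row, jac]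
    congr 1
    ext k i
    simp [B, der_mon _ hz, Matrix.mul_apply]
  have e3 : (A.map (Int.castRingHom K)).det = (A.det : ℤ) :=
    ((Int.castRingHom K).map_det A).symm
  rw [e1, e2, Matrix.det_mul, Matrix.det_transpose, e3]
  ring

/-- the log discrepancy of the form `dlog z` -/
def la (z : Fin n → K) (P : Pl K) : ℝ := kap z P + 1 - ∑ j, (P.ord (z j) : ℝ)

theorem la_nonneg (hK : FF K n) {z : Fin n → K} (hz : AlgebraicIndependent ℂ z) (P : Pl K) :
    0 ≤ la z P := sub_nonneg.2 (Cb.sum_le_kap hK hz P)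

theorem ind_det (hK : FF K n) {z : Fin n → K} (hz : AlgebraicIndependent ℂ z)
    {A : Matrix (Fin n) (Fin n) ℤ} (hA : A.det ≠ 0) :
    AlgebraicIndependent ℂ fun i => mon z (A i) := by
  have : CharZero K := charZero_of_injective_algebraMap (algebraMap ℂ K).injective
  obtain ⟨D, hD⟩ := Cb.fr_of hK hz
  refine (Cb.jac_ne_iff hD _).1 fun h => ?_
  have := jac_mon D hz.ne_zero A
  rw [h, zero_mul, Cb.jac_self hD, one_mul] at this
  exact mul_ne_zero (Finset.prod_ne_zero_iff.2 fun i _ => mon_ne hz.ne_zero _)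
    (Int.cast_ne_zero.2 hA) this.symm

/-- monomials with independent exponents are algebraically independent -/
theorem ind_mon (hK : FF K N) {z : Fin N → K} (hz : AlgebraicIndependent ℂ z)
    {V : Fin d → Fin N → ℤ} (hV : LinearIndependent ℤ V) :
    AlgebraicIndependent ℂ fun i => mon z (V i) := by
  obtain ⟨r, e, W, h⟩ := compl hV
  have := (ind_det hK hz h).comp (fun i => e.symm (.inl i))
    (e.symm.injective.comp Sum.inl_injective)
  have k : ∀ i, Matrix.of (fun i => Sum.elim V W (e i)) (e.symm (.inl i)) = V i :=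
    fun i => funext fun j => by simp
  simpa [Function.comp_def, k] using this

/-- the form `dlog z` does not change under monomial maps -/
theorem la_mon (hK : FF K n) {z : Fin n → K} (hz : AlgebraicIndependent ℂ z)
    {A : Matrix (Fin n) (Fin n) ℤ} (hA : A.det ≠ 0) (P : Pl K) :
    la (fun i => mon z (A i)) P = la z P := by
  have : CharZero K := charZero_of_injective_algebraMap (algebraMap ℂ K).injective
  obtain ⟨L, hL⟩ := Cb.exists_lf hK P
  have hi := ind_det hK hz hA
  have e := congrArg P.ord (jac_mon L hz.ne_zero A)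
  have m0 : ∀ i, mon z (A i) ≠ 0 := fun i => mon_ne hz.ne_zero _
  have p0 := Finset.prod_ne_zero_iff.2 fun i (_ : i ∈ Finset.univ) => m0 i
  have c0 : P.ord ((A.det : ℤ) : K) = 0 := by
    rw [← map_intCast (algebraMap ℂ K)]
    exact P.ord_const _
  rw [Pl.ord_mul _ (hL.ne _ hi) (Finset.prod_ne_zero_iff.2 fun i _ => hz.ne_zero i),
    Pl.ord_mul _ (mul_ne_zero (hL.ne _ hz) p0) (Int.cast_ne_zero.2 hA),
    Pl.ord_mul _ (hL.ne _ hz) p0, ord_prod P hz.ne_zero, ord_prod P m0, c0] at e
  rw [la, la, hL.eq _ hi, hL.eq _ hz]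
  have e' := congrArg (Int.cast : ℤ → ℝ) e
  push_cast at e'
  linarith

/-- a function of positive order and units with independent residues -/
theorem kap_ram {ι : Type} [Fintype ι] (hK : FF K n) (e : Fin n ≃ Option ι) {P : Pl K} {τ : K}
    {w : ι → K} (h0 : 0 < P.ord τ) (hm : ∀ i, w i ∈ P.ring)
    (hi : AlgebraicIndependent ℂ fun i => P.rd (w i)) :
    kap (fun i => (e i).elim τ w) P + 1 = P.ord τ := by
  classical
  have t0 : τ ≠ 0 := fun h => by simp [h] at h0
  have mx : Cb.Mx P τ := Cb.mx_iff.2 (.inr h0)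
  have ti : AlgebraicIndependent ℂ fun i => (e i).elim τ w :=
    (AlgebraicIndependent.option_iff.2 ⟨Cb.ind_of_rd hm hi, Cb.trans_of_mx hm hi t0 mx⟩).comp e
      e.injective
  obtain ⟨E, hE⟩ := Cb.fr_of hK ti
  have cd : n = Fintype.card ι + 1 := by simpa using Fintype.card_congr e
  have sp : Cb.Sp P (range w) := by
    refine ⟨by rintro _ ⟨i, rfl⟩; exact hm i, fun z => ?_⟩
    have t := Cb.trdeg_κ (n := Fintype.card ι) (cd ▸ hK) P
    rw [← range_comp]
    exact (hi.isTranscendenceBasis_of_trdeg_le_of_finite (by simp [t])).isAlgebraic.isAlgebraic z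
  let c : Fin n → K := fun i => (e i).elim τ fun _ => 1
  have cm : ∀ i, c i ∈ P.ring := fun i => by
    simp only [c]
    rcases e i with _ | j
    exacts [mx.mem, one_mem _]
  have du : ∀ i o, E i (Option.elim o τ w) = if e i = o then 1 else 0 := fun i o => by
    have := hE.dual i (e.symm o)
    simpa [Equiv.eq_symm_apply] using this
  have lg : ∀ i, Cb.Lg P (c i • E i : Derivation ℂ K K) := fun i => by
    obtain ⟨k, hk⟩ := Cb.lg_bdd hK P (c i • E i)
    refine Cb.lg_of (Cb.dr_of _) sp ?_
      (fun c => by rw [Derivation.map_algebraMap]; exact zero_mem _) h0.ne' ?_ k hk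
    · rintro _ ⟨j, rfl⟩
      have := du i (some j)
      rw [Option.elim_some] at this
      rw [Derivation.smul_apply, this]
      split_ifs
      · simpa using cm i
      · simp [zero_mem]
    · have := du i none
      rw [Option.elim_none] at this
      rw [Derivation.smul_apply, this]
      split_ifs with h
      · simp [c, h, t0, one_mem]
      · simp [zero_mem]
  have j1 : jac (fun i => c i • E i) (fun i => (e i).elim τ w) = τ := by
    have := Matrix.det_mul_column c (Matrix.of fun i j => E i ((e j).elim τ w))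
    refine Eq.trans this ?_
    rw [show Matrix.det _ = _ from Cb.jac_self hE, mul_one,
      e.prod_comp fun o => Option.elim o τ fun _ => (1 : K)]
    simp
  have k1 := Cb.kap_le hK lg (j1 ▸ t0)
  have k2 := Cb.sum_le_kap hK ti P
  have v0 : ∀ i, P.ord (w i) = 0 := fun i => by
    have : ¬ Cb.Mx P (w i) := by
      rw [← Cb.rd_eq_zero (hm i)]
      exact hi.ne_zero i
    rw [Cb.mx_iff, not_or] at this
    have k := Pl.ord_nonneg_of_mem _ (hm i)
    omega
  rw [j1] at k1
  rw [e.sum_comp fun o => (P.ord (Option.elim o τ w) : ℝ)] at k2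
  simp [v0] at k2
  exact le_antisymm k1 k2

end Vale.Agent.P283R.To
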