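import Vale.Agent.P283R.To.Gs

/-!
# P283R, block TOR: restriction and Gauss lift of places along monomial maps
-/

open Set
open Vale.Agent.P285N.Brep (jac Fr)
open Vale.Agent.P297Z
open Vale.Agent.P287D

noncomputable section

namespace Vale.Agent.P283R.To

variable {K K' : Type} [Field K] [Field K'] [Algebra ℂ K] [Algebra ℂ K'] {n d N r : ℕ}

/-- a place above `R` where a given transcendence basis has independent residues -/
theorem gauss_alg [Algebra K K'] [IsScalarTower ℂ K K'] {ι : Type} (h' : FF K' N) {s : ι → K'}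
    (hs : IsTranscendenceBasis K s) (R : Pl K) :
    ∃ (u : Pl K') (l : Lies (algebraMap K K') u R), (∀ i, s i ∈ u.ring) ∧
      ∀ p, MvPolynomial.eval₂ l.κ (fun i => u.rd (s i)) p = 0 → p = 0 := by
  let M := IntermediateField.adjoin K (range s)
  have := hs.isAlgebraic_field
  have := h'.ess
  have : IsScalarTower ℂ M K' := IsScalarTower.of_algebraMap_eq fun _ => rfl
  have := Algebra.EssFiniteType.of_comp ℂ M K'
  have : FiniteDimensional M K' := Algebra.finite_of_essFiniteType_of_isAlgebraic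
  let z : ι → M := fun i => ⟨s i, IntermediateField.subset_adjoin _ _ ⟨i, rfl⟩⟩
  obtain ⟨Q, hQ, -, hm, hi, -⟩ := exists_gauss (K' := M) (y := z)
    (AlgebraicIndependent.of_comp M.val hs.1)
    (IntermediateField.lift_injective M (by
      rw [IntermediateField.lift_adjoin, IntermediateField.lift_top, ← range_comp]; rfl)) R
  obtain ⟨P, hP⟩ := Pb.up_fin (K' := K') Q
  have l : Lies (algebraMap K K') P R := hP.comp hQ
  refine ⟨P, l, fun i => (hP (z i)).1 (hm i), fun p hp => hi p (hP.κ.injective ?_)⟩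
  have e : l.κ = hP.κ.comp hQ.κ := l.isRd.uniq fun f hf => by
    rw [RingHom.comp_apply, hQ.isRd f hf, hP.isRd _ ((hQ f).1 hf)]
    rfl
  rw [MvPolynomial.eval₂_comp_left, ← e, map_zero, ← hp]
  congr 1
  exact funext fun i => hP.isRd (z i) (hm i)

variable {φ : K →+* K'}

omit [Algebra ℂ K] in
theorem jac_dt (e : Fin N ≃ Fin d ⊕ Fin r) (L : Fin N → Derivation ℂ K' K') (y : Fin d → K)
    (s : Fin r → K') : Cb.dt φ (fun i => L (e.symm i)) y s =
      jac L fun i => Sum.elim (fun j => φ (y j)) s (e i) := by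
  rw [Cb.dt, jac, ← Matrix.det_submatrix_equiv_self e]
  congr 1
  ext i j
  simp

theorem dt_mul (hc : ∀ c, φ (algebraMap ℂ K c) = algebraMap ℂ K' c)
    (L : Fin d ⊕ Fin r → Derivation ℂ K' K') {y : Fin d → K} {D : Fin d → Derivation ℂ K K}
    (h : Fr y D) (s : Fin r → K') (c : Fin r → K) :
    Cb.dt φ (fun i => L i) y (fun l => s l * φ (c l)) =
      Cb.dt φ (fun i => L i) y s * ∏ l, φ (c l) := by
  have e : ∏ l, φ (c l) = (Matrix.fromBlocks (1 : Matrix (Fin d) (Fin d) K')
      (Matrix.of fun j l => φ (D j (c l)) * s l) 0 (Matrix.diagonal fun l => φ (c l))).det := by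
    rw [Matrix.det_fromBlocks_zero₂₁, Matrix.det_one, one_mul, Matrix.det_diagonal]
  rw [e, Cb.dt, Cb.dt, ← Matrix.det_mul]
  congr 1
  ext i j
  rw [Matrix.mul_apply, Fintype.sum_sum_type]
  rcases j with j | j
  · simp [Matrix.one_apply]
  · have k := Cb.expand ((Cb.dr_of (L i)).comp φ)
      (fun c => by simp only [hc]; exact (L i).map_algebraMap c) h (c j)
    simp only [RingHom.comp_apply, RingHom.id_apply] at k
    simp only [Matrix.of_apply, Sum.elim_inr, Sum.elim_inl, Derivation.leibniz, smul_eq_mul, k,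
      Matrix.fromBlocks_apply₁₂, Matrix.fromBlocks_apply₂₂, Matrix.diagonal_apply, mul_ite,
      mul_zero, Finset.sum_ite_eq', Finset.mem_univ, if_true, Finset.mul_sum]
    rw [mul_comm (φ (c j))]
    congr 1
    exact Finset.sum_congr rfl fun _ _ => by ring

/-- regrouping of indices -/
def opt (α β : Type) : Option α ⊕ β ≃ Option (α ⊕ β) where
  toFun := Sum.elim (fun o => o.map .inl) fun b => some (.inr b)
  invFun := fun o => o.elim (.inl none) (Sum.map some id)
  left_inv := by rintro ((_ | a) | b) <;> rfl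
  right_inv := by rintro (_ | a | b) <;> rfl

/-- **the Gauss lift**, for any completion `s` of `φ y` to coordinates -/
theorem gauss (hK : FF K d) (hK' : FF K' N) (hc : ∀ c, φ (algebraMap ℂ K c) = algebraMap ℂ K' c)
    {y : Fin d → K} (hy : AlgebraicIndependent ℂ y) {s : Fin r → K'} (e : Fin N ≃ Fin d ⊕ Fin r)
    (hi : AlgebraicIndependent ℂ fun i => Sum.elim (fun j => φ (y j)) s (e i)) (R : Pl K) :
    ∃ u : Pl K', Lies φ u R ∧ (∀ l, u.ord (s l) = 0) ∧
      kap (fun i => Sum.elim (fun j => φ (y j)) s (e i)) u + 1 =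
        u.ord (φ R.t) * (kap y R + 1) := by
  let _ := φ.toAlgebra
  have : IsScalarTower ℂ K K' := IsScalarTower.of_algebraMap_eq fun c => (hc c).symm
  have cd : N = d + r := by simpa using Fintype.card_congr e
  have al : Algebra.IsAlgebraic (Algebra.adjoin K (range s)) K' := ⟨fun x =>
    Pb.alg_map (RingHom.id K') (fun a => by
      rw [RingHom.id_apply, ← hc]
      exact Subalgebra.algebraMap_mem _ _) (by
      rintro _ ⟨i, rfl⟩
      change Sum.elim (fun j => φ (y j)) s (e i) ∈ _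
      rcases e i with j | j
      · exact Subalgebra.algebraMap_mem (Algebra.adjoin K (range s)) (y j)
      · exact Algebra.subset_adjoin ⟨j, rfl⟩) ((hK'.basis hi).isAlgebraic.isAlgebraic x)⟩
  have hs : IsTranscendenceBasis K s := by
    refine Algebra.IsAlgebraic.isTranscendenceBasis_of_le_trdeg_of_finite K s ?_
    have t := trdeg_add_eq ℂ K (A := K')
    rw [hK.trdeg, hK'.trdeg, cd, Nat.cast_add] at t
    rw [Cardinal.mk_fin, (Cardinal.add_nat_inj d).1 ((add_comm _ _).trans (t.trans (add_comm _ _)))]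
  obtain ⟨u, l, hm, hp⟩ := gauss_alg hK' hs R
  have l' : Lies φ u R := l
  obtain _ | d := d
  · exact (Cb.no_pl hK R).elim
  obtain ⟨v, a⟩ := Cb.exists_ada hK R
  obtain ⟨D, hD⟩ := a.ad hK
  have wm : ∀ i, Sum.elim (fun j => φ (v j)) s i ∈ u.ring := by
    rintro (i | i)
    exacts [(l' _).1 (a.mem i), hm i]
  have wi : AlgebraicIndependent ℂ fun i => u.rd (Sum.elim (fun j => φ (v j)) s i) := by
    let _ := l.κ.toAlgebra
    have : IsScalarTower ℂ R.κ u.κ := IsScalarTower.of_algebraMap_eq fun c => by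
      rw [← Cb.rd_const (P := R), ← Cb.rd_const (P := u), ← hc]
      exact (l.isRd _ (R.con c)).symm
    have h2 : AlgebraicIndependent R.κ fun i => u.rd (s i) := algebraicIndependent_iff.2 hp
    have := (a.ind.sumElim_comp h2).comp _ (Equiv.sumComm (Fin d) (Fin r)).injective
    refine (congrArg (fun w => AlgebraicIndependent ℂ w) (funext ?_)).mp this
    rintro (i | i)
    · exact l.isRd _ (a.mem i)
    · rfl
  let e' : Fin N ≃ Option (Fin d ⊕ Fin r) :=
    e.trans (((finSuccEquiv d).sumCongr (Equiv.refl _)).trans (opt _ _))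
  have k := kap_ram hK' e' l'.e_pos wm wi
  have ee : (fun i => (e' i).elim (φ R.t) (Sum.elim (fun j => φ (v j)) s)) =
      fun i => Sum.elim (fun j => φ ((Fin.cons R.t v : Fin (d + 1) → K) j)) s (e i) := by
    funext i
    simp only [e', Equiv.trans_apply]
    rcases e i with j | j
    · refine Fin.cases ?_ (fun j => ?_) j <;> simp [opt]
    · simp [opt]
  obtain ⟨L, hL⟩ := Cb.exists_lf hK' u
  have ch := Cb.dt_chain (φ := φ) (d := fun i => L (e.symm i)) (fun i => Cb.dr_of _)
    (fun i c => by rw [hc, Derivation.map_algebraMap]) hD.fr y s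
  rw [jac_dt, jac_dt] at ch
  have n0 := hL.ne _ hi
  rw [ch] at n0
  obtain ⟨E, hE⟩ := Cb.fr_of hK' hi
  have ti : AlgebraicIndependent ℂ
      fun i => Sum.elim (fun j => φ ((Fin.cons R.t v : Fin (d + 1) → K) j)) s (e i) :=
    P285N.Brep.TbAux.ind L _ (left_ne_zero_of_mul n0)
  refine ⟨u, l', fun i => ?_, ?_⟩
  · have : ¬ Cb.Mx u (s i) := by
      rw [← Cb.rd_eq_zero (hm i)]
      exact wi.ne_zero (.inr i)
    rw [Cb.mx_iff, not_or] at this
    have k := Pl.ord_nonneg_of_mem _ (hm i)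
    omega
  · rw [ee, hL.eq _ ti] at k
    rw [hL.eq _ hi, ch, Pl.ord_mul _ (left_ne_zero_of_mul n0) (right_ne_zero_of_mul n0),
      l'.ord (jac D y), Cb.kap_eq hD]
    push_cast
    rw [k]
    ring

section mono

variable (hK : FF K d) (hK' : FF K' N) (hc : ∀ c, φ (algebraMap ℂ K c) = algebraMap ℂ K' c)
  {y : Fin d → K} {z : Fin N → K'} (hz : AlgebraicIndependent ℂ z) {V : Fin d → Fin N → ℤ}
  (hV : LinearIndependent ℤ V) (hy : ∀ i, φ (y i) = mon z (V i))

include hK hK' hc hz hV hy

omit hK in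
theorem ind_y : AlgebraicIndependent ℂ y :=
  AlgebraicIndependent.of_comp (Cb.ah φ hc)
    ((congrArg (fun w => AlgebraicIndependent ℂ w) (funext hy)).mpr (ind_mon hK' hz hV))

/-- **restriction**: the logarithmic discrepancy does not increase -/
theorem down {u : Pl K'} {R : Pl K} (l : Lies φ u R) : u.ord (φ R.t) * la y R ≤ la z u := by
  obtain ⟨r, e, W, h⟩ := compl hV
  have k : (fun i => mon z ((Matrix.of fun i => Sum.elim V W (e i)) i)) =
      fun i => Sum.elim (fun j => φ (y j)) (fun l => mon z (W l)) (e i) := funext fun i => by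
    change mon z (Sum.elim V W (e i)) = _
    rcases e i with j | j
    exacts [(hy j).symm, rfl]
  have f := Cb.fib_le hK hK' hc l e (k ▸ ind_det hK' hz h)
  rw [← la_mon hK' hz h u, k, la, la,
    e.sum_comp fun o => (u.ord (Sum.elim (fun j => φ (y j)) (fun l => mon z (W l)) o) : ℝ),
    Fintype.sum_sum_type]
  simp only [Sum.elim_inl, Sum.elim_inr, l.ord (y _), Int.cast_mul, ← Finset.mul_sum]
  linarith

/-- **the Gauss lift with the weights `a / D`** -/
theorem up (R : Pl K) {D : ℤ} (hD : D ≠ 0) {a : Fin N → ℤ}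
    (ha : ∀ i, ∑ j, V i j * a j = D * R.ord (y i)) :
    ∃ u : Pl K', Lies φ u R ∧ (∀ j, D * u.ord (z j) = u.ord (φ R.t) * a j) ∧
      la z u = u.ord (φ R.t) * la y R := by
  obtain ⟨r, e, W, h⟩ := compl hV
  have yi := ind_y hK' hc hz hV hy
  let A : Matrix (Fin N) (Fin N) ℤ := Matrix.of fun i => Sum.elim V (fun l => D • W l) (e i)
  have hA : A.det ≠ 0 := by
    have := Matrix.det_mul_column (fun i => Sum.elim (fun _ => 1) (fun _ => D) (e i))
      (Matrix.of fun i => Sum.elim V W (e i))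
    have e1 : A = Matrix.of fun i j => Sum.elim (fun _ => 1) (fun _ => D) (e i) *
        (Matrix.of fun i => Sum.elim V W (e i)) i j := by
      ext i j
      simp only [A, Matrix.of_apply]
      rcases e i with k | k <;> simp
    rw [e1, this]
    refine mul_ne_zero (Finset.prod_ne_zero_iff.2 fun i _ => ?_) h
    rcases e i with k | k
    exacts [one_ne_zero, hD]
  let t : Fin r → K' := fun l => mon z (D • W l)
  let c : Fin r → K := fun l => R.t ^ (-∑ j, W l j * a j)
  have c0 : ∀ l, φ (c l) ≠ 0 := fun l => (map_ne_zero φ).2 (zpow_ne_zero _ R.t_ne)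
  have t0 : ∀ l, t l ≠ 0 := fun l => mon_ne hz.ne_zero _
  have k : (fun i => mon z (A i)) = fun i => Sum.elim (fun j => φ (y j)) t (e i) :=
    funext fun i => by
      change mon z (Sum.elim V (fun l => D • W l) (e i)) = _
      rcases e i with j | j
      exacts [(hy j).symm, rfl]
  have ti := k ▸ ind_det hK' hz hA
  obtain ⟨F, hF⟩ := Cb.fr_of hK yi
  have dm : ∀ L : Fin N → Derivation ℂ K' K',
      jac L (fun i => Sum.elim (fun j => φ (y j)) (fun l => t l * φ (c l)) (e i)) =
        jac L (fun i => Sum.elim (fun j => φ (y j)) t (e i)) * ∏ l, φ (c l) := fun L => by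
    rw [← jac_dt, ← jac_dt]
    exact dt_mul hc (fun i => L (e.symm i)) hF t c
  have p0 := Finset.prod_ne_zero_iff.2 fun l (_ : l ∈ Finset.univ) => c0 l
  obtain ⟨E, hE⟩ := Cb.fr_of hK' ti
  have si : AlgebraicIndependent ℂ
      fun i => Sum.elim (fun j => φ (y j)) (fun l => t l * φ (c l)) (e i) :=
    (Cb.jac_ne_iff hE _).1 (by rwa [dm, Cb.jac_self hE, one_mul])
  obtain ⟨u, l, h0, hk⟩ := gauss hK hK' hc yi e si R
  have oc : ∀ i, u.ord (t i) + u.ord (φ (c i)) = 0 := fun i => by
    rw [← Pl.ord_mul _ (t0 i) (c0 i)]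
    exact h0 i
  refine ⟨u, l, fun j => sub_eq_zero.1 (congrFun (Matrix.eq_zero_of_mulVec_eq_zero hA
    (v := fun j => D * u.ord (z j) - u.ord (φ R.t) * a j) (funext fun i => ?_)) j), ?_⟩
  · have : ∀ b : Fin N → ℤ, b ⬝ᵥ (fun j => D * u.ord (z j) - u.ord (φ R.t) * a j) =
        D * u.ord (mon z b) - u.ord (φ R.t) * ∑ j, b j * a j := fun b => by
      rw [ord_mon u hz.ne_zero, Finset.mul_sum, Finset.mul_sum, ← Finset.sum_sub_distrib]
      exact Finset.sum_congr rfl fun _ _ => by ring
    change Sum.elim V (fun l => D • W l) (e i) ⬝ᵥ _ = 0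
    rw [this]
    rcases e i with i | i
    · rw [Sum.elim_inl, ← hy, l.ord (y i), ha]
      ring
    · have o := oc i
      rw [l.ord (c i), R.ord_t_zpow] at o
      simp only [Sum.elim_inr, Pi.smul_apply, smul_eq_mul, mul_assoc, ← Finset.mul_sum]
      linear_combination D * o
  · obtain ⟨L, hL⟩ := Cb.exists_lf hK' u
    rw [hL.eq _ si, dm, Pl.ord_mul _ (hL.ne _ ti) p0, ord_prod u c0, Int.cast_add,
      ← hL.eq _ ti] at hk
    rw [← la_mon hK' hz hA u, k, la, la,
      e.sum_comp fun o => (u.ord (Sum.elim (fun j => φ (y j)) t o) : ℝ), Fintype.sum_sum_type]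
    have o : ∑ i, (u.ord (t i) : ℝ) + ∑ i, (u.ord (φ (c i)) : ℝ) = 0 := by
      rw [← Finset.sum_add_distrib]
      exact Finset.sum_eq_zero fun i _ => by exact_mod_cast oc i
    simp only [Sum.elim_inl, Sum.elim_inr, l.ord (y _), Int.cast_mul, ← Finset.mul_sum]
    push_cast at hk
    linarith

/-- **the Gauss lift with rational weights** -/
theorem upQ (R : Pl K) {w : Fin N → ℚ} (hw : ∀ i, ∑ j, (V i j : ℚ) * w j = R.ord (y i)) :
    ∃ u : Pl K', Lies φ u R ∧ (∀ j, (u.ord (z j) : ℚ) = u.ord (φ R.t) * w j) ∧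
      la z u = u.ord (φ R.t) * la y R := by
  let D : ℤ := ∏ j, ((w j).den : ℤ)
  have hD : D ≠ 0 := Finset.prod_ne_zero_iff.2 fun j _ => by exact_mod_cast (w j).den_nz
  have : ∀ j, ∃ a : ℤ, (a : ℚ) = D * w j := fun j => by
    obtain ⟨k, hk⟩ : ((w j).den : ℤ) ∣ D := Finset.dvd_prod_of_mem _ (Finset.mem_univ j)
    refine ⟨k * (w j).num, ?_⟩
    rw [hk]
    push_cast
    rw [← Rat.mul_den_eq_num]
    ring
  choose a ha using this
  obtain ⟨u, l, h1, h2⟩ := up hK hK' hc hz hV hy R hD (a := a) fun i => by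
    have := hw i
    rw [← Int.cast_inj (α := ℚ)]
    push_cast
    rw [← this, Finset.mul_sum]
    exact Finset.sum_congr rfl fun j _ => by rw [ha]; ring
  refine ⟨u, l, fun j => mul_left_cancel₀ (Int.cast_ne_zero.2 hD : (D : ℚ) ≠ 0) ?_, h2⟩
  have := congrArg (Int.cast : ℤ → ℚ) (h1 j)
  push_cast at this
  rw [this, ha]
  ring

omit hK hz hV hy in
/-- every place is trivial on `K` or lies above a place of `K` -/
theorem trv_or (u : Pl K') : Trv φ u ∨ ∃ R, Lies φ u R := hK'.ok (Cb.ah φ hc) u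

end mono

end Vale.Agent.P283R.To
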