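import Vale.Agent.P283R.To.Gs2

/-!
# P283R, block TOR: the monomial embedding of a rational function field
-/

open Set
open Vale.Agent.P297Z
open Vale.Agent.P287D

noncomputable section

namespace Vale.Agent.P283R.To

variable {K K' : Type} [Field K] [Field K'] [Algebra ℂ K] [Algebra ℂ K'] {d N : ℕ}

theorem exists_hom {ι : Type} {y : ι → K} (hy : AlgebraicIndependent ℂ y)
    (gen : ∀ x, x ∈ IntermediateField.adjoin ℂ (range y)) {y' : ι → K'}
    (hy' : AlgebraicIndependent ℂ y') : ∃ φ : K →ₐ[ℂ] K', ∀ i, φ (y i) = y' i := by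
  let c : K →ₐ[ℂ] IntermediateField.adjoin ℂ (range y) :=
    (AlgHom.id ℂ K).codRestrict (IntermediateField.adjoin ℂ (range y)).toSubalgebra gen
  have inj : Function.Injective (MvPolynomial.aeval y' : MvPolynomial ι ℂ →ₐ[ℂ] K') := hy'
  refine ⟨(IsFractionRing.liftAlgHom inj).comp (hy.reprField.comp c), fun i => ?_⟩
  have : hy.reprField (c (y i)) = algebraMap (MvPolynomial ι ℂ) _ (MvPolynomial.X i) := by
    refine hy.aevalEquivField.symm_apply_eq.2 (Subtype.ext ?_)
    rw [hy.aevalEquivField_algebraMap_apply_coe, MvPolynomial.aeval_X]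
    rfl
  rw [AlgHom.comp_apply, AlgHom.comp_apply, this, IsFractionRing.liftAlgHom_apply,
    IsFractionRing.lift_algebraMap]
  exact MvPolynomial.aeval_X _ _

omit [Algebra ℂ K] in
theorem mon_mon {ι κ : Type} [Fintype ι] [Fintype κ] {z : κ → K} (hz : ∀ j, z j ≠ 0)
    (V : ι → κ → ℤ) (m : ι → ℤ) :
    mon (fun i => mon z (V i)) m = mon z fun j => ∑ i, m i * V i j := by
  classical
  simp only [mon, ← Finset.prod_zpow, ← zpow_mul]
  rw [Finset.prod_comm]
  refine Finset.prod_congr rfl fun j _ => ?_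
  induction (Finset.univ : Finset ι) using Finset.induction_on with
  | empty => simp
  | insert i s hi ih => rw [Finset.prod_insert hi, Finset.sum_insert hi, zpow_add₀ (hz j), ih,
      mul_comm (m i)]

/-- **the monomial embedding** -/
theorem exists_emb (hK' : FF K' N) {y : Fin d → K} (hy : AlgebraicIndependent ℂ y)
    (gen : ∀ x, x ∈ IntermediateField.adjoin ℂ (range y)) {z : Fin N → K'}
    (hz : AlgebraicIndependent ℂ z) {V : Fin d → Fin N → ℤ} (hV : LinearIndependent ℤ V) :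
    ∃ φ : K →ₐ[ℂ] K', (∀ i, φ (y i) = mon z (V i)) ∧
      ∀ m : Fin d → ℤ, φ (mon y m) = mon z fun j => ∑ i, m i * V i j := by
  obtain ⟨φ, h⟩ := exists_hom hy gen (ind_mon hK' hz hV)
  refine ⟨φ, h, fun m => (map_mon φ.toRingHom y m).trans ?_⟩
  rw [← mon_mon hz.ne_zero]
  exact congrArg (mon · m) (funext h)

omit [Algebra ℂ K] in
theorem mon_nat (z : Fin N → K) (c : Fin N → ℕ) : mon z (fun j => c j) = ∏ j, z j ^ c j := by
  simp [mon]

section cos

variable {φ : K →ₐ[ℂ] K'} {y : Fin d → K} {z : Fin N → K'} {V : Fin d → Fin N → ℤ}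
  (hz : AlgebraicIndependent ℂ z)
  (hφ : ∀ m : Fin d → ℤ, φ (mon y m) = mon z fun j => ∑ i, m i * V i j)

include hz hφ

/-- a polynomial supported in one coset is a monomial times a function from below -/
theorem cos_mem (p : MvPolynomial (Fin N) ℂ) (a : Fin N → ℤ)
    (h : ∀ c ∈ p.support, ∃ m : Fin d → ℤ, ∀ j, (c j : ℤ) - a j = ∑ i, m i * V i j) :
    ∃ g : K, φ g * mon z a = MvPolynomial.aeval z p := by
  choose! m hm using h
  refine ⟨∑ c ∈ p.support, p.coeff c • mon y (m c), ?_⟩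
  rw [MvPolynomial.aeval_def, MvPolynomial.eval₂_eq', map_sum, Finset.sum_mul]
  refine Finset.sum_congr rfl fun c hc => ?_
  rw [map_smul, hφ, smul_mul_assoc, ← mon_add hz.ne_zero, Algebra.smul_def, ← mon_nat]
  congr 2
  funext j
  rw [Pi.add_apply, ← hm c hc j, sub_add_cancel]

/-- the ramification index divides the orders of the invariant functions -/
theorem cos_dvd {u : Pl K'} {R : Pl K} (l : Lies φ.toRingHom u R) {p : MvPolynomial (Fin N) ℂ}
    (hp : p ≠ 0) (a : Fin N → ℤ)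
    (h : ∀ c ∈ p.support, ∃ m : Fin d → ℤ, ∀ j, (c j : ℤ) - a j = ∑ i, m i * V i j) :
    u.ord (φ R.t) ∣ u.ord (MvPolynomial.aeval z p) - ∑ j, a j * u.ord (z j) := by
  obtain ⟨g, hg⟩ := cos_mem hz hφ p a h
  have n0 : MvPolynomial.aeval z p ≠ 0 := fun e => hp (algebraicIndependent_iff.1 hz p e)
  rw [← hg] at n0 ⊢
  rw [Pl.ord_mul _ (left_ne_zero_of_mul n0) (right_ne_zero_of_mul n0), ord_mon u hz.ne_zero,
    add_sub_cancel_right]
  exact ⟨_, l.ord g⟩

end cos

end Vale.Agent.P283R.To
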