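import Vale.Agent.P283R.To.St
import Vale.Agent.P283R.Lp.B

/-!
# P283R, block TOR: the case with an invariant monomial
-/

open Finset
open Vale.Agent.P297Z
open Vale.Agent.P287D

noncomputable section

namespace Vale.Agent.P283R.To

namespace D1

variable {d N : ℕ}

/-- subgroups of a lattice are intersections of subgroups of finite index -/
theorem sep (L : AddSubgroup (Fin N → ℤ)) (x : Fin N → ℤ) :
    ∃ M : AddSubgroup (Fin N → ℤ), M.FiniteIndex ∧ L ≤ M ∧ (x ∈ M → x ∈ L) := by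
  by_cases h : x ∈ L
  · exact ⟨⊤, inferInstance, le_top, fun _ => h⟩
  obtain ⟨c, hc⟩ := CharacterModule.exists_character_apply_ne_zero_of_ne_zero
    (a := (x : (Fin N → ℤ) ⧸ L)) fun e => h ((QuotientAddGroup.eq_zero_iff x).1 e)
  let χ : (Fin N → ℤ) →+ AddCircle (1 : ℚ) :=
    (show ((Fin N → ℤ) ⧸ L) →+ AddCircle (1 : ℚ) from c).comp (QuotientAddGroup.mk' L)
  have : AddGroup.FG (Fin N → ℤ) := Module.Finite.iff_addGroup_fg.1 inferInstance
  have : Finite χ.range := by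
    refine AddCommGroup.finite_of_fg_isAddTorsion _ fun a => ?_
    obtain ⟨q, hq⟩ := QuotientAddGroup.mk_surjective (a : AddCircle (1 : ℚ))
    refine isOfFinAddOrder_iff_nsmul_eq_zero.2 ⟨q.den, q.den_pos, Subtype.ext ?_⟩
    change q.den • (a : AddCircle (1 : ℚ)) = 0
    rw [← hq, ← QuotientAddGroup.mk_nsmul]
    refine (AddCircle.coe_eq_zero_iff _).2 ⟨q.num, ?_⟩
    simp
  refine ⟨χ.ker, inferInstance, fun m hm => ?_, fun hx => absurd hx hc⟩
  change c (m : (Fin N → ℤ) ⧸ L) = 0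
  rw [(QuotientAddGroup.eq_zero_iff m).2 hm, map_zero]

/-- the exponents upstairs -/
def V (ρ : Fin N → Fin d → ℤ) : (Fin d → ℤ) →+ (Fin N → ℤ) where
  toFun m := fun l => m ⬝ᵥ ρ l
  map_zero' := funext fun _ => zero_dotProduct _
  map_add' _ _ := funext fun _ => add_dotProduct _ _ _

theorem V_apply (ρ : Fin N → Fin d → ℤ) (m : Fin d → ℤ) (l : Fin N) : V ρ m l = m ⬝ᵥ ρ l := rfl

theorem V_inj {ρ : Fin N → Fin d → ℤ} (h : Sp 0 ρ) : Function.Injective (V ρ) := by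
  obtain ⟨v, h⟩ := h
  exact (injective_iff_map_eq_zero _).2 fun m hm => h m (fun l => congrFun hm l) fun i => i.elim0

/-- a positive real solution gives a positive rational one -/
theorem rat_pt (ρ : Fin N → Fin d → ℤ) {p : Fin d → ℤ} {w : Fin N → ℝ} (hw : ∀ l, 0 < w l)
    (h : ∀ j, (p j : ℝ) = ∑ l, w l * ρ l j) :
    ∃ w' : Fin N → ℚ, (∀ l, 0 < w' l) ∧ ∀ j, (p j : ℝ) = ∑ l, (w' l : ℝ) * ρ l j := by
  obtain ⟨η, hη, h1⟩ : ∃ η : ℝ, 0 < η ∧ ∀ l, η ≤ w l := by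
    rcases isEmpty_or_nonempty (Fin N) with e | e
    · exact ⟨1, one_pos, fun l => e.elim l⟩
    · obtain ⟨l, hl⟩ := Finite.exists_min w
      exact ⟨w l, hw l, hl⟩
  obtain ⟨r, a, hr, h2, h3⟩ := Lp.ratq (V ρ).range w (by
    rintro _ ⟨m, rfl⟩
    refine ⟨m ⬝ᵥ p, ?_⟩
    simp only [V_apply, dotProduct, Int.cast_sum, Int.cast_mul, h, mul_sum]
    rw [sum_comm]
    exact sum_congr rfl fun j _ => sum_congr rfl fun l _ => by ring) hη
  refine ⟨fun l => a l / r, fun l => ?_, fun j => ?_⟩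
  · have : (0 : ℝ) < a l / r := by linarith [(abs_lt.1 (h3 l)).1, h1 l]
    exact_mod_cast this
  · have := h2 _ ⟨Pi.single j 1, rfl⟩
    simp only [V_apply, single_dotProduct, one_mul] at this
    rw [h j, ← this]
    push_cast
    rfl

variable {K F : Type} [Field K] [Algebra ℂ K] [Field F] [Algebra ℂ F] {y : Fin d → K}
  {z : Fin N → F} {ρ : Fin N → Fin d → ℤ} {φ : K →ₐ[ℂ] F}

theorem map_mon_V (hz : ∀ l, z l ≠ 0) (hφ : ∀ j, φ (y j) = mon z fun l => ρ l j)
    (m : Fin d → ℤ) : φ (mon y m) = mon z (V ρ m) := by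
  have k : ∀ (l) (s : Finset (Fin d)), ∏ j ∈ s, (z l ^ ρ l j) ^ m j = z l ^ ∑ j ∈ s, m j * ρ l j := by
    intro l s
    induction s using Finset.induction_on with
    | empty => simp
    | insert j s hj ih => rw [prod_insert hj, sum_insert hj, ih, zpow_add₀ (hz l), ← zpow_mul,
        mul_comm (ρ l j)]
  simp only [mon, map_prod, map_zpow₀, hφ, ← prod_zpow]
  rw [prod_comm]
  exact prod_congr rfl fun l _ => k l _

/-- the exponent -/
def ex (b : Fin N → ℤ) : Fin N →₀ ℕ := Finsupp.equivFunOnFinite.symm fun l => (b l).toNat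

theorem ex_apply {b : Fin N → ℤ} (hb : ∀ l, 0 ≤ b l) (l : Fin N) : (ex b l : ℤ) = b l :=
  Int.toNat_of_nonneg (hb l)

omit [Algebra ℂ K] in
theorem aeval_ex {b : Fin N → ℤ} (hb : ∀ l, 0 ≤ b l) (c : ℂ) :
    MvPolynomial.aeval z (MvPolynomial.monomial (ex b) c) = c • mon z b := by
  rw [MvPolynomial.aeval_monomial, Finsupp.prod_fintype _ _ (by simp), Algebra.smul_def, mon]
  congr 1
  exact prod_congr rfl fun l _ => by rw [← zpow_natCast, ex_apply hb]

/-- the polynomial upstairs -/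
def pol {α : Type} (ρ : Fin N → Fin d → ℤ) (b : Fin N → ℤ) (S : Finset α) (c : α → ℂ)
    (m : α → Fin d → ℤ) : MvPolynomial (Fin N) ℂ :=
  ∑ a ∈ S, MvPolynomial.monomial (ex (b + V ρ (m a))) (c a)

theorem aeval_pol (hz : ∀ l, z l ≠ 0) (hφ : ∀ j, φ (y j) = mon z fun l => ρ l j) {α : Type}
    {b : Fin N → ℤ} {S : Finset α} (c : α → ℂ) {m : α → Fin d → ℤ}
    (h : ∀ a ∈ S, ∀ l, 0 ≤ (b + V ρ (m a)) l) :
    MvPolynomial.aeval z (pol ρ b S c m) = mon z b * φ (∑ a ∈ S, c a • mon y (m a)) := by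
  rw [pol, map_sum, map_sum, mul_sum]
  refine sum_congr rfl fun a ha => ?_
  rw [aeval_ex (h a ha), map_smul, map_mon_V hz hφ, mon_add hz, mul_smul_comm]

theorem supp_pol {α : Type} {b : Fin N → ℤ} {S : Finset α} (c : α → ℂ) {m : α → Fin d → ℤ}
    (h : ∀ a ∈ S, ∀ l, 0 ≤ (b + V ρ (m a)) l) {s : Fin N →₀ ℕ} (hs : s ∈ (pol ρ b S c m).support) :
    (fun l => (s l : ℤ) - b l) ∈ (V ρ).range := by
  classical
  obtain ⟨a, ha, h1⟩ := mem_biUnion.1 (MvPolynomial.support_sum hs)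
  obtain rfl := mem_singleton.1 (MvPolynomial.support_monomial_subset h1)
  exact ⟨m a, funext fun l => by rw [ex_apply (h a ha)]; simp⟩

theorem pol_ne (hs : Sp 0 ρ) {b : Fin N → ℤ} {g : (Fin d → ℤ) →₀ ℂ} (hg : g ≠ 0)
    (h : ∀ a ∈ g.support, ∀ l, 0 ≤ (b + V ρ a) l) : pol ρ b g.support g id ≠ 0 := by
  classical
  obtain ⟨a, ha⟩ := Finsupp.support_nonempty_iff.2 hg
  intro e
  have := congrArg (MvPolynomial.coeff (ex (b + V ρ a))) e
  rw [pol, MvPolynomial.coeff_sum, sum_eq_single a (fun a' h1 h2 => ?_) (fun h => absurd ha h),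
    id, MvPolynomial.coeff_monomial, if_pos rfl] at this
  · exact Finsupp.mem_support_iff.1 ha this
  · rw [MvPolynomial.coeff_monomial, if_neg fun e => h2 (V_inj hs (add_left_cancel (a := b)
      (funext fun l => ?_)))]
    rw [← ex_apply (h a ha), ← e, id, ex_apply (h a' h1)]

/-- what divides the orders of the polynomials of `M` divides the orders of the invariants -/
theorem dvd_ord (hy : D.Rat y) (hz : ∀ l, z l ≠ 0) (hφ : ∀ j, φ (y j) = mon z fun l => ρ l j)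
    {M : AddSubgroup (Fin N → ℤ)} (hM : M.FiniteIndex) (hle : (V ρ).range ≤ M) (u : Pl F) {e : ℤ}
    (he : ∀ p : MvPolynomial (Fin N) ℂ, p ≠ 0 → (∀ s ∈ p.support, (fun j => (s j : ℤ)) ∈ M) →
      e ∣ u.ord (MvPolynomial.aeval z p)) {a : K} (ha : a ≠ 0) : e ∣ u.ord (φ a) := by
  have key : ∀ (p : MvPolynomial (Fin d) ℂ), MvPolynomial.aeval y p ≠ 0 → ∃ T₀ : ℕ, ∀ T, T₀ ≤ T →
      e ∣ u.ord (mon z (M.index • fun _ => (T : ℤ))) + u.ord (φ (MvPolynomial.aeval y p)) := by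
    intro p hp
    let m : (Fin d →₀ ℕ) → Fin d → ℤ := fun s j => s j
    refine ⟨∑ s ∈ p.support, ∑ l, (V ρ (m s) l).natAbs, fun T hT => ?_⟩
    have h1 : ∀ s ∈ p.support, ∀ l,
        0 ≤ ((M.index • fun _ => (T : ℤ) : Fin N → ℤ) + V ρ (m s)) l := by
      intro s hs l
      have a1 : (V ρ (m s) l).natAbs ≤ T :=
        ((single_le_sum (f := fun l => (V ρ (m s) l).natAbs) (fun _ _ => Nat.zero_le _)
          (mem_univ l)).trans (single_le_sum (f := fun s => ∑ l, (V ρ (m s) l).natAbs)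
            (fun _ _ => Nat.zero_le _) hs)).trans hT
      have a2 : T ≤ M.index * T := Nat.le_mul_of_pos_left _ (Nat.pos_of_ne_zero hM.index_ne_zero)
      have a3 : ((M.index • fun _ => (T : ℤ)) : Fin N → ℤ) l = (M.index * T : ℕ) := by simp
      rw [Pi.add_apply, a3]
      omega
    have h2 : MvPolynomial.aeval y p = ∑ s ∈ p.support, p.coeff s • mon y (m s) := by
      rw [MvPolynomial.aeval_def, MvPolynomial.eval₂_eq']
      exact sum_congr rfl fun s _ => by simp [mon, m, Algebra.smul_def]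
    have h3 := aeval_pol hz hφ (fun s => p.coeff s) h1
    rw [← h2] at h3
    have h4 : φ (MvPolynomial.aeval y p) ≠ 0 := (map_ne_zero φ).2 hp
    rw [← Pl.ord_mul _ (mon_ne hz _) h4, ← h3]
    refine he _ (fun e => mul_ne_zero (mon_ne hz _) h4 (by rw [← h3, e, map_zero])) fun s hs => ?_
    have := M.add_mem (hle (supp_pol _ h1 hs)) (M.nsmul_index_mem fun _ => (T : ℤ))
    exact Lp.mem_of_eq this fun l => by simp
  obtain ⟨p, q, rfl⟩ := (IntermediateField.mem_adjoin_range_iff ℂ y a).1 (hy.gen a)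
  obtain ⟨hp, hq⟩ := div_ne_zero_iff.1 ha
  obtain ⟨T, h1⟩ := key p hp
  obtain ⟨T', h2⟩ := key q hq
  have := dvd_sub (h1 _ (le_max_left T T')) (h2 _ (le_max_right T T'))
  rwa [add_sub_add_left_eq_sub, ← Pl.ord_div _ ((map_ne_zero φ).2 hp) ((map_ne_zero φ).2 hq),
    ← map_div₀] at this

/-- the case of the index type `Fin N` -/
theorem fin_case (td : TD) (emb : EMB) (up : UP) (down : DOWN) (d N Q : ℕ) (hN : 1 ≤ N)
    (hQ : 1 ≤ Q) (ε : ℝ) (hε : 0 < ε) : ∃ n, 1 ≤ n ∧ ∀ (K : Type) [Field K] [Algebra ℂ K]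
      (y : Fin d → K) (ρ : Fin N → Fin d → ℤ) (k : Fin N → ℤ) (g : (Fin d → ℤ) →₀ ℂ),
      Dt Q y ρ k g → Hy (0 < ·) Q ε y ρ k g → Sp 0 ρ → Iv ρ → ∀ P w, (∀ l, 0 < w l) →
        Rp y ρ P w → Cn Q n y ρ k g P := by
  obtain ⟨n, hn, ⟨n', rfl⟩, H⟩ := td N Q hN hQ ε hε
  refine ⟨_, hn, fun K _ _ y ρ k g hD hH hs ⟨m₀, hm₀, hm₁⟩ P w hw hP => ?_⟩
  obtain ⟨F, _, _, z, φ, hz, hφ⟩ := emb d N K y ρ hD.rat hs
  have z0 : ∀ l, z l ≠ 0 := fun l => hz.ind.ne_zero l
  have y0 : ∀ j, y j ≠ 0 := fun j => hD.rat.ind.ne_zero j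
  have Q0 : (0 : ℝ) < Q := by exact_mod_cast hQ
  have n0 : (0 : ℝ) < n' := by exact_mod_cast Nat.pos_of_mul_pos_left hn
  let b : Fin N → ℤ := fun l => Q - k l
  have hb : ∀ a ∈ g.support, ∀ l, 0 ≤ (b + V ρ a) l := fun a ha l => by
    have := hD.eff a ha l
    simp only [Pi.add_apply, b, V_apply]
    omega
  have f0 := pol_ne hs hD.ne hb
  have hf : MvPolynomial.aeval z (pol ρ b g.support g id) = mon z b * φ (lau y g) :=
    aeval_pol z0 hφ _ hb
  have g0 : lau y g ≠ 0 := fun e => f0 (hz.ind.eq_zero_of_aeval_eq_zero _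
    (by rw [hf, e, map_zero, mul_zero]))
  have key : ∀ (u : Pl F) (R : Pl K) (e : ℕ), (∀ a, a ≠ 0 → u.ord (φ a) = e * R.ord a) →
      1 + kap z u - (u.ord (MvPolynomial.aeval z (pol ρ b g.support g id)) : ℝ) / Q =
        la z u - e * (R.ord (lau y g) : ℝ) / Q + (∑ l, (u.ord (z l) : ℝ) * k l) / Q := by
    intro u R e he
    rw [hf, Pl.ord_mul _ (mon_ne z0 _) ((map_ne_zero φ).2 g0), ord_mon u z0, he _ g0, la]
    have : ∑ l, ((b l : ℝ)) * u.ord (z l) =
        Q * ∑ l, (u.ord (z l) : ℝ) - ∑ l, (u.ord (z l) : ℝ) * k l := by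
      rw [mul_sum, ← sum_sub_distrib]
      exact sum_congr rfl fun l _ => by simp only [b]; push_cast; ring
    push_cast
    rw [this]
    field_simp
    ring
  obtain ⟨w', hw', hP'⟩ := rat_pt ρ hw hP
  obtain ⟨u, e, he, h1, h2, h3⟩ := up d N K F y z ρ φ hD.rat hz hφ P w' hP'
  have e0 : (0 : ℝ) < e := by exact_mod_cast he
  have h4 : ∀ l, (u.ord (z l) : ℝ) = e * w' l := fun l => by exact_mod_cast h2 l
  have h5 : ∀ l, 0 < u.ord (z l) := fun l => by
    have : (0 : ℚ) < u.ord (z l) := h2 l ▸ mul_pos (by exact_mod_cast he) (hw' l)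
    exact_mod_cast this
  obtain ⟨B, hB⟩ := exists_nat_ge ((Q * n' : ℕ) * (1 + kap z u -
    (u.ord (MvPolynomial.aeval z (pol ρ b g.support g id)) : ℝ) / Q))
  let x : (Fin N → ℕ) → Fin N → ℤ := fun c j => (c j : ℤ) - (Q * n' : ℕ) + (Q * n' / Q : ℕ) * b j
  choose M hM1 hM2 hM3 using fun c => sep (V ρ).range (x c)
  let T : Finset (Fin N → ℕ) := Fintype.piFinset fun _ => range (B + 1)
  have hfi : (⨅ c ∈ T, M c).FiniteIndex := AddSubgroup.finiteIndex_iInf' M fun c _ => hM1 c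
  have hle : (V ρ).range ≤ ⨅ c ∈ T, M c := le_iInf₂ fun c _ => hM2 c
  obtain ⟨c, hc, hlt⟩ := H F z (⨅ c ∈ T, M c) b _ hz hfi f0 (fun s hs => hle (supp_pol _ hb hs))
    (fun v hv e' he' => by
      obtain ⟨R, r, hr, a1, a2⟩ := down d N K F y z ρ φ hD.rat hz hφ v ⟨mon y m₀, mon_ne y0 _, by
        rw [map_mon_V z0 hφ, ord_mon v z0]
        obtain ⟨l, hl⟩ := Function.ne_iff.1 fun e => hm₀ (V_inj hs (e.trans (map_zero _).symm))
        exact (sum_pos' (fun l _ => mul_nonneg (hm₁ l) (hv l).le)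
          ⟨l, mem_univ l, mul_pos (lt_of_le_of_ne (hm₁ l) (Ne.symm hl)) (hv l)⟩).ne'⟩
      have r0 : (0 : ℝ) < r := by exact_mod_cast hr
      have a3 : e' ≤ r := by
        have := dvd_ord hD.rat z0 hφ hfi hle v he' (Pb.t_ne R)
        rw [a1 _ (Pb.t_ne R), Pb.ord_t, mul_one] at this
        exact Nat.le_of_dvd hr (by exact_mod_cast this)
      have a4 := hH R (fun l => v.ord (z l) / r)
        (fun l => div_pos (by exact_mod_cast hv l) r0) fun j => by
          have := a1 _ (y0 j)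
          rw [hφ, ord_mon v z0] at this
          have : ∑ l, (ρ l j : ℝ) * v.ord (z l) = r * R.ord (y j) := by exact_mod_cast this
          refine mul_left_cancel₀ r0.ne' ?_
          rw [← this, mul_sum]
          exact sum_congr rfl fun l _ => by field_simp
      have a5 : ∑ l, (v.ord (z l) : ℝ) * k l = r * ∑ l, (v.ord (z l) : ℝ) / r * k l := by
        rw [mul_sum]
        exact sum_congr rfl fun l _ => by field_simp
      have a6 : ε * e' ≤ ε * r := mul_le_mul_of_nonneg_left (by exact_mod_cast a3) hε.le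
      have a7 := mul_le_mul_of_nonneg_left a4 r0.le
      rw [key v R r a1, a5]
      rw [al, mul_add, mul_sub] at a7
      simp only [mul_div_assoc] at a7 ⊢
      linarith) u h5
  have n1 : (0 : ℝ) < (Q * n' : ℕ) := by exact_mod_cast hn
  have hlt' : ∑ j, (c j : ℝ) * u.ord (z j) < (Q * n' : ℕ) * (1 + kap z u -
      (u.ord (MvPolynomial.aeval z (pol ρ b g.support g id)) : ℝ) / Q) := by
    rw [← div_lt_iff₀' n1]
    linarith
  have hT : c ∈ T := Fintype.mem_piFinset.2 fun l => mem_range.2 (Nat.lt_succ_of_le (by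
    have a1 : (c l : ℝ) * u.ord (z l) ≤ ∑ j, (c j : ℝ) * u.ord (z j) :=
      single_le_sum (f := fun j => (c j : ℝ) * u.ord (z j))
        (fun j _ => mul_nonneg (Nat.cast_nonneg _) (by exact_mod_cast (h5 j).le)) (mem_univ l)
    have a2 : (1 : ℝ) ≤ u.ord (z l) := by exact_mod_cast h5 l
    have a3 : (c l : ℝ) ≤ B := by nlinarith [Nat.cast_nonneg (α := ℝ) (c l)]
    exact_mod_cast a3))
  obtain ⟨m, hm⟩ := hM3 c ((iInf₂_le c hT : (⨅ c ∈ T, M c) ≤ M c) hc)
  have hm' : ∀ l, m ⬝ᵥ ρ l = c l - n' * k l := fun l => by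
    have := congrFun hm l
    simp only [V_apply, x, b, Nat.mul_div_cancel_left _ hQ] at this
    rw [this]
    push_cast
    ring
  refine ⟨m, fun l => ?_, ?_⟩
  · rw [hm']
    push_cast
    nlinarith [mul_nonneg (Int.natCast_nonneg Q) (Int.natCast_nonneg (c l))]
  · have a1 : e * ∑ j, (m j : ℝ) * P.ord (y j) =
        ∑ l, (c l : ℝ) * u.ord (z l) - n' * ∑ l, (u.ord (z l) : ℝ) * k l := by
      have := h1 _ (mon_ne y0 m)
      rw [map_mon_V z0 hφ, ord_mon u z0, ord_mon P y0] at this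
      have : ∑ l, ((V ρ m l : ℤ) : ℝ) * u.ord (z l) = e * ∑ j, (m j : ℝ) * P.ord (y j) := by
        exact_mod_cast this
      rw [← this, mul_sum, ← sum_sub_distrib]
      exact sum_congr rfl fun l _ => by rw [V_apply, hm']; push_cast; ring
    rw [key u P e h1] at hlt'
    refine lt_of_mul_lt_mul_left ?_ e0.le
    have a2 := mul_le_mul_of_nonneg_left h3 n1.le
    have a3 : ((Q * n' : ℕ) : ℝ) * ((∑ l, (u.ord (z l) : ℝ) * k l) / Q) =
        n' * ∑ l, (u.ord (z l) : ℝ) * k l := by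
      push_cast
      field_simp
    rw [a1, al]
    rw [mul_add, a3] at hlt'
    simp only [mul_div_assoc] at hlt'
    nlinarith

end D1

/-- **D1** -/
theorem d1_of (td : TD) (emb : EMB) (up : UP) (down : DOWN) : D1 := by
  intro d N Q hQ ε hε
  rcases Nat.eq_zero_or_pos N with rfl | hN
  · refine ⟨1, le_rfl, fun K _ _ y ι _ ρ k g _ _ P w ⟨h0, ⟨v, h1⟩, m, h2, _⟩ => ?_⟩
    have := Fintype.card_eq_zero_iff.1 h0
    exact absurd (h1 m (fun l => isEmptyElim l) fun i => i.elim0) h2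
  obtain ⟨n, hn, H⟩ := D1.fin_case td emb up down d N Q hN hQ ε hε
  refine ⟨n, hn, fun K _ _ y ι _ ρ k g hD hH P w ⟨h0, ⟨v, h1⟩, m, h2, h3⟩ hw hP => ?_⟩
  let e : Fin N ≃ ι := (Fintype.equivFinOfCardEq h0).symm
  obtain ⟨m', a1, a2⟩ := H K y (fun l => ρ (e l)) (fun l => k (e l)) g
    ⟨hD.rat, hD.ne, fun m hm l => hD.eff m hm _⟩
    (fun R u hu hR => by
      have := hH R (fun l => u (e.symm l)) (fun l => hu _) fun j => by
        rw [hR j, ← e.sum_comp]
        simp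
      rwa [← e.sum_comp, show (∑ l, u (e.symm (e l)) * (k (e l) : ℝ)) = ∑ l, u l * k (e l) by
        simp] at this)
    ⟨v, fun m h => h1 m fun l => by simpa using h (e.symm l)⟩ ⟨m, h2, fun l => h3 _⟩ P
    (fun l => w (e l)) (fun l => hw _) fun j => by rw [hP j, ← e.sum_comp]
  exact ⟨m', fun l => by simpa using a1 (e.symm l), a2⟩

end Vale.Agent.P283R.To
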