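import Vale.Agent.P283R.Lp.A
import Vale.Agent.P283.Z647.Cone

/-!
# P283R, block TOR: linear algebra for sublattices of arbitrary rank
-/

namespace Vale.Agent.P283R.To

open Filter Finset
open Vale.Agent.P283.H647 (limLat)

variable {ι : Type} [Fintype ι]

/-- integral solutions of homogeneous inequalities, any finite index type -/
theorem farkas_int' {α κ : Type} [Fintype α] [Fintype κ] (A : α → κ → ℤ) (P : α → Prop)
    (h : ∀ x : α → ℚ, (∀ i, 0 ≤ x i) → (∀ k, ∑ i, x i * A i k = 0) → ∀ i, P i → x i = 0) :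
    ∃ u : κ → ℤ, ∀ i, 0 ≤ ∑ k, A i k * u k ∧ (P i → 0 < ∑ k, A i k * u k) := by
  classical
  let e := Fintype.equivFin κ
  obtain ⟨u, hu⟩ := Vale.Agent.P283.Z647.farkas_int (fun i k => A i (e.symm k)) P
    (fun x hx hA => h x hx fun k => by simpa using hA (e k))
  refine ⟨fun k => u (e k), fun i => ?_⟩
  have h1 : ∑ k, A i k * u (e k) = ∑ k, A i (e.symm k) * u k := by
    rw [← e.symm.sum_comp]; simp
  rw [h1]
  exact hu i

/-- **strict complementarity**: an additive function on `L` which is nonnegative on the nonnegative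
vectors is given by nonnegative weights, which vanish exactly on the support of one nonnegative
vector of `L`. -/
theorem gt (L : AddSubgroup (ι → ℤ)) (φ : L →+ ℤ)
    (hφ : ∀ u : L, (∀ j, 0 ≤ u.1 j) → 0 ≤ φ u) :
    ∃ (D : ℕ) (w : ι → ℕ) (u₀ : ι → ℕ), 0 < D ∧ (∀ u : L, ∑ j, u.1 j * w j = D * φ u) ∧
      (fun j => (u₀ j : ℤ)) ∈ L ∧ ∀ j, 0 < u₀ j ↔ w j = 0 := by
  classical
  let J : ι → Prop := fun j => ∃ u : L, (∀ i, 0 ≤ u.1 i) ∧ φ u = 0 ∧ 0 < u.1 j
  have hw : ∀ j, ∃ u : L, (∀ i, 0 ≤ u.1 i) ∧ φ u = 0 ∧ (J j → 0 < u.1 j) := fun j => by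
    by_cases hj : J j
    · obtain ⟨u, h1, h2, h3⟩ := hj
      exact ⟨u, h1, h2, fun _ => h3⟩
    · exact ⟨0, fun _ => le_rfl, map_zero φ, fun h => absurd h hj⟩
  choose v hv0 hvφ hvJ using hw
  let us : L := ∑ j, v j
  have hus : ∀ i, us.1 i = ∑ j, (v j).1 i := fun i => by
    simp only [us, AddSubgroup.val_finsetSum, Finset.sum_apply]
  have hus0 : ∀ i, 0 ≤ us.1 i := fun i => by
    rw [hus]; exact sum_nonneg fun j _ => hv0 j i
  have husφ : φ us = 0 := by
    simp only [us, map_sum, hvφ, sum_const_zero]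
  have husJ : ∀ i, J i → 0 < us.1 i := fun i hi => by
    rw [hus]
    exact lt_of_lt_of_le (hvJ i hi) (single_le_sum (f := fun j => (v j).1 i)
      (fun j _ => hv0 j i) (mem_univ i))
  obtain ⟨S, hS⟩ : (⊤ : Submodule ℤ L).FG := by
    have : Module.Finite ℤ L :=
      Module.Finite.of_injective (AddSubgroup.toIntSubmodule L).subtype Subtype.val_injective
    exact Module.Finite.fg_top
  let A : (Option ι) ⊕ (S × Bool) → Option ι → ℤ := Sum.elim
    (fun i k => if i = k then 1 else 0)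
    (fun s k => (if s.2 then 1 else -1) * k.elim (-φ s.1.1) fun j => s.1.1.1 j)
  let P : (Option ι) ⊕ (S × Bool) → Prop := Sum.elim (fun i => i.elim True fun j => ¬ J j)
    fun _ => False
  obtain ⟨U, hU⟩ := farkas_int' A P (by
    intro x hx hA
    let y : S → ℚ := fun s => x (.inr (s, false)) - x (.inr (s, true))
    have hk : ∀ k : Option ι, x (.inl k) =
        ∑ s : S, y s * ((k.elim (-φ s.1) fun j => s.1.1 j : ℤ) : ℚ) := fun k => by
      have h1 := hA k
      rw [Fintype.sum_sum_type, Fintype.sum_prod_type] at h1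
      have h2 : ∑ i : Option ι, x (.inl i) * (A (.inl i) k : ℚ) = x (.inl k) := by
        rw [sum_eq_single k]
        · simp [A]
        · intro b _ hb; simp [A, hb]
        · intro h; exact absurd (mem_univ _) h
      rw [h2] at h1
      have h3 : ∑ s : S, ∑ b : Bool, x (.inr (s, b)) * (A (.inr (s, b)) k : ℚ) =
          -∑ s : S, y s * ((k.elim (-φ s.1) fun j => s.1.1 j : ℤ) : ℚ) := by
        rw [← sum_neg_distrib]
        refine sum_congr rfl fun s _ => ?_
        rw [Fintype.sum_bool]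
        simp only [A, y, Sum.elim_inr, if_true, Bool.false_eq_true, if_false]
        push_cast
        ring
      rw [h3] at h1
      linarith
    obtain ⟨D, hD⟩ : ∃ D : ℕ, 0 < D ∧ ∀ s : S, ∃ z : ℤ, (D : ℚ) * y s = z := by
      refine ⟨∏ s : S, (y s).den, prod_pos fun s _ => (y s).den_pos, fun s => ?_⟩
      obtain ⟨c, hc⟩ : (y s).den ∣ ∏ s : S, (y s).den := dvd_prod_of_mem _ (mem_univ s)
      refine ⟨c * (y s).num, ?_⟩
      rw [hc]
      push_cast
      rw [mul_right_comm, mul_comm ((y s).den : ℚ), Rat.mul_den_eq_num, mul_comm]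
    obtain ⟨hD0, hD⟩ := hD
    choose z hz using hD
    have hDq : (0 : ℚ) < D := by exact_mod_cast hD0
    let u : L := ∑ s : S, z s • s.1
    have hu : ∀ j, ((u.1 j : ℤ) : ℚ) = D * x (.inl (some j)) := fun j => by
      rw [hk, mul_sum]
      simp only [u, AddSubgroup.val_finsetSum, Finset.sum_apply, AddSubgroup.coe_zsmul,
        Pi.smul_apply, smul_eq_mul, Option.elim]
      push_cast
      exact sum_congr rfl fun s _ => by rw [← hz]; ring
    have huφ : ((φ u : ℤ) : ℚ) = -(D * x (.inl none)) := by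
      rw [hk, mul_sum, ← sum_neg_distrib]
      simp only [u, map_sum, map_zsmul, smul_eq_mul, Option.elim]
      push_cast
      exact sum_congr rfl fun s _ => by rw [← hz]; ring
    have hu0 : ∀ j, 0 ≤ u.1 j := fun j => by
      have : (0 : ℚ) ≤ ((u.1 j : ℤ) : ℚ) := by
        rw [hu]; exact mul_nonneg hDq.le (hx _)
      exact_mod_cast this
    have h5 : (0 : ℚ) ≤ ((φ u : ℤ) : ℚ) := by exact_mod_cast hφ u hu0
    have h6 : 0 ≤ D * x (.inl none) := mul_nonneg hDq.le (hx _)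
    have h7 : D * x (.inl none) = 0 := by linarith
    have h8 : φ u = 0 := by
      have : ((φ u : ℤ) : ℚ) = 0 := by rw [huφ, h7, neg_zero]
      exact_mod_cast this
    rintro (i | s) hP
    · cases i with
      | none => exact (mul_eq_zero.1 h7).resolve_left hDq.ne'
      | some j =>
        have h9 : ¬ 0 < u.1 j := fun h => hP ⟨u, hu0, h8, h⟩
        have h10 : u.1 j = 0 := le_antisymm (not_lt.1 h9) (hu0 j)
        have h11 := hu j
        rw [h10] at h11
        exact (mul_eq_zero.1 (by exact_mod_cast h11.symm)).resolve_left hDq.ne'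
    · exact hP.elim)
  have hUi : ∀ i : Option ι, ∑ k, A (.inl i) k * U k = U i := fun i => by
    rw [sum_eq_single i]
    · simp [A]
    · intro b _ hb; simp [A, Ne.symm hb]
    · intro h; exact absurd (mem_univ _) h
  have hU0 : ∀ i, 0 ≤ U i := fun i => hUi i ▸ (hU (.inl i)).1
  have hD : 0 < U none := hUi none ▸ (hU (.inl none)).2 trivial
  have hUJ : ∀ j, ¬ J j → 0 < U (some j) := fun j hj => hUi (some j) ▸ (hU (.inl (some j))).2 hj
  have hgen : ∀ s : S, ∑ j, s.1.1 j * U (some j) = U none * φ s.1 := fun s => by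
    have h1 := (hU (.inr (s, true))).1
    have h2 := (hU (.inr (s, false))).1
    rw [Fintype.sum_option] at h1 h2
    simp only [A, Sum.elim_inr, if_true, Bool.false_eq_true, if_false, Option.elim, one_mul,
      neg_mul, neg_neg, sum_neg_distrib] at h1 h2
    linarith
  have hall : ∀ u : L, ∑ j, u.1 j * U (some j) = U none * φ u := fun u => by
    have hu : u ∈ Submodule.span ℤ (S : Set L) := hS ▸ Submodule.mem_top
    induction hu using Submodule.span_induction with
    | mem a ha => exact hgen ⟨a, ha⟩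
    | zero => simp
    | add a b _ _ ha hb =>
      simp only [AddSubgroup.coe_add, Pi.add_apply, add_mul, sum_add_distrib, map_add, ha, hb]
      ring
    | smul c a _ ha =>
      simp only [AddSubgroup.coe_zsmul, Pi.smul_apply, smul_eq_mul, map_zsmul, mul_assoc,
        ← mul_sum, ha]
      ring
  have hz : ∀ j, us.1 j * U (some j) = 0 := by
    have h1 := hall us
    rw [husφ, mul_zero] at h1
    exact fun j => (sum_eq_zero_iff_of_nonneg fun j _ => mul_nonneg (hus0 j) (hU0 _)).1 h1 j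
      (mem_univ j)
  refine ⟨(U none).toNat, fun j => (U (some j)).toNat, fun j => (us.1 j).toNat, by omega,
    fun u => ?_, ?_, fun j => ⟨fun h => ?_, fun h => ?_⟩⟩
  · simp only [Int.toNat_of_nonneg (hU0 _)]
    exact hall u
  · simp only [Int.toNat_of_nonneg (hus0 _)]
    exact us.2
  · beta_reduce at h ⊢
    have h1 : us.1 j ≠ 0 := by omega
    have h2 := (mul_eq_zero.1 (hz j)).resolve_left h1
    omega
  · beta_reduce at h ⊢
    have h1 : J j := by
      by_contra hj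
      have := hUJ j hj
      omega
    have := husJ j h1
    omega

/-- if the annihilator of the limit lattice is larger than the annihilators of the lattices, there
are small vectors of the dual lattices outside these annihilators -/
theorem small (U : Ultrafilter ℕ) (M : ℕ → AddSubgroup (ι → ℤ))
    (hne : ∀ᶠ i in U, ∃ a : ι → ℝ, (∀ m ∈ limLat U M, ∑ j, a j * m j = 0) ∧
      ∃ m ∈ M i, ∑ j, a j * m j ≠ 0) {η : ℝ} (hη : 0 < η) :
    ∀ᶠ i in U, ∃ y : ι → ℝ, (∀ m ∈ M i, ∃ k : ℤ, ∑ j, y j * m j = k) ∧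
      (∀ m ∈ limLat U M, ∑ j, y j * m j = 0) ∧ (∀ j, |y j| < η) ∧
      ∃ m ∈ M i, ∑ j, y j * m j ≠ 0 := by
  classical
  let H : Submodule ℝ (ι → ℝ) :=
    { carrier := {a | ∀ m ∈ limLat U M, ∑ j, a j * m j = 0}
      zero_mem' := fun m _ => by simp
      add_mem' := fun {a b} ha hb m hm => by
        simp only [Pi.add_apply, add_mul, sum_add_distrib, ha m hm, hb m hm, add_zero]
      smul_mem' := fun c a ha m hm => by
        simp only [Pi.smul_apply, smul_eq_mul, mul_assoc, ← mul_sum, ha m hm, mul_zero] }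
  obtain ⟨π, hπ⟩ : ∃ π : (ι → ℝ) →ₗ[ℝ] H, ∀ x : H, π x = x := by
    obtain ⟨C, hC⟩ := H.exists_isCompl
    exact ⟨H.projectionOnto C hC, fun x => Submodule.projectionOnto_apply_left hC x⟩
  let b : ι → ι → ℝ := fun k => (π (Pi.single k 1)).1
  have hb : ∀ k, b k ∈ H := fun k => (π _).2
  have hrep : ∀ x ∈ H, ∀ j, x j = ∑ k, x k * b k j := fun x hx j => by
    have h1 : x = ∑ k, x k • (Pi.single k (1 : ℝ) : ι → ℝ) := by
      ext i
      simp [Finset.sum_apply, Pi.single_apply]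
    have h2 : (π x).1 = x := congrArg Subtype.val (hπ ⟨x, hx⟩)
    have h3 : π x = ∑ k, x k • π (Pi.single k 1) := by
      conv_lhs => rw [h1]
      simp only [map_sum, map_smul]
    have h4 := congrFun h2 j
    rw [h3] at h4
    rw [← h4]
    simp only [b, AddSubmonoidClass.coe_finsetSum, Finset.sum_apply, SetLike.val_smul,
      Pi.smul_apply, smul_eq_mul]
  have hlin : ∀ x ∈ H, ∀ m : ι → ℤ, ∑ j, x j * m j = ∑ k, x k * ∑ j, b k j * m j :=
    fun x hx m => by
      simp only [mul_sum]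
      rw [sum_comm]
      refine sum_congr rfl fun j _ => ?_
      conv_lhs => rw [hrep x hx j]
      rw [sum_mul]
      exact sum_congr rfl fun k _ => by ring
  set B : ℝ := ∑ k, ∑ j, |b k j| + 1 with hB
  have hB0 : 0 ≤ ∑ k, ∑ j, |b k j| := sum_nonneg fun _ _ => sum_nonneg fun _ _ => abs_nonneg _
  have hBp : 0 < B := by linarith
  have hbB : ∀ k j, |b k j| ≤ B := fun k j => by
    have h1 : |b k j| ≤ ∑ j, |b k j| :=
      single_le_sum (f := fun j => |b k j|) (fun _ _ => abs_nonneg _) (mem_univ j)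
    have h2 : ∑ j, |b k j| ≤ ∑ k, ∑ j, |b k j| :=
      single_le_sum (f := fun k => ∑ j, |b k j|)
        (fun _ _ => sum_nonneg fun _ _ => abs_nonneg _) (mem_univ k)
    linarith
  set t : ℝ := η / (2 * B) with ht
  have htp : 0 < t := by positivity
  set c : ℝ := (Fintype.card ι : ℝ) with hc
  have hc0 : 0 ≤ c := by positivity
  set θ : ℝ := min (η / 2) (t / (c + 1)) with hθ
  have hθp : 0 < θ := lt_min (by positivity) (by positivity)
  have hd : ∀ᶠ i in U, ∀ k, ∃ y : ι → ℝ, (∀ m ∈ M i, ∃ k : ℤ, ∑ j, y j * m j = k) ∧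
      (∀ m ∈ limLat U M, ∑ j, y j * m j = 0) ∧ ∀ j, |y j - t * b k j| < θ :=
    eventually_all.2 fun k => Lp.dens U M (fun j => t * b k j) (H.smul_mem t (hb k)) hθp
  filter_upwards [hne, hd] with i hi hy
  obtain ⟨a, ha, m, hm, ham⟩ := hi
  let l : ι → ℝ := fun k => |∑ j, b k j * m j|
  have hne' : Nonempty ι := by
    by_contra h
    rw [not_nonempty_iff] at h
    exact ham (by simp)
  obtain ⟨k, hk⟩ := Finite.exists_max l
  have hlp : 0 < l k := by
    by_contra h
    apply ham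
    rw [hlin a ha m]
    refine sum_eq_zero fun k' _ => ?_
    have h1 : l k' ≤ 0 := (hk k').trans (not_lt.1 h)
    rw [abs_nonpos_iff.1 h1, mul_zero]
  obtain ⟨y, hy1, hy2, hy3⟩ := hy k
  refine ⟨y, hy1, hy2, fun j => ?_, m, hm, fun h0 => ?_⟩
  · have h1 : |t * b k j| ≤ η / 2 := by
      rw [abs_mul, abs_of_pos htp]
      calc t * |b k j| ≤ t * B := mul_le_mul_of_nonneg_left (hbB k j) htp.le
        _ = η / 2 := by rw [ht]; field_simp
    have h2 := hy3 j
    have h3 : θ ≤ η / 2 := min_le_left _ _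
    have h4 : |y j| ≤ |y j - t * b k j| + |t * b k j| := by
      simpa using abs_add_le (y j - t * b k j) (t * b k j)
    linarith
  · have hx : (fun j => y j - t * b k j) ∈ H := H.sub_mem (show y ∈ H from hy2)
      (H.smul_mem t (hb k))
    have h1 := hlin _ hx m
    have h2 : ∑ j, (y j - t * b k j) * m j = -(t * ∑ j, b k j * m j) := by
      simp only [sub_mul, sum_sub_distrib, h0, mul_assoc, ← mul_sum, zero_sub]
    have h3 : |∑ k', (y k' - t * b k k') * ∑ j, b k' j * m j| ≤ c * (θ * l k) := by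
      refine (abs_sum_le_sum_abs _ _).trans ?_
      rw [hc, ← card_univ, ← nsmul_eq_mul, ← sum_const]
      refine sum_le_sum fun k' _ => ?_
      rw [abs_mul]
      exact mul_le_mul (hy3 k').le (hk k') (abs_nonneg _) hθp.le
    rw [← h1, h2, abs_neg, abs_mul, abs_of_pos htp] at h3
    have h4 : θ * (c + 1) ≤ t := (le_div_iff₀ (by positivity)).1 (min_le_right _ _)
    have h5 : 0 < θ * l k := mul_pos hθp hlp
    have h6 : θ * (c + 1) * l k ≤ t * l k := mul_le_mul_of_nonneg_right h4 hlp.le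
    change t * l k ≤ _ at h3
    nlinarith

/-- density off the annihilators -/
theorem avoid (U : Ultrafilter ℕ) (M : ℕ → AddSubgroup (ι → ℤ))
    (hne : ∀ᶠ i in U, ∃ a : ι → ℝ, (∀ m ∈ limLat U M, ∑ j, a j * m j = 0) ∧
      ∃ m ∈ M i, ∑ j, a j * m j ≠ 0) (w z : ι → ℝ)
    (hz : ∀ m ∈ limLat U M, ∑ j, z j * m j = 0) {η : ℝ} (hη : 0 < η) :
    ∀ᶠ i in U, ∃ y : ι → ℝ, (∀ m ∈ M i, ∃ k : ℤ, ∑ j, y j * m j = k) ∧
      (∀ m ∈ limLat U M, ∑ j, y j * m j = 0) ∧ (∀ j, |y j - z j| < η) ∧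
      ∃ m ∈ M i, ∑ j, (w j + y j) * m j ≠ 0 := by
  filter_upwards [Lp.dens U M z hz (half_pos hη), small U M hne (half_pos hη)] with i h1 h2
  obtain ⟨y, y1, y2, y3⟩ := h1
  obtain ⟨g, g1, g2, g3, m, hm, g4⟩ := h2
  by_cases h : ∑ j, (w j + y j) * m j = 0
  · refine ⟨fun j => y j + g j, fun m hm => ?_, fun m hm => ?_, fun j => ?_, m, hm, ?_⟩
    · obtain ⟨k, hk⟩ := y1 m hm
      obtain ⟨k', hk'⟩ := g1 m hm
      exact ⟨k + k', by simp only [add_mul, sum_add_distrib, hk, hk']; push_cast; rfl⟩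
    · simp only [add_mul, sum_add_distrib, y2 m hm, g2 m hm, add_zero]
    · have h3 := abs_add_le (y j - z j) (g j)
      have h4 : y j + g j - z j = y j - z j + g j := by ring
      rw [h4]
      linarith [y3 j, g3 j]
    · have h3 : ∑ j, (w j + (y j + g j)) * m j = ∑ j, (w j + y j) * m j + ∑ j, g j * m j := by
        rw [← sum_add_distrib]
        exact sum_congr rfl fun j _ => by ring
      rw [h3, h, zero_add]
      exact g4
  · exact ⟨y, y1, y2, fun j => (y3 j).trans (half_lt_self hη), m, hm, h⟩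

/-- the two cases -/
theorem cases (U : Ultrafilter ℕ) (M : ℕ → AddSubgroup (ι → ℤ)) :
    (∀ᶠ i in U, ∃ a : ι → ℝ, (∀ m ∈ limLat U M, ∑ j, a j * m j = 0) ∧
      ∃ m ∈ M i, ∑ j, a j * m j ≠ 0) ∨
    ∀ᶠ i in U, ∀ a : ι → ℝ, (∀ m ∈ limLat U M, ∑ j, a j * m j = 0) →
      ∀ m ∈ M i, ∑ j, a j * m j = 0 := by
  refine (U.em _).imp_right fun h => h.mono fun i hi a ha m hm => ?_
  by_contra h1
  exact hi ⟨a, ha, m, hm, h1⟩

/-- if the annihilators of `L` and `M` agree, the vertices for `L` beat every monomial for `M` -/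
theorem same {L M : AddSubgroup (ι → ℤ)} {κ : ι → ℤ} {n : ℕ} {V : Finset (ι → ℕ)} (hn : 0 < n)
    (hV : ∀ (w : ι → ℝ) (s : ℝ), (∀ j, 0 ≤ w j) → (∀ c ∈ V, n * s ≤ ∑ j, c j * w j) →
      ∃ ζ : ι → ℝ, (∀ m ∈ L, ∑ j, ζ j * m j = 0) ∧ (∀ j, 0 ≤ w j + ζ j) ∧
        s ≤ -∑ j, ζ j * κ j)
    (hM : ∀ a : ι → ℝ, (∀ m ∈ L, ∑ j, a j * m j = 0) → ∀ m ∈ M, ∑ j, a j * m j = 0)
    {r : ℕ} (hr : 0 < r) (c₀ : ι → ℕ) (hc : (fun j => (c₀ j : ℤ) - r * κ j) ∈ M)
    (w : ι → ℝ) (hw : ∀ j, 0 ≤ w j) :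
    ∃ c ∈ V, (r : ℝ) * ∑ j, c j * w j ≤ n * ∑ j, c₀ j * w j := by
  by_contra hc'
  push Not at hc'
  have hrp : (0 : ℝ) < r := by exact_mod_cast hr
  have hnp : (0 : ℝ) < n := by exact_mod_cast hn
  obtain ⟨s, hs1, hs2⟩ : ∃ s : ℝ, ∑ j, (c₀ j : ℝ) * w j < r * s ∧
      ∀ c ∈ V, n * s ≤ ∑ j, c j * w j := by
    rcases V.eq_empty_or_nonempty with h | h
    · refine ⟨(∑ j, (c₀ j : ℝ) * w j + 1) / r, ?_, by simp [h]⟩
      rw [mul_div_cancel₀ _ hrp.ne']; linarith
    · obtain ⟨c, hc1, hc2⟩ := V.exists_min_image (fun c => ∑ j, (c j : ℝ) * w j) h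
      refine ⟨(∑ j, (c j : ℝ) * w j) / n, ?_, fun c' h' => ?_⟩
      · rw [← mul_div_assoc, lt_div_iff₀ hnp]
        linarith [hc' c hc1]
      · rw [mul_div_cancel₀ _ hnp.ne']; exact hc2 c' h'
  obtain ⟨ζ, h1, h2, h3⟩ := hV w s hw hs2
  have h4 := hM ζ h1 _ hc
  have h5 : ∑ j, ζ j * (((c₀ j : ℤ) - r * κ j : ℤ) : ℝ) =
      ∑ j, (c₀ j : ℝ) * ζ j - r * ∑ j, ζ j * κ j := by
    rw [mul_sum, ← sum_sub_distrib]
    exact sum_congr rfl fun j _ => by push_cast; ring
  have h6 : 0 ≤ ∑ j, (c₀ j : ℝ) * w j + ∑ j, (c₀ j : ℝ) * ζ j := by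
    rw [← sum_add_distrib]
    exact sum_nonneg fun j _ => by rw [← mul_add]; exact mul_nonneg (by positivity) (h2 j)
  have h7 := mul_le_mul_of_nonneg_left h3 hrp.le
  rw [h5] at h4
  linarith

end Vale.Agent.P283R.To
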