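import Vale.Agent.P283R.To.Pri
import Vale.Agent.P283M.Br.Klr

/-!
# P283R, block TOR: rays, equations of the prime divisors of the torus, convexity of nef divisors
-/

open Set

noncomputable section

namespace Vale.Agent.P283R.To.Cv

open Vale.Agent.P287D Vale.Agent.P283M Vale.Agent.P297Z

variable {K : Type} [Field K] [Algebra ℂ K] {n : ℕ} {u : Finset K} {Λ Γ Γ' : BD K}
  {y : Fin (n + 1) → K} {P R : Pl K}

/-- the prime divisors of the torus -/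
def Tq (n : ℕ) (u : Finset K) (Λ : BD K) (y : Fin (n + 1) → K) (R : Pl K) : Prop :=
  Ov u R ∧ On n Λ R ∧ ∀ i, R.ord (y i) = 0

/-- the prime divisors outside the torus -/
def Ray (n : ℕ) (u : Finset K) (Λ : BD K) (y : Fin (n + 1) → K) : Type :=
  {P : Pl K // Ov u P ∧ On n Λ P ∧ ∃ i, P.ord (y i) ≠ 0}

/-- the rays -/
def rho (l : Ray n u Λ y) (j : Fin (n + 1)) : ℤ := l.1.ord (y j)

theorem fin_car (a : Dat n u Λ Γ Γ') {β : BD K} (h : β ∈ Car K) :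
    {P | On n Λ P ∧ β P ≠ 0}.Finite :=
  Pr.fin_on res' a.ff a.smp a.big ((Api.mod.isb n K a.ff).1 β h)

theorem fin_ray (a : Dat n u Λ Γ Γ') : Finite (Ray n u Λ y) :=
  Set.Finite.to_subtype (s := {P | Ov u P ∧ On n Λ P ∧ ∃ i, P.ord (y i) ≠ 0})
    ((finite_iUnion fun i => fin_car a (dv_mem_Car (y i))).subset
      fun _ ⟨_, b, i, c⟩ => mem_iUnion.2 ⟨i, b, Int.cast_ne_zero.2 c⟩)

theorem tq_or (h : Ov u P) (o : On n Λ P) : Tq n u Λ y P ∨ ∃ l : Ray n u Λ y, l.1 = P := by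
  by_cases c : ∀ i, P.ord (y i) = 0
  · exact .inl ⟨h, o, c⟩
  · exact .inr ⟨⟨P, h, o, not_forall.1 c⟩, rfl⟩

theorem Tq.tpr (t : Tor n u Λ y) (h : Tq n u Λ y R) : Tpr y R :=
  let ⟨_, c⟩ := t.cht R h.1 h.2.1
  ⟨h.2.2, fun a ha => let ⟨g, k, _, _, e⟩ := c.frac a ha; ⟨g, k, e⟩⟩

theorem ord_rho (t : Tor n u Λ y) (l : Ray n u Λ y) (m : Fin (n + 1) → ℤ) :
    l.1.ord (mon y m) = m ⬝ᵥ rho l := ord_mon _ t.rat.ind.ne_zero m

theorem ray_le (M : MOP) (t : Tor n u Λ y) (l : Ray n u Λ y) (g : (Fin (n + 1) → ℤ) →₀ ℂ)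
    {m : Fin (n + 1) → ℤ} (hm : m ∈ g.support) : l.1.ord (lau y g) ≤ m ⬝ᵥ rho l :=
  let ⟨S, c⟩ := t.cht l.1 l.2.1 l.2.2.1
  (M _ K y S l.1 t.rat c l.2.2.2 g m hm).trans_eq (ord_rho t l m)

theorem exists_pi (t : Tor n u Λ y) : ∃ π : Pl K → K, ∀ R, π R ≠ 0 ∧ (Tq n u Λ y R →
    R.ord (π R) = 1 ∧ ∀ R', Tq n u Λ y R' → R' ≠ R → R'.ord (π R) = 0) := by
  refine Classical.axiomOfChoice (r := fun R p => p ≠ 0 ∧ (Tq n u Λ y R →
    R.ord p = 1 ∧ ∀ R', Tq n u Λ y R' → R' ≠ R → R'.ord p = 0)) fun R => ?_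
  by_cases h : Tq n u Λ y R
  · obtain ⟨p, a, b, c⟩ := pri _ K y R t.rat (h.tpr t)
    exact ⟨p, a, fun _ => ⟨b, fun R' r => c R' (r.tpr t)⟩⟩
  · exact ⟨1, one_ne_zero, fun k => (h k).elim⟩

theorem ord_fin {π : Pl K → K} (h : ∀ R, π R ≠ 0) (c : Pl K → ℤ) (T : Finset (Pl K)) (P : Pl K) :
    P.ord (∏ R ∈ T, π R ^ c R) = ∑ R ∈ T, c R * P.ord (π R) := by
  have := ord_mon P (z := fun R : T => π R) (fun R => h R) fun R => c R
  rwa [mon, Finset.prod_coe_sort T fun R => π R ^ c R,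
    Finset.sum_coe_sort T fun R => c R * P.ord (π R)] at this

theorem ord_tq {π : Pl K → K} (h : ∀ R, π R ≠ 0 ∧ (Tq n u Λ y R →
    R.ord (π R) = 1 ∧ ∀ R', Tq n u Λ y R' → R' ≠ R → R'.ord (π R) = 0)) {c : Pl K → ℤ}
    {T : Finset (Pl K)} (hT : ∀ R, R ∈ T ↔ Tq n u Λ y R ∧ c R ≠ 0) (r : Tq n u Λ y R) :
    R.ord (∏ R ∈ T, π R ^ c R) = c R := by
  rw [ord_fin fun R => (h R).1, Finset.sum_eq_single R
    (fun R' a b => by rw [((h R').2 ((hT _).1 a).1).2 R r b.symm, mul_zero])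
    fun a => by rw [not_not.1 fun b => a ((hT _).2 ⟨r, b⟩), zero_mul], ((h R).2 r).1, mul_one]

/-- **eqn**: the divisors of the torus are principal -/
theorem eqn (t : Tor n u Λ y) {c : Pl K → ℤ} (f : {R | Tq n u Λ y R ∧ c R ≠ 0}.Finite) :
    ∃ G : K, G ≠ 0 ∧ ∀ R, Tq n u Λ y R → R.ord G = c R :=
  let ⟨π, h⟩ := exists_pi t
  ⟨∏ R ∈ f.toFinset, π R ^ c R, Finset.prod_ne_zero_iff.2 fun R _ => zpow_ne_zero _ (h R).1,
    fun _ r => ord_tq h (fun _ => f.mem_toFinset) r⟩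

theorem exists_mon (h0 : ∀ j, y j ≠ 0) (P : Pl K) {g : (Fin (n + 1) → ℤ) →₀ ℂ}
    (hg : lau y g ≠ 0) : ∃ m ∈ g.support, P.ord (mon y m) ≤ P.ord (lau y g) := by
  classical
  have k : lau y g ∈ Submodule.span ℂ ((g.support.image (mon y) : Finset K) : Set K) :=
    Submodule.sum_mem _ fun m hm => Submodule.smul_mem _ _
      (Submodule.subset_span (Finset.mem_image_of_mem _ hm))
  obtain ⟨m, hm⟩ := Finsupp.support_nonempty_iff.2 (show g ≠ 0 by rintro rfl; exact hg rfl)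
  obtain ⟨f, a, -, e⟩ := P.exists_mz (s := g.support.image (mon y))
    ⟨_, Finset.mem_image_of_mem _ hm, mon_ne h0 m⟩
  obtain ⟨m, b, rfl⟩ := Finset.mem_image.1 a
  exact ⟨m, b, neg_le_neg_iff.1 ((P.le_mz_of_span k hg).trans_eq e)⟩

variable [Fintype (Ray n u Λ y)] {w : Ray n u Λ y → ℝ}

theorem rp_mon (t : Tor n u Λ y) (r : Rp y rho P w) (m : Fin (n + 1) → ℤ) :
    (P.ord (mon y m) : ℝ) = ∑ l, w l * (m ⬝ᵥ rho l : ℤ) := by
  rw [ord_mon _ t.rat.ind.ne_zero]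
  push_cast [dotProduct]
  simp only [r _, Finset.mul_sum]
  rw [Finset.sum_comm]
  exact Finset.sum_congr rfl fun l _ => Finset.sum_congr rfl fun j _ => by ring

/-- the order of a function which is regular on the torus is concave -/
theorem low (M : MOP) (t : Tor n u Λ y) (w0 : ∀ l, 0 ≤ w l) (r : Rp y rho P w) {s : K}
    (s0 : s ≠ 0) (h : ∀ R, Tq n u Λ y R → 0 ≤ R.ord s) :
    ∑ l, w l * l.1.ord s ≤ P.ord s := by
  obtain ⟨g, rfl⟩ := t.har s fun R a b c => (Pl.ord_nonneg_iff _ s0).1 (h R ⟨a, b, c⟩)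
  obtain ⟨m, a, b⟩ := exists_mon t.rat.ind.ne_zero P s0
  refine le_trans ?_ (Int.cast_le.2 b)
  rw [rp_mon t r]
  exact Finset.sum_le_sum fun l _ =>
    mul_le_mul_of_nonneg_left (Int.cast_le.2 (ray_le M t l g a)) (w0 l)

/-- **ov** -/
theorem ov (M : MOP) (t : Tor n u Λ y) (w0 : ∀ l, 0 ≤ w l) (r : Rp y rho P w) : Ov u P := by
  intro a ha
  by_cases a0 : a = 0
  · rw [a0]; exact zero_mem _
  have := low M t w0 r a0 fun R q => Pl.ord_nonneg_of_mem _ (q.1 a ha)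
  refine (Pl.ord_nonneg_iff _ a0).1 (Int.cast_nonneg_iff (R := ℝ).1 (le_trans ?_ this))
  exact Finset.sum_nonneg fun l _ =>
    mul_nonneg (w0 l) (Int.cast_nonneg (Pl.ord_nonneg_of_mem _ (l.2.1 a ha)))

/-- the defect of convexity -/
def ph (w : Ray n u Λ y → ℝ) (P : Pl K) (β : BD K) : ℝ := ∑ l, w l * β l.1 - β P

open Classical in
/-- the defect after the removal of the part in the torus -/
def ps (π : Pl K → K) (w : Ray n u Λ y → ℝ) (P : Pl K) (β : BD K) : ℝ :=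
  ph w P β - ∑ᶠ R, if Tq n u Λ y R then β R * ph w P (dv (π R)) else 0

variable {π : Pl K → K} {α β : BD K}

theorem ps_smul (c : ℝ) : ps π w P (c • β) = c * ps π w P β := by
  simp only [ps, ph, Pi.smul_apply, smul_eq_mul, mul_sub, mul_finsum, Finset.mul_sum, mul_ite,
    mul_zero, mul_assoc, mul_left_comm]

theorem ps_add (a : Dat n u Λ Γ Γ') (h : α ∈ Car K) (k : β ∈ Car K) :
    ps π w P (α + β) = ps π w P α + ps π w P β := by
  classical
  have f : ∀ β ∈ Car K, (Function.support fun R =>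
      if Tq n u Λ y R then β R * ph w P (dv (π R)) else 0).Finite := fun β h =>
    (fin_car a h).subset fun R r => by
      by_cases c : Tq n u Λ y R
      · exact ⟨c.2.1, left_ne_zero_of_mul ((if_pos c).symm.trans_ne r)⟩
      · exact (r (if_neg c)).elim
  have e : ph w P (α + β) = ph w P α + ph w P β := by
    simp only [ph, Pi.add_apply, mul_add, Finset.sum_add_distrib]; ring
  rw [ps, ps, ps, e, sub_add_sub_comm, ← finsum_add_distrib (f α h) (f β k)]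
  refine congrArg _ (finsum_congr fun R => ?_)
  split_ifs
  · rw [Pi.add_apply, add_mul]
  · rw [add_zero]

theorem ps_congr (o : Ov u P) (h : ∀ P, Ov u P → α P = β P) : ps π w P α = ps π w P β := by
  rw [ps, ps, ph, ph, h P o, Finset.sum_congr rfl fun l _ => congrArg (w l * ·) (h l.1 l.2.1)]
  refine congrArg _ (finsum_congr fun R => ?_)
  split_ifs with c
  · rw [h R c.1]
  · rfl

theorem ps_mx (M : MOP) (a : Dat n u Λ Γ Γ') (t : Tor n u Λ y) (w0 : ∀ l, 0 ≤ w l)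
    (r : Rp y rho P w) (h : ∀ R, π R ≠ 0 ∧ (Tq n u Λ y R →
      R.ord (π R) = 1 ∧ ∀ R', Tq n u Λ y R' → R' ≠ R → R'.ord (π R) = 0)) (s : Finset K) :
    0 ≤ ps π w P (mx s) := by
  classical
  by_cases z : Nz s
  swap
  · rw [mx_of_not z, ← zero_smul ℝ (0 : BD K), ps_smul, zero_mul]
  have f : {R | Tq n u Λ y R ∧ R.mz s ≠ 0}.Finite :=
    (fin_car a (mx_mem_Car s)).subset fun R q => ⟨q.1.2.1, Int.cast_ne_zero.2 q.2⟩
  obtain ⟨g, gs, g0, e⟩ := P.exists_mz z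
  have G0 : ∏ R ∈ f.toFinset, π R ^ R.mz s ≠ 0 :=
    Finset.prod_ne_zero_iff.2 fun R _ => zpow_ne_zero _ (h R).1
  have k := low M t w0 r (mul_ne_zero g0 G0) fun R q => by
    rw [Pl.ord_mul _ g0 G0, ord_tq h (fun _ => f.mem_toFinset) q]
    linarith [R.le_mz gs g0]
  simp only [Pl.ord_mul _ g0 G0, ord_fin fun R => (h R).1] at k
  push_cast at k
  have l : ∑ l, w l * -(l.1.ord g : ℝ) ≤ ∑ l, w l * mx s l.1 := Finset.sum_le_sum fun l _ =>
    mul_le_mul_of_nonneg_left (by rw [mx_apply]; exact_mod_cast l.1.le_mz gs g0) (w0 l)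
  rw [ps, finsum_eq_sum_of_support_subset (s := f.toFinset) _ fun R q => by
    by_cases c : Tq n u Λ y R
    · exact f.mem_toFinset.2 ⟨c, Int.cast_ne_zero.1
        (left_ne_zero_of_mul ((if_pos c).symm.trans_ne q))⟩
    · exact (q (if_neg c)).elim,
    Finset.sum_congr rfl fun R q => if_pos (f.mem_toFinset.1 q).1]
  simp only [ph, mx_apply, dv_apply, e, mul_sub, Finset.sum_sub_distrib, Finset.mul_sum, mul_add,
    Finset.sum_add_distrib, mul_neg, Finset.sum_neg_distrib] at k l ⊢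
  rw [Finset.sum_comm] at k
  simp only [mul_left_comm (w _)] at k
  push_cast
  linarith

/-- **conv**: a limit of semiample divisors is convex -/
theorem conv (M : MOP) (a : Dat n u Λ Γ Γ') (t : Tor n u Λ y) (w0 : ∀ l, 0 ≤ w l)
    (r : Rp y rho P w) {ψ : BD K} (hψ : ψ ∈ Car K) (hα : α ∈ Car K)
    (h : ∀ δ : ℝ, 0 < δ → SmpO u (ψ + δ • α)) (z : ∀ R, Tq n u Λ y R → ψ R = 0) :
    ψ P ≤ ∑ l, w l * ψ l.1 := by
  obtain ⟨π, hπ⟩ := exists_pi t
  have k : ∀ δ : ℝ, 0 < δ → 0 ≤ ps π w P ψ + δ * ps π w P α := fun δ d => by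
    obtain ⟨γ, ⟨l, l0, rfl⟩, e⟩ := h δ d
    rw [← ps_smul, ← ps_add a hψ (Submodule.smul_mem _ _ hα), ps_congr (ov M t w0 r) e]
    refine (Finset.sum_induction _ (fun β => β ∈ Car K ∧ 0 ≤ ps π w P β)
      (fun b c p q => ⟨add_mem p.1 q.1, ?_⟩) ⟨zero_mem _, ?_⟩
      fun s _ => ⟨Submodule.smul_mem _ _ (mx_mem_Car s), ?_⟩).2
    · rw [ps_add a p.1 q.1]; exact add_nonneg p.2 q.2
    · rw [← zero_smul ℝ (0 : BD K), ps_smul, zero_mul]
    · rw [ps_smul]; exact mul_nonneg (l0 s) (ps_mx M a t w0 r hπ s)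
  have e : ps π w P ψ = ph w P ψ := by
    rw [ps, finsum_eq_zero_of_forall_eq_zero, sub_zero]
    intro R
    split_ifs with c
    · rw [z R c, zero_mul]
    · rfl
  rw [← sub_nonneg, ← ph, ← e]
  refine le_of_forall_pos_le_add fun ε e0 => ?_
  have p : 0 < |ps π w P α| + 1 := by positivity
  refine (k _ (div_pos e0 p)).trans (add_le_add_right ?_ _)
  rw [div_mul_eq_mul_div, div_le_iff₀ p]
  exact mul_le_mul_of_nonneg_left (by linarith [le_abs_self (ps π w P α)]) e0.le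

theorem la_int (y : Fin (n + 1) → K) (P : Pl K) : ∃ z : ℤ, la y P = z := by
  have : ∃ z : ℤ, kap y P = z := by
    unfold kap
    split_ifs
    exacts [⟨_, rfl⟩, ⟨0, Int.cast_zero.symm⟩]
  obtain ⟨z, e⟩ := this
  exact ⟨z + 1 - ∑ j, P.ord (y j), by rw [la, e]; push_cast; rfl⟩

/-- the dictionary between the pair and the toric data -/
structure Dic (u : Finset K) (Λ Γ : BD K) (y : Fin (n + 1) → K) (Q : ℕ) (k : Ray n u Λ y → ℤ)
    (g : (Fin (n + 1) → ℤ) →₀ ℂ) (h : K) : Prop where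
  ne : h ≠ 0
  ne' : lau y g ≠ 0
  cn : ∀ P, cn K (n + 1) P + 1 = la y P + P.ord h
  tq : ∀ R, Tq n u Λ y R → Γ R = R.ord h + (R.ord (lau y g) : ℝ) / Q
  ray : ∀ l : Ray n u Λ y, Γ l.1 = l.1.ord h + (l.1.ord (lau y g) : ℝ) / Q - (k l : ℝ) / Q

/-- **data** -/
theorem data (M : MOP) (a : Dat n u Λ Γ Γ') (t : Tor n u Λ y) {Q : ℕ} (Q1 : 1 ≤ Q) {ε : ℝ}
    (lc : ∀ P, Ov u P → ε ≤ 1 + dsc (n + 1) Γ P)
    (cf : ∀ P, Ov u P → On n Λ P → ∃ k : ℕ, Q * dsc (n + 1) Γ P = -k) (nef : NefO n K u (-Γ)) :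
    ∃ k g h, Dt Q y rho k g ∧ Hy (0 ≤ ·) Q ε y rho k g ∧ Dic u Λ Γ y Q k g h := by
  have h0 := t.rat.ind.ne_zero
  have Q0 : (0 : ℝ) < Q := Nat.cast_pos.2 Q1
  obtain ⟨D, hD⟩ := Cb.fr_of a.ff t.rat.ind
  obtain ⟨J0, eJ⟩ := Ba.cn_frame hD
  have p0 : ∏ j, y j ≠ 0 := Finset.prod_ne_zero_iff.2 fun j _ => h0 j
  obtain ⟨h, hh, ec⟩ : ∃ h : K, h ≠ 0 ∧ ∀ P, cn K (n + 1) P + 1 = la y P + P.ord h :=
    ⟨_, mul_ne_zero J0 p0, fun P => by
      rw [eJ, Pl.ord_mul _ J0 p0, ord_prod P h0, la, Pi.add_apply, dv_apply]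
      push_cast
      ring⟩
  have ex : ∀ P : Pl K, ∃ c : ℤ, Ov u P → On n Λ P →
      (c : ℝ) = Q * (Γ P - P.ord h) ∧ Q * (la y P - 1) ≤ c := fun P => by
    by_cases o : Ov u P ∧ On n Λ P
    · obtain ⟨k, e⟩ := cf P o.1 o.2
      obtain ⟨z, ez⟩ := la_int y P
      have := ec P
      rw [dsc, Pi.sub_apply] at e
      refine ⟨Q * (z - 1) + k, fun _ _ => ⟨?_, ?_⟩⟩ <;> push_cast <;> rw [← ez]
      · linear_combination e - Q * this
      · exact le_add_of_nonneg_right k.cast_nonneg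
    · exact ⟨0, fun a b => (o ⟨a, b⟩).elim⟩
  choose c hc using ex
  obtain ⟨G, G0, hG⟩ := eqn t (c := c)
    ((fin_car a (sub_mem a.dn.car (dv_mem_Car h))).subset fun R r => ⟨r.1.2.1, fun e => r.2 (by
      have := (hc R r.1.1 r.1.2.1).1
      rw [show Γ R - R.ord h = 0 from e, mul_zero] at this
      exact_mod_cast this)⟩)
  obtain ⟨g, rfl⟩ := t.har G fun R o1 o2 o3 => (Pl.ord_nonneg_iff _ G0).1 (by
    rw [hG R ⟨o1, o2, o3⟩, ← Int.cast_nonneg_iff (R := ℝ)]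
    refine le_trans (mul_nonneg Q0.le ?_) (hc R o1 o2).2
    have := Cb.kap_nonneg a.ff (P := R) fun i => (Pl.ord_nonneg_iff _ (h0 i)).1 (o3 i).ge
    simpa [la, o3] using this)
  have d : Dic u Λ Γ y Q (fun l => l.1.ord (lau y g) - c l.1) g h :=
    ⟨hh, G0, ec, fun R r => by
      rw [hG R r, (hc R r.1 r.2.1).1]
      field_simp
      ring, fun l => by
      push_cast
      rw [(hc l.1 l.2.1 l.2.2.1).1]
      field_simp
      ring⟩
  refine ⟨_, g, h, ⟨t.rat, by rintro rfl; exact G0 rfl, fun m hm l => ?_⟩, fun P w w0 r => ?_, d⟩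
  · have k1 := ray_le M t l g hm
    have k2 := (hc l.1 l.2.1 l.2.2.1).2
    have k3 := mul_nonneg Q0.le (la_nonneg a.ff t.rat.ind l.1)
    have : (-Q : ℝ) ≤ c l.1 := by linarith
    have : (-Q : ℤ) ≤ c l.1 := by exact_mod_cast this
    linarith
  · have k := conv M a t w0 r (ψ := dv h + (Q : ℝ)⁻¹ • dv (lau y g) - Γ) (α := -Γ')
      (sub_mem (add_mem (dv_mem_Car _) (Submodule.smul_mem _ _ (dv_mem_Car _))) a.dn.car)
      (neg_mem a.dn'.car) (fun δ e => by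
        obtain ⟨γ, s, f⟩ := Br.klr a a.dn.neg nef e
        refine ⟨dv h + (Q : ℝ)⁻¹ • dv (lau y g) + γ,
          ((smp_dv h).add ((smp_dv _).smul (inv_pos.2 Q0).le)).add s, fun P o => ?_⟩
        have := f P o
        simp only [Pi.add_apply, Pi.sub_apply, Pi.smul_apply, Pi.neg_apply, smul_eq_mul]
          at this ⊢
        linarith)
      fun R q => by
        simp only [Pi.add_apply, Pi.sub_apply, Pi.smul_apply, smul_eq_mul, dv_apply, d.tq R q]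
        ring
    have e : ∑ l, w l * (dv h + (Q : ℝ)⁻¹ • dv (lau y g) - Γ) l.1 =
        (∑ l, w l * ((l.1.ord (lau y g) - c l.1 : ℤ) : ℝ)) / Q := by
      rw [Finset.sum_div]
      refine Finset.sum_congr rfl fun l _ => ?_
      simp only [Pi.add_apply, Pi.sub_apply, Pi.smul_apply, smul_eq_mul, dv_apply, d.ray l]
      ring
    have l := lc P (ov M t w0 r)
    rw [e] at k
    simp only [Pi.add_apply, Pi.sub_apply, Pi.smul_apply, smul_eq_mul, dv_apply, dsc] at k l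
    rw [al, div_eq_inv_mul]
    linarith [ec P]

end Vale.Agent.P283R.To.Cv
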