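import Vale.Agent.P283R.To.St

/-!
# P283R, block TOR: the translation of a unit coordinate
-/

open Set
open Vale.Agent.P285N.Brep (jac Fr)
open Vale.Agent.P297Z
open Vale.Agent.P287D

noncomputable section

namespace Vale.Agent.P283R.To

variable {K : Type} [Field K] [Algebra ℂ K] {d : ℕ}

namespace Tr

theorem bound (s : Finset (Fin d → ℤ)) : ∃ T : ℕ, ∀ m ∈ s, ∀ j, 0 ≤ m j + T := by
  refine ⟨∑ m ∈ s, ∑ j, (m j).natAbs, fun m hm j => ?_⟩
  have h1 := Finset.single_le_sum (f := fun m : Fin d → ℤ => ∑ j, (m j).natAbs)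
    (fun _ _ => Nat.zero_le _) hm
  have h2 := Finset.single_le_sum (f := fun j => (m j).natAbs) (fun _ _ => Nat.zero_le _)
    (Finset.mem_univ j)
  omega

/-- the Laurent monomials are linearly independent -/
theorem lau_ne {y : Fin d → K} (hy : AlgebraicIndependent ℂ y) {g : (Fin d → ℤ) →₀ ℂ}
    (hg : g ≠ 0) : lau y g ≠ 0 := by
  classical
  obtain ⟨T, hT⟩ := bound g.support
  let e : (Fin d → ℤ) → Fin d →₀ ℕ := fun m =>
    Finsupp.equivFunOnFinite.symm fun j => (m j + T).toNat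
  have ei : ∀ a ∈ g.support, ∀ b ∈ g.support, e a = e b → a = b := fun a ha b hb h => by
    funext j
    have h1 : (a j + T).toNat = (b j + T).toNat := DFunLike.congr_fun h j
    have := hT a ha j
    have := hT b hb j
    omega
  intro h0
  have k : MvPolynomial.aeval y (∑ m ∈ g.support, MvPolynomial.monomial (e m) (g m)) =
      mon y (fun _ => T) * lau y g := by
    rw [map_sum, lau, Finsupp.sum, Finset.mul_sum]
    refine Finset.sum_congr rfl fun m hm => ?_
    rw [MvPolynomial.aeval_monomial, Finsupp.prod_fintype _ _ (by simp), mul_smul_comm,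
      ← mon_add hy.ne_zero, Algebra.smul_def, mon]
    congr 1
    refine Finset.prod_congr rfl fun j _ => ?_
    rw [← zpow_natCast]
    congr 1
    have := hT m hm j
    simp only [e, Finsupp.equivFunOnFinite_symm_apply_apply, Pi.add_apply]
    omega
  rw [h0, mul_zero] at k
  obtain ⟨a, ha⟩ := Finsupp.support_nonempty_iff.2 hg
  have := congrArg (MvPolynomial.coeff (e a)) (algebraicIndependent_iff.1 hy _ k)
  rw [MvPolynomial.coeff_sum, Finset.sum_eq_single a] at this
  · exact Finsupp.mem_support_iff.1 ha (by simpa using this)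
  · intro b hb ne
    rw [MvPolynomial.coeff_monomial, if_neg fun h => ne (ei b hb a ha h)]
  · exact fun h => (h ha).elim

/-- the translated coordinates -/
def sh (y : Fin (d + 1) → K) (c : ℂ) : Fin (d + 1) → K :=
  Fin.cons (y 0 - algebraMap ℂ K c) (Fin.tail y)

variable {y : Fin (d + 1) → K} {c : ℂ}

theorem jac_sh (L : Fin (d + 1) → Derivation ℂ K K) : jac L (sh y c) = jac L y := by
  unfold jac
  congr 1
  ext i j
  refine Fin.cases ?_ (fun j => ?_) j <;> simp [sh, Fin.tail]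

theorem rat_sh (h : D.Rat y) : D.Rat (sh y c) := by
  obtain ⟨E, hE⟩ := Cb.fr_of h.ff h.ind
  refine ⟨(Cb.jac_ne_iff hE _).1 (by rw [jac_sh, Cb.jac_self hE]; exact one_ne_zero), fun x => ?_⟩
  refine (IntermediateField.adjoin_le_iff.2 ?_ : IntermediateField.adjoin ℂ (range y) ≤ _) (h.gen x)
  rintro _ ⟨j, rfl⟩
  have k : ∀ j, sh y c j ∈ IntermediateField.adjoin ℂ (range (sh y c)) :=
    fun j => IntermediateField.subset_adjoin _ _ ⟨j, rfl⟩
  refine Fin.cases ?_ (fun j => k j.succ) j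
  simpa [sh] using add_mem (k 0) (IntermediateField.algebraMap_mem _ c)

theorem kap_sh (h : D.Rat y) (P : Pl K) : kap (sh y c) P = kap y P := by
  obtain ⟨L, hL⟩ := Cb.exists_lf h.ff P
  have h1 := hL.eq _ (rat_sh (c := c) h).ind
  rw [jac_sh, ← hL.eq _ h.ind] at h1
  linarith

theorem exists_sh (h : D.Rat y) (c : ℂ) (g : (Fin (d + 1) → ℤ) →₀ ℂ) :
    ∃ (T : ℕ) (g' : (Fin (d + 1) → ℤ) →₀ ℂ), lau (sh y c) g' = y 0 ^ T * lau y g ∧
      ∀ m' ∈ g'.support, 0 ≤ m' 0 ∧ ∃ m ∈ g.support, Fin.tail m' = Fin.tail m := by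
  obtain ⟨T, hT⟩ := bound g.support
  have n0 := (rat_sh (c := c) h).ind.ne_zero
  let s : Set (Fin (d + 1) → ℤ) := {m' | 0 ≤ m' 0 ∧ ∃ m ∈ g.support, Fin.tail m' = Fin.tail m}
  have k : ∀ (t : ℕ), ∀ m' ∈ s, y 0 ^ t * mon (sh y c) m' ∈
      Submodule.span ℂ (mon (sh y c) '' s) := by
    intro t
    induction t with
    | zero =>
      intro m' hm
      rw [pow_zero, one_mul]
      exact Submodule.subset_span ⟨m', hm, rfl⟩
    | succ t ih =>
      intro m' hm
      have e : y 0 ^ (t + 1) * mon (sh y c) m' =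
          y 0 ^ t * mon (sh y c) (m' + Pi.single 0 1) + c • (y 0 ^ t * mon (sh y c) m') := by
        rw [mon_add n0, Algebra.smul_def]
        simp [mon, Fin.prod_univ_succ, sh]
        ring
      rw [e]
      refine add_mem (ih _ ⟨?_, ?_⟩) (Submodule.smul_mem _ _ (ih _ hm))
      · have := hm.1
        simp only [Pi.add_apply, Pi.single_eq_same]
        omega
      · obtain ⟨m, h1, h2⟩ := hm.2
        exact ⟨m, h1, h2 ▸ funext fun j => by simp [Fin.tail]⟩
  have k2 : y 0 ^ T * lau y g ∈ Submodule.span ℂ (mon (sh y c) '' s) := by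
    rw [lau, Finsupp.sum, Finset.mul_sum]
    refine Submodule.sum_mem _ fun m hm => ?_
    rw [mul_smul_comm]
    refine Submodule.smul_mem _ _ ?_
    have e : y 0 ^ T * mon y m =
        y 0 ^ (m 0 + T).toNat * mon (sh y c) (Fin.cons 0 (Fin.tail m)) := by
      rw [← zpow_natCast _ (Int.toNat _), Int.toNat_of_nonneg (hT m hm 0),
        zpow_add₀ (h.ind.ne_zero 0)]
      simp [mon, Fin.prod_univ_succ, sh, Fin.tail]
      ring
    rw [e]
    exact k _ _ ⟨le_rfl, m, hm, rfl⟩
  obtain ⟨g', h1, h2⟩ := (Finsupp.mem_span_image_iff_linearCombination ℂ).1 k2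
  exact ⟨T, g', h2, fun m' hm => h1 hm⟩

theorem dot_tail {a b ρ : Fin (d + 1) → ℤ} (h : Fin.tail a = Fin.tail b) (h0 : ρ 0 = 0) :
    a ⬝ᵥ ρ = b ⬝ᵥ ρ := by
  simp only [dotProduct, Fin.sum_univ_succ, h0, mul_zero]
  exact congrArg _ (Finset.sum_congr rfl fun j _ => by
    rw [show a j.succ = b j.succ from congrFun h j])

theorem al_sh (h : D.Rat y) {T Q : ℕ} {g g' : (Fin (d + 1) → ℤ) →₀ ℂ} (hg : g ≠ 0)
    (e : lau (sh y c) g' = y 0 ^ T * lau y g) {P : Pl K} (h0 : P.ord (y 0) = 0) :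
    al Q (sh y c) g' P = al Q y g P - P.ord (sh y c 0) := by
  rw [al, al, e, Pl.ord_mul _ (pow_ne_zero _ (h.ind.ne_zero 0)) (lau_ne h.ind hg), Pl.ord_pow, h0,
    la, la, kap_sh h, Fin.sum_univ_succ, Fin.sum_univ_succ, h0]
  simp only [sh, Fin.cons_succ, Fin.tail]
  push_cast
  ring

end Tr

open Tr in
/-- **TRS** -/
theorem trs : TRS := by
  intro d N r Q ε n hQ hP K _ _ y ι _ ρ k g hD hH P w ⟨hN, h0, ⟨v, hv⟩, c, hc⟩ hw hR
  have hc : P.rd (y 0) = algebraMap ℂ P.κ c := hc
  have y0 := hD.rat.ind.ne_zero 0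
  have o0 : ∀ {P' : Pl K} {w' : ι → ℝ}, Rp y ρ P' w' → P'.ord (y 0) = 0 := fun h => by
    have := h 0
    simp only [h0, Int.cast_zero, mul_zero, Finset.sum_const_zero] at this
    exact_mod_cast this
  have ym : y 0 ∈ P.ring := (Pl.ord_nonneg_iff _ y0).1 (o0 hR).ge
  have c0 : c ≠ 0 := by
    rintro rfl
    rw [map_zero, Cb.rd_eq_zero ym, Cb.mx_iff, o0 hR] at hc
    exact hc.elim y0 (lt_irrefl _)
  have hr := rat_sh (c := c) hD.rat
  have s0 := hr.ind.ne_zero 0
  have p0 : 0 < P.ord (sh y c 0) := by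
    have : P.rd (y 0 - algebraMap ℂ K c) = 0 := by
      rw [Cb.rd_sub ym (P.con c), hc, Cb.rd_const, sub_self]
    rw [Cb.rd_eq_zero (sub_mem ym (P.con c)), Cb.mx_iff] at this
    exact this.resolve_left s0
  obtain ⟨T, g', e, hs⟩ := exists_sh hD.rat c g
  let ρ' : Option ι → Fin (d + 1) → ℤ := fun o => o.elim (Pi.single 0 1) ρ
  let k' : Option ι → ℤ := fun o => o.elim Q k
  have Q0 : (Q : ℝ) ≠ 0 := by exact_mod_cast (show Q ≠ 0 by omega)
  have rp : ∀ (P' : Pl K) (w' : Option ι → ℝ), Rp (sh y c) ρ' P' w' ↔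
      (P'.ord (sh y c 0) : ℝ) = w' none ∧
        ∀ j : Fin d, (P'.ord (y j.succ) : ℝ) = ∑ l, w' (some l) * ρ l j.succ := fun P' w' => by
    simp [Rp, Fin.forall_fin_succ, Fintype.sum_option, ρ', h0, sh, Fin.tail]
  obtain ⟨m, m1, m2⟩ := hP K (sh y c) (Option ι) ρ' k' g'
    ⟨hr, fun h => by
      rw [h, lau, Finsupp.sum_zero_index] at e
      exact mul_ne_zero (pow_ne_zero _ y0) (lau_ne hD.rat.ind hD.ne) e.symm, fun m' hm o => by
      obtain ⟨h1, m, h2, h3⟩ := hs m' hm
      rcases o with _ | l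
      · simpa [ρ', k'] using h1
      · exact dot_tail h3 (h0 l) ▸ hD.eff m h2 l⟩
    (fun P' w' hw' hR' => by
      obtain ⟨r1, r2⟩ := (rp P' w').1 hR'
      have q0 : 0 < P'.ord (sh y c 0) := Int.cast_pos.1 (lt_of_lt_of_eq (hw' none) r1.symm)
      have cz : P'.ord (algebraMap ℂ K c) = 0 := P'.ord_const c
      have u0 : P'.ord (y 0) = 0 := by
        have := Pl.ord_add_eq_of_lt P'.toPlace ((map_ne_zero (algebraMap ℂ K)).2 c0) s0
          (cz.symm ▸ q0)
        rw [cz] at this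
        simpa [sh] using this
      have := hH P' (fun l => w' (some l)) (fun l => hw' (some l))
        (Fin.cases (by simp [u0, h0]) r2)
      rw [al_sh hD.rat hD.ne e u0, r1, Fintype.sum_option]
      simp only [k', Option.elim_none, Option.elim_some, add_div, Int.cast_natCast,
        mul_div_cancel_right₀ _ Q0]
      linarith)
    P (fun o => o.elim (P.ord (sh y c 0) : ℝ) w)
    ⟨by rw [Fintype.card_option]; omega, fun i => Fin.cons 0 (v i), fun m h1 h2 => by
      have a0 : m 0 = 0 := by simpa [ρ'] using h1 none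
      have a1 := hv (Fin.tail m) (fun l => by
        simpa [ρ', dotProduct, Fin.sum_univ_succ, h0, Fin.tail] using h1 (some l)) fun i => by
        simpa [dotProduct, Fin.sum_univ_succ, Fin.tail] using h2 i
      exact funext (Fin.cases a0 (congrFun a1))⟩
    (fun o => by
      rcases o with _ | l
      exacts [Int.cast_pos.2 p0, hw l])
    ((rp _ _).2 ⟨rfl, fun j => hR j.succ⟩)
  refine ⟨Fin.cons 0 (Fin.tail m), fun l => ?_, ?_⟩
  · exact (dot_tail (a := Fin.cons 0 (Fin.tail m)) (b := m) rfl (h0 l)).symm ▸ m1 (some l)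
  · have a0 : 0 ≤ m 0 + n := by
      have := m1 none
      simp only [ρ', k', Option.elim_none, dotProduct_single, mul_one] at this
      exact nonneg_of_mul_nonneg_right (by linarith) (show (0 : ℤ) < Q by omega)
    rw [al_sh hD.rat hD.ne e (o0 hR), Fin.sum_univ_succ] at m2
    have a1 : (0 : ℝ) ≤ (m 0 + n) * P.ord (sh y c 0) :=
      mul_nonneg (by exact_mod_cast a0) (by exact_mod_cast p0.le)
    rw [Fin.sum_univ_succ]
    simp only [sh, Fin.cons_succ, Fin.cons_zero, Fin.tail, Int.cast_zero, zero_mul, zero_add]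
      at m2 a1 ⊢
    linarith

end Vale.Agent.P283R.To
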