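import Vale.Agent.P283R.To.Lin
import Vale.Agent.P283R.To.Trs
import Vale.Agent.P283R.Tp.Ber
import Vale.Agent.P283M.Qv

/-!
# P283R, block TOR: the cone of the rays, Dickson's lemma, the general monomial section
-/

open Set
open Vale.Agent.P297Z
open Vale.Agent.P287D

noncomputable section

namespace Vale.Agent.P283R.To

variable {K : Type} [Field K] [Algebra ℂ K] {d : ℕ} {ι : Type} [Fintype ι]

/-- the dual of the dual cone -/
theorem cone (ρ : ι → Fin d → ℤ) (p : Fin d → ℤ)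
    (h : ∀ m : Fin d → ℤ, (∀ l, 0 ≤ m ⬝ᵥ ρ l) → 0 ≤ m ⬝ᵥ p) :
    ∃ w : ι → ℝ, (∀ l, 0 ≤ w l) ∧ ∀ j, (p j : ℝ) = ∑ l, w l * ρ l j := by
  by_contra hn
  obtain ⟨u, hu⟩ := farkas_int' (fun o : Option ι => o.elim (-p) ρ) (· = none) (by
    rintro x h0 hx _ rfl
    by_contra x0
    refine hn ⟨fun l => ((x (some l) / x none : ℚ) : ℝ), fun l =>
      Rat.cast_nonneg.2 (div_nonneg (h0 _) (h0 _)), fun j => ?_⟩
    have := hx j
    rw [Fintype.sum_option] at this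
    have e : (p j : ℚ) = ∑ l, x (some l) / x none * ρ l j := by
      simp only [div_mul_eq_mul_div, ← Finset.sum_div]
      rw [eq_div_iff x0]
      simp only [Option.elim_none, Option.elim_some, Pi.neg_apply, Int.cast_neg] at this
      linarith
    simpa using congrArg (Rat.cast : ℚ → ℝ) e)
  have a := h u fun l => by rw [dotProduct_comm]; exact (hu (some l)).1
  have b : 0 < (-p) ⬝ᵥ u := (hu none).2 rfl
  rw [neg_dotProduct, dotProduct_comm] at b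
  omega

/-- Dickson's lemma for the lattice points of a polyhedron -/
theorem dick (ρ : ι → Fin d → ℤ) (c : ι → ℤ) {Q : ℤ} (hQ : 0 < Q) :
    ∃ T : Finset (Fin d → ℤ), (∀ m ∈ T, ∀ l, 0 ≤ Q * (m ⬝ᵥ ρ l) + c l) ∧
      ∀ m : Fin d → ℤ, (∀ l, 0 ≤ Q * (m ⬝ᵥ ρ l) + c l) → ∃ t ∈ T, ∀ l, 0 ≤ (m - t) ⬝ᵥ ρ l := by
  classical
  let S : (ι → ℕ) → Prop := fun v => ∃ m : Fin d → ℤ, ∀ l, Q * (m ⬝ᵥ ρ l) + c l = v l
  have fin : {v | Minimal S v}.Finite :=
    (setOfPred_minimal_antichain S).finite_of_wellQuasiOrdered wellQuasiOrdered_le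
  have : ∀ v, ∃ m : Fin d → ℤ, S v → ∀ l, Q * (m ⬝ᵥ ρ l) + c l = v l := fun v => by
    by_cases h : S v
    · exact h.imp fun _ a _ => a
    · exact ⟨0, fun a => (h a).elim⟩
  choose f hf using this
  refine ⟨fin.toFinset.image f, fun m hm l => ?_, fun m hm => ?_⟩
  · obtain ⟨v, hv, rfl⟩ := Finset.mem_image.1 hm
    rw [hf v (fin.mem_toFinset.1 hv).prop]
    exact Int.natCast_nonneg _
  · obtain ⟨v, le, hv⟩ := exists_minimal_le_of_wellFoundedLT S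
      (fun l => (Q * (m ⬝ᵥ ρ l) + c l).toNat) ⟨m, fun l => (Int.toNat_of_nonneg (hm l)).symm⟩
    refine ⟨f v, Finset.mem_image_of_mem f (fin.mem_toFinset.2 hv), fun l => ?_⟩
    have a := hf v hv.prop l
    have b : (v l : ℤ) ≤ Q * (m ⬝ᵥ ρ l) + c l := (Int.le_toNat (hm l)).1 (le l)
    rw [sub_dotProduct]
    exact (mul_nonneg_iff_of_pos_left hQ).1 (by linarith)

/-- **one section for all places over `V`** -/
theorem back {Q n : ℕ} {y : Fin d → K} {ρ : ι → Fin d → ℤ} {k : ι → ℤ} {g : (Fin d → ℤ) →₀ ℂ}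
    (hy : D.Rat y) (hg : g ≠ 0) (hQ : 0 < Q) (hd : Q ∣ n) (hn : 2 ≤ n) {u : Finset K}
    (hu : ∀ P, P283M.Ov u P → ∀ m : Fin d → ℤ, (∀ l, 0 ≤ m ⬝ᵥ ρ l) → 0 ≤ P.ord (mon y m))
    (ne : ∃ P, P283M.Ov u P) (h : ∀ P, P283M.Ov u P → Cn Q n y ρ k g P) :
    ∃ s : (Fin d → ℤ) →₀ ℂ, s ≠ 0 ∧ (∀ m ∈ s.support, ∀ l, 0 ≤ Q * (m ⬝ᵥ ρ l) + n * k l) ∧
      ∀ P, P283M.Ov u P → (P.ord (lau y s) : ℝ) < n * al Q y g P := by
  classical
  obtain ⟨T, h1, h2⟩ := dick ρ (fun l => n * k l) (Q := Q) (by exact_mod_cast hQ)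
  obtain ⟨r, rfl⟩ := hd
  have y0 := hy.ind.ne_zero
  have g0 := Tr.lau_ne hy.ind hg
  let c : K := lau y g ^ r * mon y fun _ => (Q * r : ℕ)
  have c0 : c ≠ 0 := mul_ne_zero (pow_ne_zero _ g0) (mon_ne y0 _)
  have n0 : (0 : ℝ) < (Q * r : ℕ) := by exact_mod_cast (by omega : 0 < Q * r)
  have key : ∀ (P : Pl K) (a : K), a ≠ 0 →
      (0 < ld y (Q * r) (c * a) P ↔ (P.ord a : ℝ) < (Q * r : ℕ) * al Q y g P) := fun P a a0 => by
    have q0 : (Q : ℝ) ≠ 0 := by exact_mod_cast hQ.ne'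
    rw [ld, sub_pos, div_lt_iff₀ n0, Pl.ord_mul _ c0 a0,
      Pl.ord_mul _ (pow_ne_zero _ g0) (mon_ne y0 _), Pl.ord_pow, ord_mon P y0, ← Finset.mul_sum,
      al, la]
    push_cast
    rw [mul_sub, show (Q : ℝ) * r * ((P.ord (lau y g) : ℝ) / Q) = r * P.ord (lau y g) by
      field_simp]
    constructor <;> intro _ <;> linarith
  have pick : ∀ P, P283M.Ov u P → ∃ t ∈ T, 0 < ld y (Q * r) (c * mon y t) P := fun P p => by
    obtain ⟨m, m1, m2⟩ := h P p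
    obtain ⟨t, ht, k⟩ := h2 m m1
    refine ⟨t, ht, (key P _ (mon_ne y0 t)).2 (lt_of_le_of_lt ?_ m2)⟩
    have := hu P p _ k
    rw [ord_mon P y0] at this ⊢
    simp only [Pi.sub_apply, sub_mul, Finset.sum_sub_distrib, sub_nonneg] at this
    exact_mod_cast this
  obtain ⟨φ, sp, φ0, hφ⟩ := ber d (Q * r) K (Algebra.adjoin ℂ (u : Set K)) univ y
    (T.image fun t => c * mon y t) hy.ff ⟨u, rfl⟩ (Cb.fr_of hy.ff hy.ind) hn
    (by
      obtain ⟨P, p⟩ := ne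
      obtain ⟨t, ht, -⟩ := pick P p
      exact ⟨_, Finset.mem_image_of_mem _ ht, mul_ne_zero c0 (mon_ne y0 t)⟩)
    (fun P p => by
      obtain ⟨t, ht, k⟩ := pick P fun a ha => p.1 a (Algebra.subset_adjoin ha)
      exact ⟨_, Finset.mem_image_of_mem _ ht, mul_ne_zero c0 (mon_ne y0 t), k⟩)
  rw [Finset.coe_image, Finsupp.mem_span_image_iff_linearCombination] at sp
  obtain ⟨s, hs, rfl⟩ := sp
  have e : Finsupp.linearCombination ℂ (fun t => c * mon y t) s = c * lau y s := by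
    rw [Finsupp.linearCombination_apply, lau, Finsupp.mul_sum]
    exact Finsupp.sum_congr fun _ _ => (mul_smul_comm _ _ _).symm
  rw [e] at φ0 hφ
  refine ⟨s, fun z => φ0 (by simp [z, lau]), fun m hm => h1 m (hs hm), fun P p =>
    (key P _ (right_ne_zero_of_mul φ0)).1
      (hφ P ⟨fun a ha => Br.adj_le p ha, ⊤, trivial, fun _ _ => trivial⟩)⟩

end Vale.Agent.P283R.To
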