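import Vale.Agent.P283M.Br.Brg
import Vale.Agent.P283M.Br.Amp
import Vale.Agent.P283M.Br.Mod
import Vale.Agent.P283M.Br.Mdc
import Vale.Agent.P283M.Br.Frm
import Vale.Agent.P283M.Br.Crv

/-!
# P283R, block TOR: the translation of the data over a given affine neighbourhood
-/

set_option linter.all false

open Set CategoryTheory AlgebraicGeometry Pointwise

noncomputable section

namespace Vale.Agent.P283R.Sch

open Vale.Agent.P289 (Pt St toRat DForm dimension)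
open Vale.Agent.P287D Vale.Agent.P283M.Stm Vale.Agent.P283M.Stm.Var Vale.Agent.P297Z
open Vale.Agent.P283M Vale.Agent.P283M.Br

variable {X Z : Var}

/-- the translation of the data over a given neighbourhood -/
theorem dataV {n : ℕ} {f : X.X ⟶ Z.X} {ω : DForm ℂ X.K (n + 1)} {B : X.QDiv} {z : Pt Z.X} {ε : ℝ}
    (hK : FF X.K (n + 1)) (hω : ω.Nonzero) (hB : Pair (ε ≤ ·) ⊤ ω B) (hf : Contraction f)
    (hF : FanoType f ω) {V : Z.X.Opens} {u : Finset X.K} (bs : Base f V z u) :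
    ∃ Λ Γ Γ', Dat n u Λ Γ Γ' ∧
      (∀ (P : Pl X.K) (x : Pt X.X), x ∈ f ⁻¹ᵁ V → Dom P.ring x → (On n Λ P ↔ x.CodimOne)) ∧
      (∀ R : Finset ℚ, (∀ y, B y ≠ 0 → B y ∈ R) → Elc n ε R u Λ Γ) ∧
      (NefOver f (-logCan ω B) → NefO n X.K u (-Γ)) ∧
      ∀ N, 1 ≤ N → Cpl n N u Λ Γ → HasKltComplement f ω B N z := by
  classical
  obtain ⟨h, h0, fr⟩ := frm X _ hK ω hω
  obtain ⟨C, hC, hA⟩ := hF
  obtain ⟨m₀, s, ds, es⟩ := amp1 X Z f hf _ hA V bs.aff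
  obtain ⟨x₀, hx₀⟩ : ∃ x, x ∈ f ⁻¹ᵁ V := by
    obtain ⟨x, hx⟩ := hf.2.2.1.surj z
    exact ⟨x, show f x ∈ V from hx ▸ bs.mem⟩
  have f0 : {E : X.PrimeDiv | E.1 ∈ f ⁻¹ᵁ V ∧ formOrd ω (RingEquiv.refl X.K) E ≠ 0}.Finite := by
    refine ((ds.fin fin).union C.support.finite_toSet).subset fun E hE => ?_
    by_cases c : C E = 0
    · refine .inl ⟨hE.1, ?_⟩
      rw [Pi.neg_apply, logCan, c, add_zero, neg_ne_zero]
      exact Int.cast_ne_zero.2 hE.2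
    · exact .inr (Finsupp.mem_support_iff.2 c)
  have f1 : {E : X.PrimeDiv | E.1 ∈ f ⁻¹ᵁ V ∧ logCan ω B E ≠ 0}.Finite := by
    refine (f0.union B.support.finite_toSet).subset fun E hE => ?_
    by_cases c : B E = 0
    · refine .inl ⟨hE.1, fun e => hE.2 ?_⟩
      rw [logCan, c, e, Int.cast_zero, add_zero]
    · exact .inr (Finsupp.mem_support_iff.2 c)
  obtain ⟨m₁, k₁, t₁, t₂, d1, d2⟩ := amp2 X Z f hf _ hA V bs.aff (-logCan ω B)
    (f1.subset fun E hE => ⟨hE.1, neg_ne_zero.1 hE.2⟩) fun x _ =>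
      let ⟨m, g, a, b⟩ := hB.2.1 x trivial; ⟨m, _, a, localEq_neg plc b⟩
  obtain ⟨m₃, k₃, t₃, t₄, d3, d4⟩ := amp2 X Z f hf _ hA V bs.aff (logCan ω B) f1
    fun x _ => hB.2.1 x trivial
  have gu : ∀ x ∈ f ⁻¹ᵁ V, GenAt (insert 1 u) 1 x := fun x hx =>
    ⟨Finset.mem_insert_self _ _, one_ne_zero, fun g hg => by
      rw [div_one]
      rcases Finset.mem_insert.1 hg with rfl | hg
      exacts [reg_one, bs.reg g hg x hx]⟩
  have bu : Bpf (insert 1 u) (f ⁻¹ᵁ V) := fun x hx => ⟨1, gu x hx⟩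
  have br := d1.b1.mul (d1.b2.mul bu)
  obtain ⟨big, on⟩ := onc X n hK _ _ ⟨x₀, hx₀⟩ (ds.b1.mul br) (es.mul ds.b1 br)
  have eΛ : mx (s * (t₁ * (t₂ * insert 1 u))) = mx s + (mx t₁ + (mx t₂ + inf u)) := by
    rw [mx_mul (ds.b1.nz hx₀) (br.nz hx₀), mx_mul (d1.b1.nz hx₀) ((d1.b2.mul bu).nz hx₀),
      mx_mul (d1.b2.nz hx₀) (bu.nz hx₀)]
    rfl
  set Λ := mx (s * (t₁ * (t₂ * insert 1 u))) with hΛ
  have ctr : ∀ P : Pl X.K, Ov u P → ∃ x ∈ f ⁻¹ᵁ V, Dom P.ring x := fun P hP =>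
    bs.ctr P.ring P.con hP
  have ov : ∀ (P : Pl X.K), ∀ x ∈ f ⁻¹ᵁ V, Dom P.ring x → Ov u P := fun P x hx hP a ha =>
    (hP a (bs.reg a ha x hx)).1
  have s0 : Smp (inf u) := smp_mx _
  have m1 : mx ({1} : Finset X.K) = 0 := by rw [mx_single, dv_one, neg_zero]
  refine ⟨Λ, gam m₁ t₁ t₂ h, gam m₀ s {1} h,
    ⟨hK, smp_mx _, big, ?_, fun a ha => bs.con a fun x hx => har X a x fun E hE => ?_, gam_carQ,
      gam_dsc ?_ ?_, gam_carQ, gam_dsc ?_ ?_, ?_, fun P hP => ?_, fun P hP o => ?_⟩, on,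
    fun R hR => ⟨fun P hP => ?_, fun P hP o => ?_⟩, fun hn => ?_, fun N N1 hc => ?_⟩
  · rw [eΛ]
    exact (((Dsc.refl s0).add_left' (smp_mx _)).add_left' (smp_mx _)).add_left' (smp_mx _)
  · obtain ⟨Q, e, o⟩ := pl_of plc E
    rw [o]
    exact Pl.ord_nonneg_of_mem _ (ha Q (ov Q _ (hE.mem_open (f ⁻¹ᵁ V).isOpen hx) e.dom))
  · rw [eΛ]
    exact (Dsc.self_add (smp_mx _) ((smp_mx _).add s0)).add_left' (smp_mx _)
  · rw [eΛ]
    exact ((Dsc.self_add (smp_mx _) s0).add_left' (smp_mx _)).add_left' (smp_mx _)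
  · rw [eΛ]
    exact Dsc.self_add (smp_mx _) ((smp_mx _).add ((smp_mx _).add s0))
  · rw [m1]
    exact Dsc.zero (smp_mx _)
  · have p0 : (0 : ℝ) < m₀ := Nat.cast_pos.2 ds.pos
    have p3 : (0 : ℝ) < m₃ := Nat.cast_pos.2 d3.pos
    have pc : (0 : ℝ) < m₀ + 2 * k₁ + m₁ * k₃ / m₃ := by positivity
    refine ⟨(m₀ + 2 * k₁ + m₁ * k₃ / m₃ : ℝ)⁻¹, inv_pos.2 pc,
      dv h + ((m₀ + 2 * k₁ + m₁ * k₃ / m₃ : ℝ)⁻¹ * (m₁ / m₃ : ℝ)) • mx t₃,
      (smp_dv h).add ((smp_mx _).smul (by positivity)), fun P hP => ?_⟩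
    obtain ⟨x, hx, c⟩ := ctr P hP
    obtain ⟨a, ha⟩ := ds.ex hx
    obtain ⟨b, hb⟩ := d3.ex hx
    have e0 := ds.pull har plc hx c ha
    have e2 := d2.pull har plc hx c ha
    have e4 := d4.pull har plc hx c ha
    have e3 := d3.pull har plc hx c hb
    have e1 := d1.pull har plc hx c (localEq_neg plc hb)
    have e5 : inf u P = 0 := by
      have := (gu x hx).mx c
      rw [Pl.ord_one, Int.cast_zero, neg_zero] at this
      exact this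
    rw [Pl.ord_inv, Int.cast_neg] at e1
    rw [m1, Pi.zero_apply, sub_zero] at e0 e2 e4
    have a0 : mx s P = P.ord a := mul_left_cancel₀ p0.ne' e0
    have a2 : mx t₂ P = k₁ * P.ord a / m₀ := by rw [← e2]; field_simp
    have a4 : mx t₄ P = k₃ * P.ord a / m₀ := by rw [← e4]; field_simp
    have a3 : mx t₃ P = mx t₄ P + P.ord b := by linarith [mul_left_cancel₀ p3.ne' e3]
    have a1 : mx t₁ P = mx t₂ P - m₁ * P.ord b / m₃ := by
      field_simp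
      linarith
    simp only [eΛ, gam, m1, Pi.sub_apply, Pi.neg_apply, Pi.add_apply, Pi.smul_apply, smul_eq_mul,
      Pi.zero_apply, e5, a1, a3, a0, a2, a4]
    field_simp
    ring
  · obtain ⟨x, hx, c⟩ := ctr P hP
    have := disc har plc mdc mod hC fr ds hx c
    linarith
  · obtain ⟨x, hx, c⟩ := ctr P hP
    rw [coef har plc fr ds (E := ⟨x, (on P x hx c).1 o⟩) hx c, neg_nonpos]
    exact_mod_cast hC.1 _ trivial
  · obtain ⟨x, hx, c⟩ := ctr P hP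
    exact disc har plc mdc mod hB fr d1 hx c
  · obtain ⟨x, hx, c⟩ := ctr P hP
    rw [coef har plc fr d1 (E := ⟨x, (on P x hx c).1 o⟩) hx c]
    by_cases e : B ⟨x, (on P x hx c).1 o⟩ = 0
    · exact .inl (by rw [e, Rat.cast_zero, neg_zero])
    · exact .inr ⟨_, hR _ e, rfl⟩
  · refine crv X Z f hf n hK V z u bs _ m₁ t₁ t₂ d1 hn _ ?_
    have c : (m₁ : ℝ) ≠ 0 := Nat.cast_ne_zero.2 d1.pos.ne'
    have : (m₁ : ℝ) • -gam m₁ t₁ t₂ h - (mx t₁ - mx t₂) = (m₁ : ℝ) • dv h := by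
      rw [gam, neg_sub, sub_neg_eq_add, smul_add, smul_inv_smul₀ c, add_sub_cancel_right]
    rw [this]
    exact Submodule.smul_mem _ _ (dv_mem_Prn h)
  obtain ⟨φ, p, φ0, p0, hc⟩ := hc
  obtain ⟨U, UV, zU, hU⟩ := bs.bas p p0
  have le : ∀ x ∈ f ⁻¹ᵁ U, x ∈ f ⁻¹ᵁ V := fun x hx => UV hx
  have N0 : (N : ℝ) ≠ 0 := Nat.cast_ne_zero.2 (by omega)
  have N0' : (N : ℚ) ≠ 0 := Nat.cast_ne_zero.2 (by omega)
  have ψ0 : φ * h ^ N ≠ 0 := mul_ne_zero φ0 (pow_ne_zero _ h0)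
  have oψ : ∀ P : Pl X.K, (P.ord (φ * h ^ N) : ℝ) = P.ord φ + N * P.ord h := fun P => by
    rw [Pl.ord_mul _ φ0 (pow_ne_zero _ h0), Pl.ord_pow]
    push_cast
    rfl
  let L : X.PrimeDiv → ℚ := fun E => if E.1 ∈ f ⁻¹ᵁ U then
    ord (φ * h ^ N) E / N - formOrd ω (RingEquiv.refl X.K) E else 0
  have fL : (Function.support L).Finite := by
    refine ((fin X (φ * h ^ N)).union f0).subset fun E hE => ?_
    have c : E.1 ∈ f ⁻¹ᵁ U := by_contra fun c => hE (if_neg c)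
    by_contra k
    rw [mem_union, not_or, mem_setOf, mem_setOf, not_not, not_and, not_not] at k
    exact hE ((if_pos c).trans (by rw [k.1, k.2 (le _ c)]; simp))
  have eL : ∀ E : X.PrimeDiv, E.1 ∈ f ⁻¹ᵁ U → Finsupp.ofSupportFinite L fL E =
      ord (φ * h ^ N) E / N - formOrd ω (RingEquiv.refl X.K) E := fun E c => if_pos c
  have lq : ∀ x ∈ f ⁻¹ᵁ U, LocalEq (logCan ω (Finsupp.ofSupportFinite L fL)) N (φ * h ^ N) x :=
    fun x hx => ⟨ψ0, fun E hE => by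
      rw [logCan, eL E (hE.mem_open (f ⁻¹ᵁ U).isOpen hx)]
      field_simp
      ring⟩
  have ge : ∀ E : X.PrimeDiv, E.1 ∈ f ⁻¹ᵁ U → B E ≤ Finsupp.ofSupportFinite L fL E := by
    intro E c
    obtain ⟨Q, e, o⟩ := pl_of plc E
    have a := (hc Q (ov Q _ (le _ c) e.dom) (e.dom.rd (hU _ c))).1 ((on Q _ (le _ c) e.dom).2 E.2)
    have b := coef har plc fr d1 (le _ c) e.dom
    rw [dsc, Pi.sub_apply] at b
    rw [eL E c, o, ← Rat.cast_le (K := ℝ)]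
    push_cast
    rw [fr _ _ E Q e o, oψ, add_div, mul_div_cancel_left₀ _ N0, div_eq_inv_mul]
    rw [dv_apply] at a
    linarith
  refine ⟨U, Finsupp.ofSupportFinite L fL, φ * h ^ N, zU, ge,
    ⟨fun E c => (hB.1 E trivial).trans (ge E c), fun x hx => ⟨N, _, N1, lq x hx⟩,
      fun M E c m g m0 hg => ?_⟩, lq⟩
  obtain ⟨⟨Q, e⟩, o⟩ := plc X M.Y M.pull (mdc X M).1 E
  have dm := (mdc X M).2 E Q e
  have a := (hc Q (ov Q _ (le _ c) dm) (dm.rd (hU _ c))).2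
  have b := loc_uniq har plc hg (lq _ c) dm
  have m0' : (m : ℝ) ≠ 0 := Nat.cast_ne_zero.2 m0.ne'
  have b' : (Q.ord g : ℝ) / m = (N : ℝ)⁻¹ * Q.ord φ + Q.ord h := by
    rw [oψ] at b
    field_simp
    linarith
  rw [dsc, Pi.sub_apply, Pi.smul_apply, smul_eq_mul, dv_apply] at a
  show (0 : ℝ) < _
  rw [fr _ _ E Q e (o Q e), o Q e, b']
  linarith

end Vale.Agent.P283R.Sch
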