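import Vale.Agent.P283R.To.Br
import Vale.Agent.P283R.To.Sc1
import Vale.Agent.P283R.To.Sc2

/-!
# P283R, block TOR: the scheme side of the bridge
-/

set_option linter.all false

open Set CategoryTheory AlgebraicGeometry

noncomputable section

namespace Vale.Agent.P283R.Sch

open Vale.Agent.P289 (Pt St toRat DForm dimension)
open Vale.Agent.P287D Vale.Agent.P283M.Stm Vale.Agent.P283M.Stm.Var Vale.Agent.P297Z
open Vale.Agent.P283M Vale.Agent.P283M.Br Vale.Agent.P283R.To Vale.Agent.P283R.Tor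

section alg

variable {K : Type} [Field K] [Algebra ℂ K] {d : ℕ} {y : Fin d → K} {S : Set (Fin d → ℤ)} {a : K}

theorem lau_of (h : a ∈ Submodule.span ℂ (mon y '' S)) :
    ∃ g : (Fin d → ℤ) →₀ ℂ, (g.support : Set _) ⊆ S ∧ lau y g = a :=
  (Finsupp.mem_span_image_iff_linearCombination ℂ).1 h

theorem span_mul (hy : ∀ i, y i ≠ 0) (h : a ∈ Submodule.span ℂ (mon y '' S)) (m : Fin d → ℤ) :
    a * mon y m ∈ Submodule.span ℂ (mon y '' univ) := by
  induction h using Submodule.span_induction with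
  | mem x hx =>
    obtain ⟨m', -, rfl⟩ := hx
    exact Submodule.subset_span ⟨m' + m, trivial, mon_add hy _ _⟩
  | zero => rw [zero_mul]; exact zero_mem _
  | add a b _ _ ha hb => rw [add_mul]; exact add_mem ha hb
  | smul c a _ ha => rw [smul_mul_assoc]; exact Submodule.smul_mem _ _ ha

theorem span_adj (h : a ∈ Submodule.span ℂ (mon y '' S)) :
    a ∈ IntermediateField.adjoin ℂ (range y) := by
  refine (Submodule.span_le (p := (IntermediateField.adjoin ℂ (range y)).toSubalgebra.toSubmodule)).2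
    ?_ h
  rintro _ ⟨m, -, rfl⟩
  show ∏ i, y i ^ m i ∈ IntermediateField.adjoin ℂ (range y)
  exact prod_mem fun i _ => zpow_mem (IntermediateField.subset_adjoin ℂ _ (mem_range_self i)) _

theorem exists_pos (hy : ∀ i, y i ≠ 0) (hS : AddSubgroup.closure S = ⊤) {P : Pl K}
    (h : ∀ m ∈ S, 0 ≤ P.ord (mon y m)) (h0 : ¬ ∀ i, P.ord (y i) = 0) :
    ∃ m ∈ S, 0 < P.ord (mon y m) := by
  classical
  by_contra c
  push Not at c
  have k : ∀ m ∈ AddSubgroup.closure S, P.ord (mon y m) = 0 := fun m hm => by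
    induction hm using AddSubgroup.closure_induction with
    | mem x hx => exact (c x hx).antisymm (h x hx)
    | zero => simp [ord_mon P hy]
    | add a b _ _ ha hb => rw [mon_add hy, Pl.ord_mul _ (mon_ne hy _) (mon_ne hy _), ha, hb, add_zero]
    | neg a _ ha =>
      rw [ord_mon P hy] at ha ⊢
      simp only [Pi.neg_apply, neg_mul, Finset.sum_neg_distrib, ha, neg_zero]
  refine h0 fun i => ?_
  have := k (Pi.single i 1) (hS ▸ trivial)
  rw [ord_mon P hy, Finset.sum_eq_single i (fun j _ j0 => by rw [Pi.single_eq_of_ne j0, zero_mul])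
    (fun a => (a (Finset.mem_univ _)).elim), Pi.single_eq_same, one_mul] at this
  exact this

end alg

variable {X Z : Var}

theorem is_of_dom {P : Pl X.K} {E : X.PrimeDiv} (hP : Dom P.ring E.1) :
    Is (RingEquiv.refl X.K) E P := by
  obtain ⟨Q, e, -⟩ := pl_of plc E
  obtain rfl : Q = P := Pl.ext' (congrArg _
    (Pl.eq_of_le' (v := Q.toPlace) (w := P.toPlace) fun g hg => (hP g ((e g).1 hg)).1))
  exact e

theorem tor {n : ℕ} {f : X.X ⟶ Z.X} {z : Pt Z.X} {V : Z.X.Opens} {u : Finset X.K} {Λ : BD X.K}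
    (bs : Base f V z u) {x₀ : Pt X.X} (hx₀ : x₀ ∈ f ⁻¹ᵁ V)
    (on : ∀ (P : Pl X.K) (x : Pt X.X), x ∈ f ⁻¹ᵁ V → Dom P.ring x → (On n Λ P ↔ x.CodimOne))
    (ht : Toric (f ⁻¹ᵁ V) (n + 1)) : ∃ y, Tor n u Λ y := by
  classical
  obtain ⟨y, hy, ch⟩ := ht
  have y0 := hy.ne_zero
  have ch' : ∀ x ∈ f ⁻¹ᵁ V, ∃ U ≤ f ⁻¹ᵁ V, IsAffineOpen U ∧ x ∈ U ∧ ∃ S : Set (Fin (n + 1) → ℤ),
      AddSubgroup.closure S = ⊤ ∧
        ∀ g, (∀ x' ∈ U, RegAt g x') ↔ g ∈ Submodule.span ℂ (mon y '' S) := fun x hx =>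
    let ⟨U, a, b, c, S, e, k⟩ := ch x hx
    ⟨U, a, b, c, S, e, fun g => Set.ext_iff.1 k g⟩
  obtain ⟨U, UV, hU, xU, S, hS, eS⟩ := ch' x₀ hx₀
  refine ⟨y, ⟨hy, fun a => ?_⟩, fun P o p => ?_, fun s hs => ?_⟩
  · have g0 : genericPoint X.X ∈ U := (genericPoint_specializes x₀).mem_open U.isOpen xU
    obtain ⟨b, h1, h2, h3⟩ := Am.frac hU g0 (P270L.S.mem_loc_gen a)
    rw [← mul_div_cancel_left₀ a h2.1]
    exact div_mem (span_adj ((eS _).1 (Am.mem_reg.1 h3))) (span_adj ((eS _).1 (Am.mem_reg.1 h1)))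
  · obtain ⟨x, hx, dm⟩ := bs.ctr P.ring P.con o
    have e := is_of_dom (E := ⟨x, (on P x hx dm).1 p⟩) dm
    obtain ⟨U', -, hU', xU', S', hS', eS'⟩ := ch' x hx
    refine ⟨S', hS', fun m hm => (e _).2 ((eS' _).2 (Submodule.subset_span ⟨m, hm, rfl⟩) x xU'),
      fun a ha => ?_⟩
    obtain ⟨b, h1, h2, h3⟩ := Am.frac (f := a) hU' xU' ((e a).1 ha)
    obtain ⟨g, g1, g2⟩ := lau_of ((eS' _).1 (Am.mem_reg.1 h3))
    obtain ⟨h, k1, k2⟩ := lau_of ((eS' _).1 (Am.mem_reg.1 h1))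
    exact ⟨g, h, g1, k1, k2 ▸ dm.rd h2, by rw [g2, k2, mul_div_cancel_left₀ a h2.1]⟩
  rcases eq_or_ne s 0 with rfl | s0
  · exact ⟨0, Finsupp.sum_zero_index.symm⟩
  choose Q e o using pl_of (X := X) plc
  have rg : ∀ m ∈ S, ∀ E : X.PrimeDiv, E.1 ∈ U → 0 ≤ (Q E).ord (mon y m) := fun m hm E c =>
    Pl.ord_nonneg_of_mem _ (((e E) _).2 ((eS _).2 (Submodule.subset_span ⟨m, hm, rfl⟩) _ c))
  have k : ∀ T : Finset X.PrimeDiv, ∃ m, (∀ E : X.PrimeDiv, E.1 ∈ U → 0 ≤ (Q E).ord (mon y m)) ∧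
      ∀ E ∈ T, E.1 ∈ U → 0 ≤ (Q E).ord s + (Q E).ord (mon y m) := fun T => by
    induction T using Finset.induction_on with
    | empty => exact ⟨0, fun E _ => by simp [ord_mon _ y0], fun _ a => (Finset.notMem_empty _ a).elim⟩
    | insert E T _ ih =>
      obtain ⟨m, m1, m2⟩ := ih
      by_cases c : E.1 ∈ U ∧ (Q E).ord s < 0
      · obtain ⟨m', a, b⟩ := exists_pos y0 hS (fun m hm => rg m hm E c.1) fun h0 => c.2.not_ge
          (Pl.ord_nonneg_of_mem _ (hs _ (fun a ha => ((e E).dom a (bs.reg a ha _ (UV c.1))).1)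
            ((on _ _ (UV c.1) (e E).dom).2 E.2) h0))
        have w : ∀ P : Pl X.K, P.ord (mon y (m + (-(Q E).ord s) • m')) =
            P.ord (mon y m) + -(Q E).ord s * P.ord (mon y m') := fun P => by
          simp only [ord_mon _ y0, Pi.add_apply, Pi.smul_apply, smul_eq_mul, add_mul,
            Finset.sum_add_distrib, Finset.mul_sum, mul_assoc]
        have w0 : 0 ≤ -(Q E).ord s := by omega
        refine ⟨m + (-(Q E).ord s) • m', fun E' c' => ?_, fun E' hE' c' => ?_⟩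
        · rw [w]
          exact add_nonneg (m1 E' c') (mul_nonneg w0 (rg m' a E' c'))
        · rw [w]
          rcases Finset.mem_insert.1 hE' with rfl | hE'
          · nlinarith [m1 E' c']
          · linarith [m2 E' hE' c', mul_nonneg w0 (rg m' a E' c')]
      · refine ⟨m, m1, fun E' hE' c' => ?_⟩
        rcases Finset.mem_insert.1 hE' with rfl | hE'
        · exact add_nonneg (not_lt.1 fun a => c ⟨c', a⟩) (m1 E' c')
        · exact m2 E' hE' c'
  obtain ⟨m, m1, m2⟩ := k (fin X s).toFinset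
  have r : ∀ x ∈ U, RegAt (s * mon y m) x := fun x hx => har X _ x fun E hE => by
    have c : E.1 ∈ U := hE.mem_open U.isOpen hx
    rw [o, Pl.ord_mul _ s0 (mon_ne y0 _)]
    by_cases b : ord s E = 0
    · rw [← o, b, zero_add]
      exact m1 E c
    · exact m2 E ((fin X s).mem_toFinset.2 b) c
  obtain ⟨g, -, hg⟩ := lau_of (span_mul y0 ((eS _).1 r) (-m))
  refine ⟨g, ?_⟩
  rw [hg, mul_assoc, ← mon_add y0, add_neg_cancel]
  simp [mon]

end Vale.Agent.P283R.Sch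

namespace Vale.Agent.P283R.To

open Vale.Agent.P283M.Br Vale.Agent.P283R.Sch

/-- **SCH** -/
theorem sch : SCH := by
  intro q d hd ε hε R hR
  obtain ⟨n, rfl⟩ : ∃ n, d = n + 1 := ⟨d - 1, by omega⟩
  obtain ⟨N, N1, hN⟩ := q n ε hε R hR
  refine ⟨N, N1, fun X Z f ω B z hdim hω hB hR' hf hF hn hz ⟨V, hV, zV, ht⟩ => ?_⟩
  obtain ⟨u, bs⟩ := basV hf hz hV zV
  obtain ⟨Λ, Γ, Γ', a, on, b, c, e⟩ := dataV (ffd X _ hdim) hω hB hf hF bs
  obtain ⟨x, hx⟩ := hf.2.2.1.surj z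
  obtain ⟨y, t⟩ := tor bs (x₀ := x) (show f x ∈ V from hx ▸ zV) on ht
  exact e N N1 (hN X.K u Λ Γ Γ' y a t (b R hR') (c hn))

end Vale.Agent.P283R.To
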