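import Vale.Agent.P283R.To.St
import Vale.Agent.P283R.D.Mon

/-!
# P283R, block TOR: change of the basis of the lattice, monomial places
-/

set_option linter.all false

open Set Matrix
open Vale.Agent.P297Z
open Vale.Agent.P287D

noncomputable section

namespace Vale.Agent.P283R.To

/-- a nonzero vector is a positive multiple of the first row of an invertible matrix -/
theorem exists_row {d : ℕ} {v : Fin (d + 1) → ℤ} (hv : v ≠ 0) :
    ∃ (A B : Matrix (Fin (d + 1)) (Fin (d + 1)) ℤ) (e : ℕ), 0 < e ∧ A * B = 1 ∧ B * A = 1 ∧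
      ∀ j, v j = e * A 0 j := by
  obtain ⟨n, bM, bN, f, a, h⟩ := (Submodule.span ℤ {v}).smithNormalForm (Pi.basisFun ℤ (Fin (d + 1)))
  have : Nontrivial (Submodule.span ℤ {v}) :=
    ⟨⟨⟨v, Submodule.mem_span_singleton_self v⟩, 0, fun e => hv (congrArg Subtype.val e)⟩⟩
  obtain ⟨i⟩ := bN.index_nonempty
  obtain ⟨c, hc⟩ := Submodule.mem_span_singleton.1 (bN i).2
  have c0 : c ≠ 0 := fun e => bN.ne_zero i (Subtype.ext (by rw [← hc, e, zero_smul]; rfl))
  have e1 : c * bM.repr v (f i) = a i := by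
    have := congrArg (fun x => bM.repr x (f i)) (hc.trans (h i))
    simpa only [map_smul, Finsupp.smul_apply, smul_eq_mul, Module.Basis.repr_self,
      Finsupp.single_eq_same, mul_one] using this
  have e2 : v = bM.repr v (f i) • bM (f i) := by
    have : c • v = c • bM.repr v (f i) • bM (f i) := by rw [hc, h i, smul_smul, e1]
    exact smul_right_injective _ c0 this
  let b := bM.reindex (Equiv.swap 0 (f i))
  have b0 : b 0 = bM (f i) := by simp [b]
  let A : Matrix (Fin (d + 1)) (Fin (d + 1)) ℤ := Matrix.of fun i => b i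
  let B : Matrix (Fin (d + 1)) (Fin (d + 1)) ℤ := Matrix.of fun j i => b.repr (Pi.single j 1) i
  have hBA : B * A = 1 := by
    ext j k
    have := congrFun (b.sum_repr (Pi.single j 1)) k
    rw [Finset.sum_apply] at this
    rw [Matrix.mul_apply, Matrix.one_eq_pi_single, ← this]
    rfl
  have hAB : A * B = 1 := mul_eq_one_comm.1 hBA
  have e3 : ∀ j, v j = bM.repr v (f i) * A 0 j := fun j => by
    have := congrFun e2 j
    rw [← b0] at this
    exact this
  rcases lt_trichotomy (bM.repr v (f i)) 0 with l | l | l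
  · refine ⟨-A, -B, (-bM.repr v (f i)).toNat, by omega, by simp [hAB], by simp [hBA], fun j => ?_⟩
    rw [Int.toNat_of_nonneg (by omega), Matrix.neg_apply, neg_mul_neg]
    exact e3 j
  · exact absurd (by rw [e2, l, zero_smul]) hv
  · refine ⟨A, B, (bM.repr v (f i)).toNat, by omega, hAB, hBA, fun j => ?_⟩
    rw [Int.toNat_of_nonneg l.le]
    exact e3 j

variable {K : Type} [Field K] [Algebra ℂ K] {d : ℕ} {ι : Type} [Fintype ι] {y : Fin d → K}
  {A B : Matrix (Fin d) (Fin d) ℤ}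

omit [Algebra ℂ K] in
theorem mon_vec (hy : ∀ j, y j ≠ 0) (A : Matrix (Fin d) (Fin d) ℤ) (m : Fin d → ℤ) :
    mon (fun i => mon y (A i)) m = mon y (m ᵥ* A) := by
  have k : ∀ (j : Fin d) (s : Finset (Fin d)) (c : Fin d → ℤ),
      y j ^ (∑ i ∈ s, c i) = ∏ i ∈ s, y j ^ c i := fun j s c => by
    classical
    induction s using Finset.induction_on with
    | empty => simp
    | insert i s hi ih => rw [Finset.sum_insert hi, Finset.prod_insert hi, zpow_add₀ (hy j), ih]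
  simp only [mon, Matrix.vecMul, dotProduct, k, ← Finset.prod_zpow, ← _root_.zpow_mul]
  rw [Finset.prod_comm]
  exact Finset.prod_congr rfl fun j _ => Finset.prod_congr rfl fun i _ => by rw [mul_comm]

omit [Algebra ℂ K] in
theorem mon_row (hy : ∀ j, y j ≠ 0) (h : B * A = 1) (j : Fin d) :
    mon (fun i => mon y (A i)) (B j) = y j := by
  have e : B j ᵥ* A = Pi.single j 1 := by
    funext k
    have := congrFun (congrFun h j) k
    rw [Matrix.one_eq_pi_single] at this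
    exact this
  rw [mon_vec hy, e, mon, Finset.prod_eq_single j (fun b _ hb => by simp [hb]) (by simp)]
  simp

theorem det_ne (h : B * A = 1) : A.det ≠ 0 := fun e => by
  have := congrArg Matrix.det h
  rw [Matrix.det_mul, e, mul_zero, Matrix.det_one] at this
  exact zero_ne_one this

theorem rat_bas (hy : D.Rat y) (h : B * A = 1) : D.Rat fun i => mon y (A i) := by
  refine ⟨ind_det hy.ff hy.ind (det_ne h), fun x => ?_⟩
  refine IntermediateField.adjoin_le_iff.2 ?_ (hy.gen x)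
  rintro _ ⟨j, rfl⟩
  rw [← mon_row hy.ind.ne_zero h j]
  exact prod_mem fun i _ => zpow_mem (IntermediateField.subset_adjoin _ _ (mem_range_self i)) _

theorem lau_bas (hy : ∀ j, y j ≠ 0) (h : B * A = 1) (g : (Fin d → ℤ) →₀ ℂ) :
    lau (fun i => mon y (A i)) (g.mapDomain (· ᵥ* B)) = lau y g := by
  unfold lau
  refine (Finsupp.sum_mapDomain_index (h := fun m (c : ℂ) => c • mon (fun i => mon y (A i)) m)
    (fun _ => zero_smul _ _) fun _ _ _ => add_smul _ _ _).trans ?_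
  simp only [mon_vec hy, Matrix.vecMul_vecMul, h, Matrix.vecMul_one]

theorem al_bas (hy : D.Rat y) (h : B * A = 1) (Q : ℕ) (g : (Fin d → ℤ) →₀ ℂ) (P : Pl K) :
    al Q (fun i => mon y (A i)) (g.mapDomain (· ᵥ* B)) P = al Q y g P := by
  rw [al, al, lau_bas hy.ind.ne_zero h, la_mon hy.ff hy.ind (det_ne h)]

theorem rp_bas (hy : ∀ j, y j ≠ 0) (A : Matrix (Fin d) (Fin d) ℤ) {ρ : ι → Fin d → ℤ} {P : Pl K}
    {w : ι → ℝ} (h : Rp y ρ P w) : Rp (fun i => mon y (A i)) (fun l => A *ᵥ ρ l) P w := fun i => by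
  simp only [ord_mon P hy, Matrix.mulVec, dotProduct, Int.cast_sum, Int.cast_mul, h _,
    Finset.mul_sum]
  rw [Finset.sum_comm]
  exact Finset.sum_congr rfl fun l _ => Finset.sum_congr rfl fun j _ => by ring

theorem rp_bas' (hy : ∀ j, y j ≠ 0) (h : B * A = 1) {ρ : ι → Fin d → ℤ} {P : Pl K} {w : ι → ℝ}
    (k : Rp (fun i => mon y (A i)) (fun l => A *ᵥ ρ l) P w) : Rp y ρ P w := by
  have := rp_bas (fun i => mon_ne hy (A i)) B k
  simpa only [mon_row hy h, Matrix.mulVec_mulVec, h, Matrix.one_mulVec] using this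

theorem dt_bas (h : B * A = 1) {Q : ℕ} {ρ : ι → Fin d → ℤ} {k : ι → ℤ} {g : (Fin d → ℤ) →₀ ℂ}
    (hD : Dt Q y ρ k g) :
    Dt Q (fun i => mon y (A i)) (fun l => A *ᵥ ρ l) k (g.mapDomain (· ᵥ* B)) := by
  classical
  have inj : Function.Injective (· ᵥ* B : (Fin d → ℤ) → Fin d → ℤ) := fun a b e => by
    have := congrArg (· ᵥ* A) e
    simpa only [Matrix.vecMul_vecMul, h, Matrix.vecMul_one] using this
  refine ⟨rat_bas hD.rat h, fun e => hD.ne (Finsupp.mapDomain_injective inj (by simpa using e)),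
    fun m hm l => ?_⟩
  obtain ⟨m, hm', rfl⟩ := Finset.mem_image.1 (Finsupp.mapDomain_support hm)
  rw [Matrix.dotProduct_mulVec, Matrix.vecMul_vecMul, h, Matrix.vecMul_one]
  exact hD.eff m hm' l

theorem hy_bas (hy : D.Rat y) (h : B * A = 1) {s : ℝ → Prop} {Q : ℕ} {ε : ℝ} {ρ : ι → Fin d → ℤ}
    {k : ι → ℤ} {g : (Fin d → ℤ) →₀ ℂ} (H : Hy s Q ε y ρ k g) :
    Hy s Q ε (fun i => mon y (A i)) (fun l => A *ᵥ ρ l) k (g.mapDomain (· ᵥ* B)) :=
  fun P w a b => by
    rw [al_bas hy h]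
    exact H P w a (rp_bas' hy.ind.ne_zero h b)

theorem cn_bas (hy : D.Rat y) (h : B * A = 1) {Q n : ℕ} {ρ : ι → Fin d → ℤ} {k : ι → ℤ}
    {g : (Fin d → ℤ) →₀ ℂ} {P : Pl K}
    (H : Cn Q n (fun i => mon y (A i)) (fun l => A *ᵥ ρ l) k (g.mapDomain (· ᵥ* B)) P) :
    Cn Q n y ρ k g P := by
  obtain ⟨m, h1, h2⟩ := H
  refine ⟨m ᵥ* A, fun l => by rw [← Matrix.dotProduct_mulVec]; exact h1 l, ?_⟩
  have e := congrArg (fun x => (P.ord x : ℝ)) (mon_vec hy.ind.ne_zero A m)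
  simp only [ord_mon P hy.ind.ne_zero (m ᵥ* A), ord_mon P (fun i => mon_ne hy.ind.ne_zero (A i)) m,
    Int.cast_sum, Int.cast_mul] at e
  rw [← e, ← al_bas hy h]
  exact h2

theorem sp_tail {r : ℕ} {ρ : ι → Fin (d + 1) → ℤ} (h0 : ∀ l, ρ l 0 = 0) (h : Sp (r + 1) ρ) :
    Sp r fun l => Fin.tail (ρ l) := by
  obtain ⟨v, hv⟩ := h
  obtain ⟨i, hi⟩ : ∃ i, v i 0 ≠ 0 := by
    by_contra hn
    push Not at hn
    have := congrFun (hv (Pi.single 0 1) (fun l => by simp [h0]) fun i => by simp [hn]) 0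
    simp at this
  refine ⟨fun j => v i 0 • Fin.tail (v (i.succAbove j)) - v (i.succAbove j) 0 • Fin.tail (v i),
    fun m h1 h2 => ?_⟩
  have e : ∀ u : Fin (d + 1) → ℤ, (Fin.cons (-(m ⬝ᵥ Fin.tail (v i))) (v i 0 • m) : Fin (d + 1) → ℤ) ⬝ᵥ u =
      v i 0 * (m ⬝ᵥ Fin.tail u) - u 0 * (m ⬝ᵥ Fin.tail (v i)) := fun u => by
    rw [dotProduct, Fin.sum_univ_succ, ← smul_eq_mul (v i 0), ← smul_dotProduct]
    simp only [Fin.cons_zero, Fin.cons_succ]
    change _ + (v i 0 • m) ⬝ᵥ Fin.tail u = _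
    ring
  have := hv (Fin.cons (-(m ⬝ᵥ Fin.tail (v i))) (v i 0 • m))
    (fun l => by rw [e, h1, h0]; simp) fun j => by
      rw [e]
      refine Fin.succAboveCases i (sub_self _) (fun j => ?_) j
      have := h2 j
      rwa [dotProduct_sub, dotProduct_smul, dotProduct_smul, smul_eq_mul, smul_eq_mul] at this
  funext j
  have k := congrFun this j.succ
  simpa [hi] using k

theorem sp_bas (h : A * B = 1) {r : ℕ} {ρ : ι → Fin d → ℤ} (H : Sp r ρ) :
    Sp r fun l => A *ᵥ ρ l := by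
  obtain ⟨v, hv⟩ := H
  refine ⟨fun i => A *ᵥ v i, fun m h1 h2 => ?_⟩
  have := hv (m ᵥ* A) (fun l => by rw [← Matrix.dotProduct_mulVec]; exact h1 l)
    fun l => by rw [← Matrix.dotProduct_mulVec]; exact h2 l
  have e := congrArg (· ᵥ* B) this
  simpa only [Matrix.vecMul_vecMul, h, Matrix.vecMul_one, Matrix.zero_vecMul] using e

theorem bas : BAS := by
  intro d N r Q ε n h1 h2 K _ _ y ι _ ρ k g hD hH P w ⟨hc, hs⟩ hw hR
  by_cases t : ∃ m : Fin (d + 1) → ℤ, m ≠ 0 ∧ ∀ l, m ⬝ᵥ ρ l = 0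
  · obtain ⟨m, m0, hm⟩ := t
    obtain ⟨A, B, e, he, hAB, hBA, hv⟩ := exists_row m0
    have h0 : ∀ l, (A *ᵥ ρ l) 0 = 0 := fun l => by
      have := hm l
      simp only [dotProduct, hv, mul_assoc, ← Finset.mul_sum] at this
      exact (mul_eq_zero.1 this).resolve_left (by exact_mod_cast he.ne')
    exact cn_bas hD.rat hBA (h2 K _ ι _ k _ (dt_bas hBA hD) (hy_bas hD.rat hBA hH) P w
      ⟨hc, h0, sp_tail h0 (sp_bas hAB hs), trivial⟩ hw (rp_bas hD.rat.ind.ne_zero A hR))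
  · refine h1 K y ι ρ k g hD hH P w ⟨hc, fun _ => 0, fun m a _ => ?_⟩ hw hR
    by_contra m0
    exact t ⟨m, m0, a⟩

theorem mon' : MON := by
  intro d K _ _ y v hy hv
  obtain _ | d := d
  · exact absurd (Subsingleton.elim _ _) hv
  obtain ⟨A, B, e, he, hAB, -, hv⟩ := exists_row hv
  have h : Aᵀ * Bᵀ = 1 := by rw [← Matrix.transpose_mul, mul_eq_one_comm.1 hAB, Matrix.transpose_one]
  obtain ⟨P, a, b, c⟩ := D.mon0 (rat_bas hy h) fun _ => 0
  refine ⟨P, e, he, fun j => ?_, ?_⟩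
  · rw [← mon_row hy.ind.ne_zero h j, ord_mon P (fun i => mon_ne hy.ind.ne_zero (Bᵀ i)) (Aᵀ j),
      Fin.sum_univ_succ, a, hv]
    simp [b]
  · rw [← la_mon hy.ff hy.ind (det_ne h), la, c, Fin.sum_univ_succ, a]
    simp [b]

end Vale.Agent.P283R.To
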