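import Vale.Agent.P283R.To.Br

/-!
# P283R, block TOR: a prime divisor outside the torus is a monomial place
-/

open Set
open Vale.Agent.P285N.Brep (Fr)
open Vale.Agent.P297Z

noncomputable section

namespace Vale.Agent.P283R.To

open Vale.Agent.P287D

namespace Mop

variable {K : Type} [Field K] [Algebra ℂ K] {d : ℕ} {y : Fin d → K}
  {D : Fin d → Derivation ℂ K K}

theorem eul (hD : Fr y D) (hy : ∀ j, y j ≠ 0) (i : Fin d) (m : Fin d → ℤ) :
    y i * D i (mon y m) = (m i : ℂ) • mon y m := by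
  rw [der_mon _ hy, Finset.sum_eq_single i (fun j _ h => by rw [hD.dual, if_neg h.symm]; simp)
    (by simp), hD.dual, if_pos rfl, Algebra.smul_def, map_intCast]
  have := hy i
  field_simp

/-- a space of functions which is stable under the Euler derivations is spanned by monomials -/
theorem sep (hD : Fr y D) (hy : ∀ j, y j ≠ 0) (I : Submodule ℂ K)
    (hI : ∀ i, ∀ a ∈ I, y i * D i a ∈ I) (m : Fin d → ℤ) (s : Finset (Fin d → ℤ)) :
    ∀ (c₀ : ℂ) (c : (Fin d → ℤ) → ℂ), m ∉ s → c₀ ≠ 0 →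
      c₀ • mon y m + ∑ l ∈ s, c l • mon y l ∈ I → mon y m ∈ I := by
  classical
  induction s using Finset.induction_on with
  | empty => exact fun c₀ c _ h k => (I.smul_mem_iff h).1 (by simpa using k)
  | insert a s ha ih =>
    intro c₀ c hm h k
    rw [Finset.mem_insert, not_or] at hm
    obtain ⟨i, hi⟩ := Function.ne_iff.1 hm.1
    refine ih (c₀ * (m i - a i)) (fun l => c l * (l i - a i)) hm.2
      (mul_ne_zero h (sub_ne_zero.2 (by exact_mod_cast hi))) ?_
    convert I.sub_mem (hI i _ k) (I.smul_mem (a i : ℂ) k) using 1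
    simp only [Finset.sum_insert ha, map_add, map_sum, Derivation.map_smul, mul_add, Finset.mul_sum,
      mul_smul_comm, eul hD hy, smul_add, Finset.smul_sum, smul_smul, mul_sub, sub_smul,
      Finset.sum_sub_distrib, mul_comm (a i : ℂ)]
    abel

theorem sep' (hD : Fr y D) (hy : ∀ j, y j ≠ 0) (I : Submodule ℂ K)
    (hI : ∀ i, ∀ a ∈ I, y i * D i a ∈ I) {g : (Fin d → ℤ) →₀ ℂ} (h : lau y g ∈ I) :
    ∀ m ∈ g.support, mon y m ∈ I := fun m hm => by
  classical
  refine sep hD hy I hI m (g.support.erase m) (g m) g (by simp) (Finsupp.mem_support_iff.1 hm) ?_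
  rwa [Finset.add_sum_erase _ (fun l => g l • mon y l) hm]

theorem lau_ne (hD : Fr y D) (hy : ∀ j, y j ≠ 0) {g : (Fin d → ℤ) →₀ ℂ} {m : Fin d → ℤ}
    (hm : m ∈ g.support) : lau y g ≠ 0 := fun h =>
  mon_ne hy m ((Submodule.mem_bot ℂ).1 (sep' hD hy ⊥
    (fun i a ha => by simp [(Submodule.mem_bot ℂ).1 ha]) ((Submodule.mem_bot ℂ).2 h) m hm))

theorem smul_mem (P : Pl K) (c : ℂ) {a : K} (h : a ∈ P.ring) : c • a ∈ P.ring := by
  rw [Algebra.smul_def]
  exact mul_mem (P.con c) h

variable {S : Set (Fin d → ℤ)} {P : Pl K}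

theorem lau_mem (hD : Fr y D) (hy : ∀ j, y j ≠ 0) (hP : Chp y S P) {g : (Fin d → ℤ) →₀ ℂ}
    (hg : (g.support : Set _) ⊆ S) :
    lau y g ∈ P.ring ∧ ∀ i, y i * D i (lau y g) ∈ P.ring := by
  refine ⟨sum_mem fun m hm => smul_mem P _ (hP.mem m (hg hm)), fun i => ?_⟩
  simp only [lau, Finsupp.sum, map_sum, Finset.mul_sum, Derivation.map_smul, mul_smul_comm,
    eul hD hy]
  exact sum_mem fun m hm => smul_mem P _ (smul_mem P _ (hP.mem m (hg hm)))

theorem reg (hD : Fr y D) (hy : ∀ j, y j ≠ 0) (hP : Chp y S P) (i : Fin d) {a : K}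
    (ha : a ∈ P.ring) : y i * D i a ∈ P.ring := by
  obtain ⟨g, h, hg, hh, h0, rfl⟩ := hP.frac a ha
  obtain ⟨g1, g2⟩ := lau_mem hD hy hP hg
  obtain ⟨h1, h2⟩ := lau_mem hD hy hP hh
  have k : ¬ Cb.Mx P (lau y h) := fun k => h0 ((Cb.rd_eq_zero h1).2 k)
  rw [Cb.mx_iff, not_or, not_lt] at k
  have h3 : (lau y h)⁻¹ ∈ P.ring :=
    (Pl.ord_nonneg_iff _ (inv_ne_zero k.1)).1 (by rw [Pl.ord_inv]; linarith [k.2])
  have e : y i * D i (lau y g / lau y h) = (y i * D i (lau y g)) * (lau y h)⁻¹ -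
      lau y g * (y i * D i (lau y h)) * (lau y h)⁻¹ * (lau y h)⁻¹ := by
    rw [Derivation.leibniz_div]
    have := k.1
    simp only [smul_eq_mul]
    field_simp
  rw [e]
  exact sub_mem (mul_mem (g2 i) h3) (mul_mem (mul_mem (mul_mem g1 (h2 i)) h3) h3)

theorem lg (hD : Fr y D) (hy : ∀ j, y j ≠ 0) (hP : Chp y S P) {j : Fin d} (hj : P.ord (y j) ≠ 0)
    (i : Fin d) {G : K} (hG : G ≠ 0) : y i * D i G / G ∈ P.ring := by
  have : CharZero K := charZero_of_injective_algebraMap (algebraMap ℂ K).injective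
  have u0 : G ^ P.ord (y j) / y j ^ P.ord G ≠ 0 :=
    div_ne_zero (zpow_ne_zero _ hG) (zpow_ne_zero _ (hy j))
  have u1 : P.ord (G ^ P.ord (y j) / y j ^ P.ord G) = 0 := by
    rw [Pl.ord_div _ (zpow_ne_zero _ hG) (zpow_ne_zero _ (hy j)), Pl.ord_zpow, Pl.ord_zpow]
    ring
  obtain ⟨u2, u3⟩ := (Pl.ord_eq_zero_iff _ u0).1 u1
  have k := mul_mem (reg hD hy hP i u2) u3
  have e : y i * D i G / G = ((P.ord (y j) : ℂ)⁻¹) •
      (y i * D i (G ^ P.ord (y j) / y j ^ P.ord G) * (G ^ P.ord (y j) / y j ^ P.ord G)⁻¹ +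
        (P.ord G : ℂ) • (y i * D i (y j) / y j)) := by
    rw [Derivation.leibniz_div, D i |>.leibniz_zpow, D i |>.leibniz_zpow, zpow_sub_one₀ hG,
      zpow_sub_one₀ (hy j)]
    have a1 := zpow_ne_zero (P.ord (y j)) hG
    have a2 := zpow_ne_zero (P.ord G) (hy j)
    have a3 := hy j
    have a4 : (P.ord (y j) : K) ≠ 0 := by exact_mod_cast hj
    simp only [Algebra.smul_def, map_inv₀, map_intCast, eq_intCast,
      Algebra.algebraMap_self, RingHom.id_apply]
    field_simp
    ring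
  rw [e]
  refine smul_mem P _ (add_mem k (smul_mem P _ ?_))
  rw [hD.dual]
  split_ifs with h
  · rw [h, mul_one, div_self (hy j)]
    exact one_mem _
  · simp

end Mop

open Mop in
/-- **MOP** -/
theorem mop : MOP := by
  rintro d K _ _ y S P hy hP ⟨j, hj⟩ g m hm
  obtain ⟨D, hD⟩ := Cb.fr_of hy.ff hy.ind
  have y0 := hy.ind.ne_zero
  have G0 := lau_ne hD y0 hm
  let I : Submodule ℂ K :=
    { carrier := {a | a / lau y g ∈ P.ring}
      add_mem' := fun {a b} ha hb => by
        change (a + b) / lau y g ∈ P.ring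
        rw [add_div]
        exact add_mem ha hb
      zero_mem' := by
        change (0 : K) / lau y g ∈ P.ring
        rw [zero_div]
        exact zero_mem _
      smul_mem' := fun c a ha => by
        change (c • a) / lau y g ∈ P.ring
        rw [smul_div_assoc]
        exact smul_mem P c ha }
  have k : mon y m / lau y g ∈ P.ring := by
    refine sep' hD y0 I (fun i a ha => ?_) ?_ m hm
    · change y i * D i a / lau y g ∈ P.ring
      have e : y i * D i a / lau y g = y i * D i (a / lau y g) +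
          a / lau y g * (y i * D i (lau y g) / lau y g) := by
        rw [Derivation.leibniz_div]
        simp only [smul_eq_mul]
        field_simp
        ring
      rw [e]
      exact add_mem (reg hD y0 hP i ha) (mul_mem ha (lg hD y0 hP hj i G0))
    · change lau y g / lau y g ∈ P.ring
      rw [div_self G0]
      exact one_mem _
  have := Pl.ord_nonneg_of_mem _ k
  rw [Pl.ord_div _ (mon_ne y0 m) G0] at this
  linarith

end Vale.Agent.P283R.To
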