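import Vale.Agent.P283R.To.Br

/-!
# P283R, block TOR: the prime divisors of the torus are principal
-/

open Set MvPolynomial

noncomputable section

namespace Vale.Agent.P283R.To

open Vale.Agent.P287D Vale.Agent.P297Z

namespace Pri

variable {K : Type} [Field K] [Algebra ℂ K] {d : ℕ} {y : Fin d → K} {P : Pl K}

/-- polynomials which are units at `P` -/
def Un (y : Fin d → K) (P : Pl K) (q : MvPolynomial (Fin d) ℂ) : Prop :=
  aeval y q ≠ 0 ∧ P.ord (aeval y q) = 0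

theorem Un.mul {q r : MvPolynomial (Fin d) ℂ} (a : Un y P q) (b : Un y P r) : Un y P (q * r) :=
  ⟨by rw [map_mul]; exact mul_ne_zero a.1 b.1, by
    rw [map_mul, Pl.ord_mul _ a.1 b.1, a.2, b.2, add_zero]⟩

theorem un_one : Un y P 1 := ⟨by simp, by simp⟩

/-- the local ring of the affine space at the centre of `P` -/
def loc (y : Fin d → K) (P : Pl K) : Subalgebra ℂ K where
  carrier := {x | ∃ p q, Un y P q ∧ x * aeval y q = aeval y p}
  mul_mem' := fun ⟨p, q, a, b⟩ ⟨p', q', a', b'⟩ => ⟨p * p', q * q', a.mul a', by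
    rw [map_mul, map_mul, ← b, ← b']; ring⟩
  add_mem' := fun ⟨p, q, a, b⟩ ⟨p', q', a', b'⟩ => ⟨p * q' + p' * q, q * q', a.mul a', by
    rw [map_add, map_mul, map_mul, map_mul, ← b, ← b']; ring⟩
  algebraMap_mem' c := ⟨C c, 1, un_one, by simp⟩

theorem lau_mem (h0 : ∀ j, y j ≠ 0) (ho : ∀ j, P.ord (y j) = 0) (g : (Fin d → ℤ) →₀ ℂ) :
    lau y g ∈ loc y P := by
  refine Subalgebra.sum_mem _ fun m _ => Subalgebra.smul_mem _
    (Subalgebra.prod_mem _ fun j _ => ?_) _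
  cases m j with
  | ofNat n =>
    rw [Int.ofNat_eq_natCast, zpow_natCast]
    exact (loc y P).pow_mem ⟨X j, 1, un_one, by simp⟩ _
  | negSucc n =>
    rw [zpow_negSucc, ← inv_pow]
    exact (loc y P).pow_mem ⟨1, X j, ⟨by simpa using h0 j, by simpa using ho j⟩, by simp [h0 j]⟩ _

theorem unit_of_rd {a : K} (h : P.rd a ≠ 0) : a ≠ 0 ∧ P.ord a = 0 := by
  have m : a ∈ P.ring := by_contra fun k => h (dif_neg k)
  have := mt (Bm.rd_zero_iff P m).2 h
  rw [not_or, not_lt] at this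
  exact ⟨this.1, le_antisymm this.2 (Pl.ord_nonneg_of_mem _ m)⟩

theorem mem_loc (h0 : ∀ j, y j ≠ 0) (h : Tpr y P) {a : K} (ha : a ∈ P.ring) : a ∈ loc y P := by
  obtain ⟨g, k, r, rfl⟩ := h.2 a ha
  obtain ⟨p, q, u, e⟩ := lau_mem h0 h.1 g
  obtain ⟨p', q', u', e'⟩ := lau_mem h0 h.1 k
  obtain ⟨k0, ko⟩ := unit_of_rd r
  refine ⟨p * q', q * p', u.mul ⟨e' ▸ mul_ne_zero k0 u'.1, ?_⟩, ?_⟩
  · rw [← e', Pl.ord_mul _ k0 u'.1, ko, u'.2, add_zero]
  · rw [map_mul, map_mul, ← e, ← e']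
    field_simp

theorem aev_mem (h0 : ∀ j, y j ≠ 0) (ho : ∀ j, P.ord (y j) = 0) (p : MvPolynomial (Fin d) ℂ) :
    aeval y p ∈ P.ring := by
  induction p using MvPolynomial.induction_on with
  | C c => simpa using P.con c
  | add p q a b => rw [map_add]; exact add_mem a b
  | mul_X p j a =>
    rw [map_mul, aeval_X]
    exact mul_mem a ((Pl.ord_nonneg_iff _ (h0 j)).1 (ho j).ge)

theorem aev_ne (hr : D.Rat y) {p : MvPolynomial (Fin d) ℂ} (h : p ≠ 0) : aeval y p ≠ 0 :=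
  (map_ne_zero_iff _ hr.ind).2 h

/-- a prime polynomial which vanishes at `P` generates the centre -/
theorem dvd (hr : D.Rat y) (h : Tpr y P) {π a : MvPolynomial (Fin d) ℂ} (hπ : Prime π)
    (o : 0 < P.ord (aeval y π)) (a0 : a ≠ 0) (oa : 0 < P.ord (aeval y a)) : π ∣ a := by
  have h0 := hr.ind.ne_zero
  obtain ⟨s, hs⟩ := Int.eq_ofNat_of_zero_le o.le
  obtain ⟨r, hr'⟩ := Int.eq_ofNat_of_zero_le oa.le
  have p0 := aev_ne hr hπ.ne_zero
  have b0 := aev_ne hr a0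
  have m : aeval y a ^ s / aeval y π ^ r ∈ P.ring :=
    (Pl.ord_nonneg_iff _ (div_ne_zero (pow_ne_zero _ b0) (pow_ne_zero _ p0))).1 (by
      rw [Pl.ord_div _ (pow_ne_zero _ b0) (pow_ne_zero _ p0), Pl.ord_pow, Pl.ord_pow, hs, hr',
        mul_comm, sub_self])
  obtain ⟨p, q, u, e⟩ := mem_loc h0 h m
  have e' : a ^ s * q = π ^ r * p := hr.ind (by
    rw [map_mul, map_mul, map_pow, map_pow, ← e]
    field_simp)
  have k : π ∣ a ^ s * q := e' ▸ (dvd_pow_self π (by omega)).mul_right p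
  rcases hπ.dvd_or_dvd k with k | ⟨c, rfl⟩
  · exact hπ.dvd_of_dvd_pow k
  · have c0 : aeval y c ≠ 0 := fun z => u.1 (by rw [map_mul, z, mul_zero])
    have := u.2
    rw [map_mul, Pl.ord_mul _ p0 c0] at this
    linarith [Pl.ord_nonneg_of_mem _ (aev_mem h0 h.1 c)]

theorem exists_prime (hr : D.Rat y) (ho : ∀ j, P.ord (y j) = 0) (p : MvPolynomial (Fin d) ℂ)
    (p0 : p ≠ 0) (o : P.ord (aeval y p) = 1) :
    ∃ π : MvPolynomial (Fin d) ℂ, Prime π ∧ P.ord (aeval y π) = 1 := by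
  have h0 := hr.ind.ne_zero
  induction p using UniqueFactorizationMonoid.induction_on_prime with
  | h₁ => exact (p0 rfl).elim
  | h₂ x hx =>
    obtain ⟨c, hc⟩ := hx.exists_right_inv
    have e : aeval y x * aeval y c = 1 := by rw [← map_mul, hc, map_one]
    rw [Pl.ord_unit _ (aev_mem h0 ho x) (by
      rw [inv_eq_of_mul_eq_one_right e]; exact aev_mem h0 ho c)] at o
    exact absurd o zero_ne_one
  | h₃ a π a0 hπ ih =>
    rw [map_mul, Pl.ord_mul _ (aev_ne hr hπ.ne_zero) (aev_ne hr a0)] at o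
    have k1 := Pl.ord_nonneg_of_mem _ (aev_mem h0 ho π)
    have k2 := Pl.ord_nonneg_of_mem _ (aev_mem h0 ho a)
    by_cases k : P.ord (aeval y a) = 1
    · exact ih a0 k
    · exact ⟨π, hπ, by omega⟩

end Pri

open Pri in
/-- **PRI** -/
theorem pri : PRI := by
  intro d K _ _ y P hr h
  have h0 := hr.ind.ne_zero
  obtain ⟨t0, t1⟩ := Bm.ord_t P
  obtain ⟨p, q, u, e⟩ := mem_loc h0 h ((Pl.ord_nonneg_iff _ t0).1 (t1 ▸ zero_le_one))
  have p0 : aeval y p ≠ 0 := e ▸ mul_ne_zero t0 u.1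
  obtain ⟨π, hπ, o⟩ := exists_prime hr h.1 p (fun z => p0 (by rw [z, map_zero]))
    (by rw [← e, Pl.ord_mul _ t0 u.1, t1, u.2, add_zero])
  refine ⟨_, aev_ne hr hπ.ne_zero, o, fun P' h' ne => by_contra fun k => ne ?_⟩
  have o' := lt_of_le_of_ne (Pl.ord_nonneg_of_mem _ (aev_mem h0 h'.1 π)) (Ne.symm k)
  refine Pl.ext' (congrArg _ (Pl.eq_of_le' (v := P'.toPlace) (w := P.toPlace) fun a ha => ?_))
  obtain ⟨b, c, v, f⟩ := mem_loc h0 h' ha
  have c0 : c ≠ 0 := fun z => v.1 (by rw [z, map_zero])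
  have oc : P.ord (aeval y c) = 0 := le_antisymm (not_lt.1 fun w => by
    obtain ⟨r, rfl⟩ := dvd hr h hπ (o ▸ zero_lt_one) c0 w
    have r0 := aev_ne hr (right_ne_zero_of_mul c0)
    have := v.2
    rw [map_mul, Pl.ord_mul _ (aev_ne hr hπ.ne_zero) r0] at this
    linarith [Pl.ord_nonneg_of_mem _ (aev_mem h0 h'.1 r)])
    (Pl.ord_nonneg_of_mem _ (aev_mem h0 h.1 c))
  rw [eq_div_of_mul_eq v.1 f, div_eq_mul_inv]
  exact mul_mem (aev_mem h0 h.1 b) ((Pl.ord_eq_zero_iff _ v.1).1 oc).2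

end Vale.Agent.P283R.To
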