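import Vale.Agent.P283R.To.GlSt
import Vale.Agent.P283R.To.Pri
import Vale.Agent.P283R.To.Mop

/-!
# P283R, block TOR: monomial sections
-/

set_option linter.all false

open Set CategoryTheory AlgebraicGeometry

noncomputable section

namespace Vale.Agent.P283R.Gl

open Vale.Agent.P289 (Pt)
open Vale.Agent.P287D Vale.Agent.P283M.Stm Vale.Agent.P283M.Stm.Var Vale.Agent.P297Z
open Vale.Agent.P283M Vale.Agent.P283M.Br Vale.Agent.P283R.To Vale.Agent.P283R.Tor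
open Vale.Agent.P283R.Sch

theorem eqn {K : Type} [Field K] [Algebra ℂ K] {d : ℕ} {y : Fin d → K} (hy : D.Rat y)
    (c : Pl K → ℤ) (T : Finset (Pl K)) (hT : ∀ P ∈ T, Tpr y P) :
    ∃ G : K, G ≠ 0 ∧ ∀ P, Tpr y P → (P ∈ T → P.ord G = c P) ∧ (P ∉ T → P.ord G = 0) := by
  classical
  induction T using Finset.induction_on with
  | empty => exact ⟨1, one_ne_zero, fun P _ => ⟨fun a => (Finset.notMem_empty _ a).elim,
      fun _ => Pl.ord_one _⟩⟩
  | insert R T hR ih =>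
    obtain ⟨G, G0, hG⟩ := ih fun P a => hT P (Finset.mem_insert_of_mem a)
    obtain ⟨π, π0, π1, π2⟩ := pri _ K y R hy (hT R (Finset.mem_insert_self _ _))
    refine ⟨G * π ^ c R, mul_ne_zero G0 (zpow_ne_zero _ π0), fun P hP => ?_⟩
    rw [Pl.ord_mul _ G0 (zpow_ne_zero _ π0), Pl.ord_zpow, Finset.mem_insert]
    by_cases e : P = R
    · subst e
      exact ⟨fun _ => by rw [(hG P hP).2 hR, π1, mul_one, zero_add], fun a => (a (.inl rfl)).elim⟩
    · rw [π2 P hP e, mul_zero, add_zero]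
      exact ⟨fun a => (hG P hP).1 (a.resolve_left e), fun a => (hG P hP).2 fun b => a (.inr b)⟩

variable {X : Var} {d k : ℕ} {W U : X.X.Opens} {y : Fin d → X.K} {t : Finset X.K} {a s g : X.K}
  {x : Pt X.X} {E : X.PrimeDiv} {S : Set (Fin d → ℤ)}

/-- the place of a prime divisor -/
def pq (E : X.PrimeDiv) : Pl X.K := (pl_of plc E).choose

theorem pq_is (E : X.PrimeDiv) : Is (RingEquiv.refl X.K) E (pq E) := (pl_of plc E).choose_spec.1

theorem pq_ord (E : X.PrimeDiv) (g : X.K) : ord g E = (pq E).ord g := (pl_of plc E).choose_spec.2 g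

theorem TorY.rat (h : TorY W y) (hx : x ∈ W) : D.Rat y := by
  obtain ⟨U, -, hU, xU, S, -, eS⟩ := h.2 x hx
  refine ⟨h.1, fun a => ?_⟩
  have g0 : genericPoint X.X ∈ U := (genericPoint_specializes x).mem_open U.isOpen xU
  obtain ⟨b, h1, h2, h3⟩ := Am.frac hU g0 (P270L.S.mem_loc_gen a)
  rw [← mul_div_cancel_left₀ a h2.1]
  exact div_mem (span_adj ((eS _).1 (Am.mem_reg.1 h3))) (span_adj ((eS _).1 (Am.mem_reg.1 h1)))

theorem chp (hU : IsAffineOpen U) (hE : E.1 ∈ U) (hS : AddSubgroup.closure S = ⊤)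
    (eS : ∀ g, (∀ x' ∈ U, RegAt g x') ↔ g ∈ Submodule.span ℂ (mon y '' S)) : Chp y S (pq E) := by
  have e := pq_is E
  refine ⟨hS, fun m hm => (e _).2 ((eS _).2 (Submodule.subset_span ⟨m, hm, rfl⟩) _ hE),
    fun a ha => ?_⟩
  obtain ⟨b, h1, h2, h3⟩ := Am.frac (f := a) hU hE ((e a).1 ha)
  obtain ⟨g, g1, g2⟩ := lau_of ((eS _).1 (Am.mem_reg.1 h3))
  obtain ⟨h, k1, k2⟩ := lau_of ((eS _).1 (Am.mem_reg.1 h1))
  exact ⟨g, h, g1, k1, k2 ▸ e.dom.rd h2, by rw [g2, k2, mul_div_cancel_left₀ a h2.1]⟩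

theorem TorY.tpr (h : TorY W y) (hE : E.1 ∈ W) (h0 : ∀ i, (pq E).ord (y i) = 0) :
    Tpr y (pq E) :=
  let ⟨_, _, hU, xU, _, hS, eS⟩ := h.2 _ hE
  ⟨h0, fun a ha => let ⟨g, k, _, _, e⟩ := (chp hU xU hS eS).frac a ha; ⟨g, k, e⟩⟩

theorem TorY.ray (h : TorY W y) (hE : E.1 ∈ W) (h0 : ¬ ∀ i, (pq E).ord (y i) = 0)
    {g : (Fin d → ℤ) →₀ ℂ} {m : Fin d → ℤ} (hm : m ∈ g.support) :
    (pq E).ord (lau y g) ≤ (pq E).ord (mon y m) :=
  let ⟨_, _, hU, xU, S, hS, eS⟩ := h.2 _ hE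
  mop _ _ y S _ (h.rat hE) (chp hU xU hS eS) (not_forall.1 h0) g m hm

theorem ord_add_smul {K : Type} [Field K] [Algebra ℂ K] {y : Fin d → K} (y0 : ∀ i, y i ≠ 0)
    (P : Pl K) (m m' : Fin d → ℤ) (c : ℤ) :
    P.ord (mon y (m + c • m')) = P.ord (mon y m) + c * P.ord (mon y m') := by
  simp only [ord_mon _ y0, Pi.add_apply, Pi.smul_apply, smul_eq_mul, add_mul,
    Finset.sum_add_distrib, Finset.mul_sum, mul_assoc]

theorem TorY.lau (h : TorY W y) (hx : x ∈ W) (s0 : s ≠ 0)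
    (hs : ∀ E : X.PrimeDiv, E.1 ∈ W → (∀ i, (pq E).ord (y i) = 0) → 0 ≤ (pq E).ord s) :
    ∃ g, s = To.lau y g := by
  classical
  have y0 := h.1.ne_zero
  obtain ⟨U, UV, hU, xU, S, hS, eS⟩ := h.2 x hx
  have rg : ∀ m ∈ S, ∀ E : X.PrimeDiv, E.1 ∈ U → 0 ≤ (pq E).ord (mon y m) := fun m hm E c =>
    Pl.ord_nonneg_of_mem _ ((chp hU c hS eS).mem m hm)
  have k : ∀ T : Finset X.PrimeDiv, ∃ m, (∀ E : X.PrimeDiv, E.1 ∈ U → 0 ≤ (pq E).ord (mon y m)) ∧
      ∀ E ∈ T, E.1 ∈ U → 0 ≤ (pq E).ord s + (pq E).ord (mon y m) := fun T => by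
    induction T using Finset.induction_on with
    | empty => exact ⟨0, fun E _ => by simp [ord_mon _ y0], fun _ a => (Finset.notMem_empty _ a).elim⟩
    | insert E T _ ih =>
      obtain ⟨m, m1, m2⟩ := ih
      by_cases c : E.1 ∈ U ∧ (pq E).ord s < 0
      · obtain ⟨m', a, b⟩ := exists_pos y0 hS (fun m hm => rg m hm E c.1) fun h0 => c.2.not_ge
          (hs E (UV c.1) h0)
        have w0 : 0 ≤ -(pq E).ord s := by omega
        refine ⟨m + (-(pq E).ord s) • m', fun E' c' => ?_, fun E' hE' c' => ?_⟩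
        · rw [ord_add_smul y0]
          exact add_nonneg (m1 E' c') (mul_nonneg w0 (rg m' a E' c'))
        · rw [ord_add_smul y0]
          rcases Finset.mem_insert.1 hE' with rfl | hE'
          · nlinarith [m1 E' c']
          · linarith [m2 E' hE' c', mul_nonneg w0 (rg m' a E' c')]
      · refine ⟨m, m1, fun E' hE' c' => ?_⟩
        rcases Finset.mem_insert.1 hE' with rfl | hE'
        · exact add_nonneg (not_lt.1 fun a => c ⟨c', a⟩) (m1 E' c')
        · exact m2 E' hE' c'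
  obtain ⟨m, m1, m2⟩ := k (fin X s).toFinset
  have r : ∀ x ∈ U, RegAt (s * mon y m) x := fun x hx => har X _ x fun E hE => by
    have c : E.1 ∈ U := hE.mem_open U.isOpen hx
    rw [pq_ord, Pl.ord_mul _ s0 (mon_ne y0 _)]
    by_cases b : ord s E = 0
    · rw [← pq_ord, b, zero_add]
      exact m1 E c
    · exact m2 E ((fin X s).mem_toFinset.2 b) c
  obtain ⟨g, -, hg⟩ := lau_of (span_mul y0 ((eS _).1 r) (-m))
  refine ⟨g, ?_⟩
  rw [hg, mul_assoc, ← mon_add y0, add_neg_cancel]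
  simp [mon]

/-- the order of a section -/
def od (t : Finset X.K) (k : ℕ) (a : X.K) (E : X.PrimeDiv) : ℤ :=
  (pq E).ord a + k * (pq E).mz t

theorem od_eq (h : GenAt t g x) (hE : E.1 ⤳ x) (a0 : a ≠ 0) : ord (a / g ^ k) E = od t k a E := by
  have h' : GenAt t g E.1 := ⟨h.1, h.2.1, fun b hb => reg_gen hE (h.2.2 b hb)⟩
  have e := h'.mx (pq_is E).dom
  rw [mx_apply, ← Int.cast_neg, Int.cast_inj] at e
  rw [pq_ord, Pl.ord_div _ a0 (pow_ne_zero _ h.2.1), Pl.ord_pow, od, e]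
  ring

theorem sct_of (a0 : a ≠ 0) (h : ∀ E : X.PrimeDiv, E.1 ∈ W → 0 ≤ od t k a E) : Sct t k a W :=
  fun x hx g hg => har X _ x fun E hE => by
    rw [od_eq hg hE a0]
    exact h E (hE.mem_open W.isOpen hx)

theorem Sct.od (h : Sct t k a W) (b : Bpf t W) (a0 : a ≠ 0) (hE : E.1 ∈ W) : 0 ≤ od t k a E := by
  obtain ⟨g, hg⟩ := b _ hE
  rw [← od_eq hg specializes_rfl a0, pq_ord]
  exact Pl.ord_nonneg_of_mem _ ((pq_is E _).2 (h _ hE g hg))

theorem nv_of (a0 : a ≠ 0) (h : ∀ E : X.PrimeDiv, E.1 ⤳ x → od t k a E = 0) : Nv t k a x :=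
  fun g hg => ⟨div_ne_zero a0 (pow_ne_zero _ hg.2.1),
    har X _ x fun E hE => by rw [od_eq hg hE a0, h E hE],
    har X _ x fun E hE => by rw [pq_ord, Pl.ord_inv, ← pq_ord, od_eq hg hE a0, h E hE, neg_zero]⟩

theorem UnAt.gen {x' : Pt X.X} (h : UnAt a x) (e : x' ⤳ x) : UnAt a x' :=
  ⟨h.1, reg_gen e h.2.1, reg_gen e h.2.2⟩

theorem Nv.od (h : Nv t k a x) (hg : GenAt t g x) (hE : E.1 ⤳ x) : a ≠ 0 ∧ od t k a E = 0 := by
  have a0 : a ≠ 0 := (div_ne_zero_iff.1 (h g hg).1).1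
  refine ⟨a0, ?_⟩
  rw [← od_eq hg hE a0, pq_ord]
  exact (pq_is E).dom.ord (UnAt.gen (h g hg) hE)

theorem fin_mz (b : Bpf t W) : {E : X.PrimeDiv | E.1 ∈ W ∧ (pq E).mz t ≠ 0}.Finite := by
  refine (t.finite_toSet.biUnion fun g _ => fin X g).subset fun E hE => ?_
  obtain ⟨g, hg⟩ := b _ hE.1
  have e := hg.mx (pq_is E).dom
  rw [mx_apply, ← Int.cast_neg, Int.cast_inj] at e
  exact mem_biUnion hg.1 fun c => hE.2 (by rw [e, ← pq_ord, c, neg_zero])

theorem reg_smul (c : ℂ) (h : RegAt a x) : RegAt (c • a) x := by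
  rw [Algebra.smul_def]
  exact reg_mul (reg_const c x) h

/-- a unit has a monomial which is a unit -/
theorem exists_un {G : (Fin d → ℤ) →₀ ℂ} (h : ∀ m ∈ G.support, RegAt (a * mon y m) x)
    (u : UnAt (a * lau y G) x) : ∃ m ∈ G.support, UnAt (a * mon y m) x := by
  have e : a * lau y G = ∑ m ∈ G.support, G m • (a * mon y m) := by
    simp only [lau, Finsupp.sum, Finset.mul_sum, mul_smul_comm]
  obtain ⟨m, hm, v⟩ := P270L.S.exists_un_of_sum (p := x) G.support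
    (f := fun m => G m • (a * mon y m)) (fun m => by
      by_cases hm : m ∈ G.support
      · exact reg_smul _ (h m hm)
      · rw [Finsupp.notMem_support_iff.1 hm, zero_smul]
        exact zero_mem _) (e ▸ u)
  refine ⟨m, hm, ?_⟩
  have w : P270L.S.Un x (a * mon y m * algebraMap ℂ X.K (G m)) := by
    rw [mul_comm, ← Algebra.smul_def]
    exact v
  exact P270L.S.un_of_mul (h m hm) (reg_const _ x) w

/-- the complement of finitely many prime divisors outside the torus is toric -/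
theorem TorY.sub (h : TorY W y) {B : Set X.PrimeDiv} (hB : B.Finite)
    (h0 : ∀ E ∈ B, ¬ ∀ i, (pq E).ord (y i) = 0) {W' : X.X.Opens}
    (e : ∀ x, x ∈ W' ↔ x ∈ W ∧ ∀ E ∈ B, ¬ E.1 ⤳ x) : TorY W' y := by
  classical
  have y0 := h.1.ne_zero
  refine ⟨h.1, fun x hx => ?_⟩
  obtain ⟨xW, xB⟩ := (e x).1 hx
  obtain ⟨U, UW, hU, xU, S, hS, eS⟩ := h.2 x xW
  have k : ∀ T : Finset X.PrimeDiv, (∀ E ∈ T, E ∈ B) → ∃ m, (∀ x' ∈ U, RegAt (mon y m) x') ∧
      UnAt (mon y m) x ∧ ∀ E ∈ T, E.1 ∈ U → ¬ UnAt (mon y m) E.1 := fun T hT => by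
    induction T using Finset.induction_on with
    | empty =>
      have : mon y 0 = 1 := by simp [mon]
      exact ⟨0, fun _ _ => this ▸ reg_one, this ▸ unAt_one, fun _ a => (Finset.notMem_empty _ a).elim⟩
    | insert E T _ ih =>
      obtain ⟨m, m1, m2, m3⟩ := ih fun E a => hT E (Finset.mem_insert_of_mem a)
      by_cases c : E.1 ∈ U
      swap
      · exact ⟨m, m1, m2, fun E' a b => by
          rcases Finset.mem_insert.1 a with rfl | a
          exacts [(c b).elim, m3 E' a b]⟩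
      have EB := hT E (Finset.mem_insert_self _ _)
      obtain ⟨b, b1, b2⟩ := not_forall₂.1 fun q => xB E EB (Am.spec_of_un hU xU c q)
      obtain ⟨b2, b3⟩ := Classical.not_imp.1 b2
      obtain ⟨G, G1, rfl⟩ := lau_of ((eS b).1 (Am.mem_reg.1 b1))
      have rg : ∀ m ∈ G.support, ∀ x' ∈ U, RegAt (mon y m) x' := fun m a =>
        (eS _).2 (Submodule.subset_span ⟨m, G1 a, rfl⟩)
      obtain ⟨m', a, v⟩ := exists_un (a := 1) (x := x) (G := G)
        (fun m a => by rw [one_mul]; exact rg m a x xU) (by rw [one_mul]; exact b2)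
      rw [one_mul] at v
      have nu : ¬ UnAt (mon y m') E.1 := fun q => b3 (by
        have q1 := (pq_is E).dom.ord q
        have q2 := h.ray (UW c) (h0 E EB) a
        have q3 := Am.mem_reg.1 b1 _ c
        have q4 := Pl.ord_nonneg_of_mem _ ((pq_is E _).2 q3)
        exact ⟨b2.1, q3, (pq_is E _).1 ((Pl.ord_nonneg_iff _ (inv_ne_zero b2.1)).1
          (by rw [Pl.ord_inv]; omega))⟩)
      refine ⟨m + m', fun x' a' => ?_, ?_, fun E' a' b' q => ?_⟩ <;> rw [mon_add y0] at *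
      · exact reg_mul (m1 x' a') (rg m' a x' a')
      · exact m2.mul v
      · rcases Finset.mem_insert.1 a' with rfl | a'
        · exact nu (P270L.S.un_of_mul (rg m' a _ b') (m1 _ b') (mul_comm (mon y m) _ ▸ q))
        · exact m3 E' a' b' (P270L.S.un_of_mul (m1 _ b') (rg m' a _ b') q)
  obtain ⟨m, m1, m2, m3⟩ := k hB.toFinset fun E a => hB.mem_toFinset.1 a
  have : Nonempty U := ⟨⟨x, xU⟩⟩
  obtain ⟨b, hb⟩ := Am.reg_iff.1 (Am.mem_reg.2 m1)
  have ub : ∀ p, p ∈ X.X.basicOpen b ↔ p ∈ U ∧ UnAt (mon y m) p := fun p =>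
    ⟨fun a => ⟨X.X.basicOpen_le b a, hb ▸ (Am.un_secK b (X.X.basicOpen_le b a)).2 a⟩,
      fun a => (Am.un_secK b a.1).1 (hb ▸ a.2)⟩
  refine ⟨X.X.basicOpen b, fun p hp => (e p).2 ⟨UW ((ub p).1 hp).1, fun E EB q => ?_⟩,
    hU.basicOpen b, (ub x).2 ⟨xU, m2⟩, {m' | ∀ p ∈ X.X.basicOpen b, RegAt (mon y m') p},
    eq_top_iff.2 (hS ▸ AddSubgroup.closure_mono fun m' a p hp =>
      (eS _).2 (Submodule.subset_span ⟨m', a, rfl⟩) p ((ub p).1 hp).1), fun c => ⟨fun hc => ?_, ?_⟩⟩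
  · exact m3 E (hB.mem_toFinset.2 EB) (q.mem_open U.isOpen ((ub p).1 hp).1)
      (UnAt.gen ((ub p).1 hp).2 q)
  · obtain ⟨N, hN⟩ := Am.ext_sec (W := U) (D := 0) (E := 0) (f := c) Am.fs_zero m2.1
      (fun p hp => (Am.sc_zero (Am.nrm X)).2 (m1 p hp)) fun p hp q =>
        (Am.sc_zero (Am.nrm X)).2 (hc p ((ub p).2 ⟨hp, (Am.gn_zero (Am.nrm X)).1 q⟩))
    obtain ⟨G, G1, G2⟩ := lau_of ((eS (c * mon y m ^ N)).1 fun p hp =>
      (Am.sc_zero (Am.nrm X)).1 (by simpa using hN N le_rfl p hp))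
    have e1 : (mon y m)⁻¹ ^ N = mon y (-((N : ℤ) • m)) := by
      rw [mon, mon, ← Finset.prod_inv_distrib, ← Finset.prod_pow]
      refine Finset.prod_congr rfl fun i _ => ?_
      rw [← zpow_neg, ← zpow_natCast, ← zpow_mul, Pi.neg_apply, Pi.smul_apply, smul_eq_mul, neg_mul,
        mul_comm]
    have e2 : c = ∑ l ∈ G.support, G l • mon y (l + -((N : ℤ) • m)) := by
      simp only [mon_add y0, ← e1, ← smul_mul_assoc, ← Finset.sum_mul]
      rw [show ∑ l ∈ G.support, G l • mon y l = c * mon y m ^ N from G2, mul_assoc, ← mul_pow,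
        mul_inv_cancel₀ m2.1, one_pow, mul_one]
    rw [e2]
    refine Submodule.sum_mem _ fun l hl => Submodule.smul_mem _ _
      (Submodule.subset_span ⟨_, fun p hp => ?_, rfl⟩)
    rw [mon_add y0, ← e1]
    exact reg_mul ((eS _).2 (Submodule.subset_span ⟨l, G1 hl, rfl⟩) p ((ub p).1 hp).1)
      (reg_pow ((ub p).1 hp).2.2.2 N)
  · intro hc p hp
    refine (Submodule.span_le (p := (la p).toSubmodule)).2 ?_ hc
    rintro _ ⟨l, hl, rfl⟩
    exact hl p hp

/-- **MSE** -/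
theorem mse : MSE := by
  classical
  intro X d W y t k a x h b ha hx hv
  have y0 := h.1.ne_zero
  obtain ⟨g₀, hg₀⟩ := b x hx
  have a0 : a ≠ 0 := (div_ne_zero_iff.1 (hv g₀ hg₀).1).1
  have fT : (pq '' {E : X.PrimeDiv | (E.1 ∈ W ∧ (pq E).mz t ≠ 0) ∧
      ∀ i, (pq E).ord (y i) = 0}).Finite := ((fin_mz b).subset fun _ a => a.1).image _
  obtain ⟨H, H0, hH⟩ := eqn (h.rat hx) (fun P => -(k * P.mz t)) fT.toFinset fun P hP => by
    obtain ⟨E, a, rfl⟩ := fT.mem_toFinset.1 hP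
    exact h.tpr a.1.1 a.2
  have oH : ∀ E : X.PrimeDiv, E.1 ∈ W → (∀ i, (pq E).ord (y i) = 0) → od t k H E = 0 :=
    fun E c z => by
      by_cases q : (pq E).mz t = 0
      · by_cases r : pq E ∈ fT.toFinset
        · rw [od, (hH _ (h.tpr c z)).1 r, neg_add_cancel]
        · rw [od, (hH _ (h.tpr c z)).2 r, q, mul_zero, add_zero]
      · rw [od, (hH _ (h.tpr c z)).1 (fT.mem_toFinset.2 ⟨E, ⟨⟨c, q⟩, z⟩, rfl⟩), neg_add_cancel]
  obtain ⟨G, hG⟩ := h.lau hx (div_ne_zero a0 H0) fun E c z => by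
    have h1 := ha.od b a0 c
    have h2 := oH E c z
    rw [Pl.ord_div _ a0 H0]
    rw [od] at h1 h2
    omega
  have om : ∀ (E : X.PrimeDiv) m, od t k (H * mon y m) E = od t k H E + (pq E).ord (mon y m) :=
    fun E m => by rw [od, od, Pl.ord_mul _ H0 (mon_ne y0 _)]; ring
  have oz : ∀ (E : X.PrimeDiv) m, E.1 ∈ W → (∀ i, (pq E).ord (y i) = 0) →
      od t k (H * mon y m) E = 0 := fun E m c z => by
    rw [om, oH E c z, ord_mon _ y0]
    simp [z]
  have sm : ∀ m ∈ G.support, Sct t k (H * mon y m) W := fun m hm =>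
    sct_of (mul_ne_zero H0 (mon_ne y0 _)) fun E c => by
      by_cases z : ∀ i, (pq E).ord (y i) = 0
      · exact (oz E m c z).ge
      · have h1 := ha.od b a0 c
        have h2 := h.ray c z hm
        rw [← hG, Pl.ord_div _ a0 H0] at h2
        rw [om]
        rw [od] at h1 ⊢
        omega
  have e0 : ∀ c, H / g₀ ^ k * c = H * c / g₀ ^ k := fun c => by ring
  obtain ⟨m, hm, v⟩ := exists_un (a := H / g₀ ^ k) (x := x) (G := G)
    (fun m hm => by rw [e0]; exact sm m hm x hx g₀ hg₀)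
    (by rw [e0, ← hG, mul_div_cancel₀ _ H0]; exact hv g₀ hg₀)
  rw [e0] at v
  have s0 := mul_ne_zero H0 (mon_ne y0 m)
  refine ⟨H * mon y m, sm m hm, nv_of s0 fun E hE => ?_,
    ⟨G.mapDomain (· - m), ?_, ?_⟩, fun W' e => ?_⟩
  · rw [← od_eq hg₀ hE s0, pq_ord]
    exact (pq_is E).dom.ord (UnAt.gen v hE)
  · have := Finsupp.mapDomain_apply (f := (· - m)) sub_left_injective G m
    rw [sub_self] at this
    rw [this]
    exact Finsupp.mem_support_iff.1 hm
  · rw [← div_div, hG, lau, lau, Finsupp.sum_mapDomain_index_inj sub_left_injective,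
      div_eq_mul_inv, Finsupp.sum_mul]
    refine Finsupp.sum_congr fun l _ => ?_
    rw [smul_mul_assoc, eq_comm, ← mul_inv_cancel_right₀ (mon_ne y0 m) (mon y (l - m)),
      ← mon_add y0, sub_add_cancel]
  · refine h.sub (B := {E | E.1 ∈ W ∧ od t k (H * mon y m) E ≠ 0})
      (((fin X (H * mon y m)).union (fin_mz b)).subset fun E c => ?_)
      (fun E c z => c.2 (oz E m c.1 z)) fun x' => (e x').trans (and_congr_right fun c =>
        ⟨fun q E r w => ?_, fun q => nv_of s0 fun E w => ?_⟩)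
    · by_contra q
      rw [mem_union, not_or, mem_setOf, mem_setOf, not_not, not_and, not_not] at q
      exact c.2 (by rw [od, ← pq_ord, q.1, q.2 c.1, mul_zero, add_zero])
    · obtain ⟨g, hg⟩ := b x' c
      exact r.2 (q.od hg w).2
    · exact by_contra fun r => q E ⟨w.mem_open W.isOpen c, r⟩ w

end Vale.Agent.P283R.Gl
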