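import Vale.Agent.P283R.To.St
import Vale.Agent.P283R.D.Main

/-!
# P283R, block TOR: the theorem on the affine space for a polynomial
-/

open Set MvPolynomial
open MvPowerSeries (truncTotal)
open Vale.Agent.P297Z

noncomputable section

namespace Vale.Agent.P283R.To

open Vale.Agent.P287D Vale.Agent.P283R.Co

variable {N : ℕ} {K K' : Type} [Field K] [Algebra ℂ K] [Field K'] [Algebra ℂ K']

theorem rat_equiv {z : Fin N → K} (h : D.Rat z) :
    ∃ e : K0 N ≃ₐ[ℂ] K, ∀ j, e (z0 N j) = z j := by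
  refine ⟨AlgEquiv.ofBijective ((IntermediateField.val _).comp h.ind.aevalEquivField.toAlgHom)
    ⟨RingHom.injective _, fun x => ?_⟩, fun j => ?_⟩
  · obtain ⟨a, e⟩ := h.ind.aevalEquivField.surjective ⟨x, h.gen x⟩
    exact ⟨a, congrArg Subtype.val e⟩
  · exact (h.ind.aevalEquivField_algebraMap_apply_coe (X j)).trans (aeval_X _ _)

theorem rat_iso {z : Fin N → K} {z' : Fin N → K'} (h : D.Rat z) (h' : D.Rat z') :
    ∃ e : K ≃ₐ[ℂ] K', ∀ j, e (z j) = z' j := by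
  obtain ⟨a, ha⟩ := rat_equiv h
  obtain ⟨b, hb⟩ := rat_equiv h'
  exact ⟨a.symm.trans b, fun j => by rw [← ha, AlgEquiv.trans_apply, a.symm_apply_apply, hb]⟩

/-- places correspond under an isomorphism -/
theorem iso_pl (hK : FF K N) (hK' : FF K' N) (e : K ≃ₐ[ℂ] K') (P : Pl K') : ∃ Q : Pl K,
    (∀ g, P.ord (e g) = Q.ord g) ∧
      ∀ y : Fin N → K, AlgebraicIndependent ℂ y → kap (fun j => e (y j)) P = kap y Q := by
  obtain ⟨Q, l⟩ : ∃ Q, Lies (e : K →+* K') P Q := by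
    let _ := (e : K →+* K').toAlgebra
    have : IsScalarTower ℂ K K' := .of_algebraMap_eq fun c => (e.commutes c).symm
    exact Pb.down hK hK' P
  have e1 : P.ord ((e : K →+* K') Q.t) = 1 := by
    have a := l.ord (e.symm P.t)
    rw [show (e : K →+* K') (e.symm P.t) = P.t from e.apply_symm_apply _, P.ord_t] at a
    exact Int.eq_one_of_mul_eq_one_right l.e_pos.le a.symm
  refine ⟨Q, fun g => (l.ord g).trans (by rw [e1, one_mul]), fun y hy => ?_⟩
  have := Cb.hur hK hK' e.commutes l hy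
  rw [e1, Int.cast_one, one_mul] at this
  exact add_right_cancel this

theorem rat_pl {z : Fin N → K} {z' : Fin N → K'} (h : D.Rat z) (h' : D.Rat z') (P : Pl K') :
    ∃ Q : Pl K, (∀ p : MvPolynomial (Fin N) ℂ, P.ord (aeval z' p) = Q.ord (aeval z p)) ∧
      (∀ j, P.ord (z' j) = Q.ord (z j)) ∧ kap z' P = kap z Q := by
  obtain ⟨e, he⟩ := rat_iso h h'
  obtain ⟨Q, a, b⟩ := iso_pl h.ff h'.ff e P
  refine ⟨Q, fun p => ?_, fun j => by rw [← he, a], by rw [← funext he, b z h.ind]⟩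
  rw [← a, ← funext he]
  exact congrArg P.ord (comp_aeval_apply z (e : K →ₐ[ℂ] K') p).symm

theorem sub_trunc (f : MvPolynomial (Fin N) ℂ) (k : ℕ) :
    f - truncTotal k (f : MvPowerSeries (Fin N) ℂ) ∈ idealOfVars (Fin N) ℂ ^ k :=
  (mem_pow_idealOfVars_iff' ..).2 fun d hd => by
    rw [coeff_sub, MvPowerSeries.coeff_truncTotal _ hd, coeff_coe, sub_self]

theorem hy_of {Q : ℕ} {ε : ℝ} (hN : 0 < N) (hε : 0 < ε) {M : AddSubgroup (Fin N → ℤ)}
    {f : MvPolynomial (Fin N) ℂ} (f0 : f ≠ 0)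
    (H : ∀ P : Pl (K0 N), (∀ j, 0 < P.ord (z0 N j)) → ∀ e : ℕ,
      (∀ p : MvPolynomial (Fin N) ℂ, p ≠ 0 → (∀ s ∈ p.support, (fun j => (s j : ℤ)) ∈ M) →
        (e : ℤ) ∣ P.ord (aeval (z0 N) p)) →
      ε * e ≤ 1 + kap (z0 N) P - (P.ord (aeval (z0 N) f) : ℝ) / Q) :
    Co.Hy Q ε M (f : MvPowerSeries (Fin N) ℂ) := by
  obtain ⟨n, rfl⟩ := Nat.exists_eq_succ_of_ne_zero hN.ne'
  intro P r e k μ E hr he l zv _
  have h : D.Rat (z0 (n + 1)) := D.rat0
  have hP : ∀ j, 0 < P.ord (z0 (n + 1) j) := fun j => by exact_mod_cast l.pos.trans_le (l.mu j)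
  have mu1 : μ ≤ D.mu (z0 (n + 1)) P := by
    obtain ⟨j, e⟩ := D.exists_mu h.ind.ne_zero P
    exact e ▸ l.mu j
  have a1 := add_mem (D.sub_pow hP (sub_trunc f k)
    (l.ek.trans (mul_le_mul_of_nonneg_left mu1 (Nat.cast_nonneg k))))
    (show aeval (z0 (n + 1)) (truncTotal k (f : MvPowerSeries (Fin (n + 1)) ℂ)) ∈ P.sub (-E) from
      l.eg.imp (fun w => by rw [w, map_zero]) fun w => by linarith)
  rw [← map_add, sub_add_cancel] at a1
  have a2 : E ≤ P.ord (aeval (z0 (n + 1)) f) := by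
    linarith [a1.resolve_left fun e => f0 (h.ind (e.trans (map_zero _).symm))]
  obtain ⟨g, r', e', g0, cp, rfl, rfl⟩ := Nat.exists_coprime' (Nat.gcd_pos_of_pos_left e hr)
  have a3 := H P hP r' fun p p0 hp => by
    have := zv 0 p p0 fun m hm => by
      simpa using hp m (mem_support_iff.2 (by rwa [coeff_coe] at hm))
    simp only [Pi.zero_apply, zero_mul, Finset.sum_const_zero, sub_zero, Nat.cast_mul] at this
    rw [mul_comm (r' : ℤ), mul_comm (e' : ℤ), mul_assoc,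
      mul_dvd_mul_iff_left (by exact_mod_cast g0.ne')] at this
    exact (Nat.isCoprime_iff_coprime.2 cp).dvd_of_dvd_mul_left this
  have a4 : E / Q ≤ (P.ord (aeval (z0 (n + 1)) f) : ℝ) / Q :=
    div_le_div_of_nonneg_right a2 (Nat.cast_nonneg Q)
  have a5 : (g : ℝ) ≤ (e' * g : ℕ) := by
    exact_mod_cast Nat.le_mul_of_pos_left g (Nat.pos_of_mul_pos_right he)
  have a6 : 0 ≤ ε * r' := by positivity
  calc ε * (r' * g : ℕ) = g * (ε * r') := by push_cast; ring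
    _ ≤ (e' * g : ℕ) * (ε * r') := mul_le_mul_of_nonneg_right a5 a6
    _ ≤ _ := mul_le_mul_of_nonneg_left (by simp only [Co.A0]; linarith) (Nat.cast_nonneg _)

theorem td_of (tt : TT) : To.TD := by
  intro N Q hN hQ ε hε
  obtain ⟨n, n0, nq, h⟩ := tt N Q ε hN hQ hε
  refine ⟨n, n0, nq, fun K _ _ z M b f hz fi f0 co H P hP => ?_⟩
  have out := h n n0 dvd_rfl M b f
    ⟨M.index, Nat.pos_of_ne_zero fi.index_ne_zero, fun j => by
      have := M.nsmul_index_mem (Pi.single j 1)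
      rwa [← Pi.single_smul, nsmul_one] at this⟩
    (fun m hm => co m (mem_support_iff.2 (by rwa [coeff_coe] at hm)))
    (hy_of hN hε f0 fun R hR e he => by
      obtain ⟨R', a1, a2, a3⟩ := rat_pl hz D.rat0 R
      rw [a1, a3]
      exact H R' (fun j => a2 j ▸ hR j) e fun p p0 hp => a1 p ▸ he p p0 hp)
  obtain ⟨C, k, ch, e⟩ := D.dd hN hQ n0 out
  obtain ⟨R, a1, a2, a3⟩ := rat_pl D.rat0 hz P
  obtain ⟨c, hc, a⟩ := e f f0 (sub_trunc f k) R fun j => a2 j ▸ hP j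
  refine ⟨c, ch c hc, ?_⟩
  simp only [a1, a2, a3]
  exact a

end Vale.Agent.P283R.To
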