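import Vale.Agent.P283R.To.GlMse
import Vale.Agent.P283R.To.Td

/-!
# P283R, block TOR: the criterion for affineness
-/

set_option linter.all false

open Set CategoryTheory AlgebraicGeometry

noncomputable section

namespace Vale.Agent.P283R.Gl

open Vale.Agent.P289 (Pt)
open Vale.Agent.P283M.Stm Vale.Agent.P283M.Stm.Var Vale.Agent.P283M Vale.Agent.P283M.Br
open Vale.Agent.P283R.To Vale.Agent.P283R.Sch

section

variable {K : Type} [Field K] [Algebra ℂ K] {d : ℕ} {y : Fin d → K}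

/-- the characters of the torus -/
def chi (m : Fin d → ℤ) : (Fin d → ℂˣ) →* ℂ where
  toFun t := ((∏ i, t i ^ m i : ℂˣ) : ℂ)
  map_one' := by simp
  map_mul' s t := by simp only [Pi.mul_apply, mul_zpow, Finset.prod_mul_distrib, Units.val_mul]

theorem chi_ne (m : Fin d → ℤ) (t : Fin d → ℂˣ) : chi m t ≠ 0 := Units.ne_zero _

theorem chi_inj : Function.Injective (chi (d := d)) := fun m m' h => funext fun i => by
  classical
  have k : ∀ m : Fin d → ℤ, chi m (Pi.mulSingle i (Units.mk0 2 two_ne_zero)) = 2 ^ m i := fun m => by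
    change ((∏ j, _ ^ m j : ℂˣ) : ℂ) = _
    rw [Finset.prod_eq_single i (fun j _ a => by rw [Pi.mulSingle_eq_of_ne a, one_zpow])
      (fun a => (a (Finset.mem_univ _)).elim), Pi.mulSingle_eq_same, Units.val_zpow_eq_zpow_val]
    rfl
  have := congrArg norm ((k m).symm.trans (h ▸ k m'))
  rw [norm_zpow, norm_zpow, Complex.norm_two] at this
  exact zpow_right_injective₀ two_pos (by norm_num) this

/-- the translations -/
theorem exists_tr (hy : D.Rat y) (t : Fin d → ℂˣ) :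
    ∃ e : K ≃ₐ[ℂ] K, ∀ m, e (mon y m) = chi m t • mon y m := by
  have h' : D.Rat fun i => (t i : ℂ) • y i := by
    refine ⟨?_, fun x => ?_⟩
    · refine algebraicIndependent_iff.2 fun p hp => ?_
      have e : MvPolynomial.aeval y (MvPolynomial.aeval (fun i => (t i : ℂ) •
          (MvPolynomial.X i : MvPolynomial (Fin d) ℂ)) p) =
          MvPolynomial.aeval (fun i => (t i : ℂ) • y i) p := by
        rw [← AlgHom.comp_apply, MvPolynomial.comp_aeval]
        simp
      have e1 := algebraicIndependent_iff.1 hy.ind _ (e.trans hp)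
      have e2 := congrArg (MvPolynomial.aeval fun i => ((t i)⁻¹ : ℂˣ).1 • (MvPolynomial.X i :
        MvPolynomial (Fin d) ℂ)) e1
      rw [← AlgHom.comp_apply, MvPolynomial.comp_aeval, map_zero] at e2
      simpa [smul_smul] using e2
    · refine IntermediateField.adjoin_le_iff.2 ?_ (hy.gen x)
      rintro _ ⟨i, rfl⟩
      have := IntermediateField.smul_mem _ (x := ((t i)⁻¹ : ℂˣ).1)
        (IntermediateField.subset_adjoin ℂ (range fun i => (t i : ℂ) • y i) (mem_range_self i))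
      simpa [smul_smul] using this
  obtain ⟨e, he⟩ := rat_iso hy h'
  refine ⟨e, fun m => ?_⟩
  change _ = ((∏ i, t i ^ m i : ℂˣ) : ℂ) • _
  simp only [mon, map_prod, map_zpow₀, he, Algebra.smul_def, mul_zpow, Finset.prod_mul_distrib,
    Units.coe_prod, Units.val_zpow_eq_zpow_val]

/-- some translate is a unit -/
theorem exists_unit {O : ValuationSubring K} (hc : ∀ c, algebraMap ℂ K c ∈ O)
    {g : (Fin d → ℤ) →₀ ℂ} (hg : ∀ m ∈ g.support, mon y m ∈ O) (g0 : g 0 ≠ 0) :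
    ∃ t, ∑ m ∈ g.support, g m • chi m t • mon y m ∉ O.nonunits := by
  classical
  by_contra h
  push Not at h
  let ρ := IsLocalRing.residue O
  let κ : ℂ →+* O := (algebraMap ℂ K).codRestrict O hc
  let v : (Fin d → ℤ) → O := fun m => if a : mon y m ∈ O then ⟨_, a⟩ else 0
  have inj : Function.Injective fun m : Fin d → ℤ => ((ρ.comp κ).toMonoidHom.comp (chi m)) :=
    fun m m' a => chi_inj (MonoidHom.ext fun t => (ρ.comp κ).injective (DFunLike.congr_fun a t))
  have li := (linearIndependent_monoidHom (Fin d → ℂˣ) (IsLocalRing.ResidueField O)).comp _ inj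
  have := linearIndependent_iff'.1 li g.support (fun m => ρ (κ (g m) * v m)) (funext fun t => by
    have e : ((∑ m ∈ g.support, κ (g m) * v m * κ (chi m t) : O) : K) =
        ∑ m ∈ g.support, g m • chi m t • mon y m := by
      rw [← O.coe_subtype, map_sum]
      refine Finset.sum_congr rfl fun m hm => ?_
      simp only [v, dif_pos (hg m hm), Algebra.smul_def, map_mul]
      change algebraMap ℂ K _ * mon y m * algebraMap ℂ K _ = _
      ring
    have a := (IsLocalRing.residue_eq_zero_iff _).2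
      (ValuationSubring.coe_mem_nonunits_iff.1 (e ▸ h t))
    rw [map_sum] at a
    rw [Finset.sum_apply]
    exact (Finset.sum_congr rfl fun m _ => (map_mul ρ _ _).symm).trans a) 0
    (Finsupp.mem_support_iff.2 g0)
  have v0 : v 0 = 1 := by
    have e : mon y 0 = 1 := by simp [mon]
    exact Subtype.ext (by simp only [v, e, dif_pos (one_mem O)]; rfl)
  rw [v0, mul_one] at this
  exact g0 ((map_eq_zero (ρ.comp κ)).1 this)

end

variable {X : Var} {d : ℕ} {W : X.X.Opens} {y : Fin d → X.K} {x : Pt X.X}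

/-- the monomials of a regular function are regular -/
theorem TorY.mon_reg (h : TorY W y) {g : (Fin d → ℤ) →₀ ℂ} (hg : ∀ x ∈ W, RegAt (To.lau y g) x)
    {m : Fin d → ℤ} (hm : m ∈ g.support) : ∀ x ∈ W, RegAt (mon y m) x := fun x hx =>
  har X _ x fun E hE => by
    have c : E.1 ∈ W := hE.mem_open W.isOpen hx
    rw [pq_ord]
    by_cases z : ∀ i, (pq E).ord (y i) = 0
    · simp [ord_mon _ h.1.ne_zero, z]
    · exact (P297Z.Pl.ord_nonneg_of_mem _ ((pq_is E _).2 (hg _ c))).trans (h.ray c z hm)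

/-- **AFF** -/
theorem aff' : AFF := by
  intro X Z f d V _ y b g hf h hb e g0 cov
  obtain ⟨x₀, hx₀⟩ := ‹Nonempty ↑(f ⁻¹ᵁ V)›
  have := hf.2.1
  have := hf.2.2.2 V
  refine isAffineOpen_of_isAffineOpen_basicOpen V {c | IsAffineOpen (Z.X.basicOpen c)} ?_
    fun _ a => a
  by_contra ne
  let φ := (Am.pl f V).rangeRestrict
  have bij : Function.Bijective φ :=
    ⟨fun _ _ a => Am.pl_inj f V (congrArg Subtype.val a), (Am.pl f V).rangeRestrict_surjective⟩
  obtain ⟨O, O1, O2⟩ := Ideal.image_subset_nonunits_valuationSubring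
    ((Ideal.span {c | IsAffineOpen (Z.X.basicOpen c)}).map φ) fun a => ne (by
      rw [← Ideal.comap_map_of_bijective φ bij (I := Ideal.span _), a, Ideal.comap_top])
  have rg : ∀ c, (∀ x ∈ f ⁻¹ᵁ V, RegAt c x) → c ∈ O := fun c hc =>
    O1 (Am.exists_pl f V (Am.mem_reg.2 hc))
  have hc : ∀ c, algebraMap ℂ X.K c ∈ O := fun c => rg _ fun x _ => reg_const c x
  have sm : ∀ (c : ℂ) a, a ∈ O → c • a ∈ O := fun c a ha => by
    rw [Algebra.smul_def]
    exact mul_mem (hc c) ha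
  have rb : ∀ x ∈ f ⁻¹ᵁ V, RegAt (lau y g) x := e ▸ Am.mem_reg.1 (Am.pl_reg f V b)
  obtain ⟨t, ht⟩ := exists_unit hc (fun m hm => rg _ (h.mon_reg rb hm)) g0
  obtain ⟨θ, hθ⟩ := exists_tr (h.rat hx₀) t
  have tl : ∀ G, θ (lau y G) = ∑ m ∈ G.support, G m • chi m t • mon y m := fun G => by
    simp only [lau, Finsupp.sum, map_sum, map_smul, hθ]
  have rg' : ∀ c, (∀ x ∈ f ⁻¹ᵁ V, RegAt c x) → θ c ∈ O := fun c hc => by
    obtain ⟨U, UV, -, -, S, -, eS⟩ := h.2 x₀ hx₀
    obtain ⟨G, -, rfl⟩ := lau_of ((eS c).1 fun x hx => hc x (UV hx))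
    rw [tl]
    exact sum_mem fun m hm => sm _ _ (sm _ _ (rg _ (h.mon_reg hc hm)))
  rw [← tl, ValuationSubring.mem_nonunits_iff_or, not_or, not_not, map_eq_zero] at ht
  have nb : Nonempty ↑(f ⁻¹ᵁ Z.X.basicOpen b) := by
    have a : genericPoint X.X ∈ f ⁻¹ᵁ V := (genericPoint_specializes x₀).mem_open (f ⁻¹ᵁ V).isOpen hx₀
    exact ⟨⟨_, (Am.un_pl a b).1
      ⟨e ▸ ht.1, P270L.S.mem_loc_gen _, P270L.S.mem_loc_gen _⟩⟩⟩
  obtain ⟨x, hx, dm⟩ := Am.exists_dom hb (O.comap (θ : X.K →+* X.K)) fun a => by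
    obtain ⟨N, hN⟩ := Am.ext_sec (W := f ⁻¹ᵁ V) (D := 0) (E := 0) (g := lau y g)
      (f := Am.pl f _ a) Am.fs_zero ht.1 (fun p hp => (Am.sc_zero (Am.nrm X)).2 (rb p hp))
      fun p hp q => (Am.sc_zero (Am.nrm X)).2 (Am.mem_reg.1 (Am.pl_reg f _ a) p
        ((Am.un_pl hp b).1 (e ▸ (Am.gn_zero (Am.nrm X)).1 q)))
    have k := mul_mem (rg' _ fun p hp => (Am.sc_zero (Am.nrm X)).1 (by simpa using hN N le_rfl p hp))
      (pow_mem ht.2 N)
    rwa [map_mul, map_pow, mul_assoc, ← mul_pow, mul_inv_cancel₀ ((map_ne_zero θ).2 ht.1), one_pow,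
      mul_one] at k
  obtain ⟨U, UV, hU, xU, S, -, eS⟩ := h.2 x (Z.X.basicOpen_le b hx)
  have : Nonempty ↑((𝟙 X.X : X.X ⟶ X.X) ⁻¹ᵁ U) := ⟨⟨x, xU⟩⟩
  obtain ⟨x', hx', dm'⟩ := Am.exists_dom (f := 𝟙 X.X) hU O fun a => by
    obtain ⟨G, G1, G2⟩ := lau_of ((eS _).1 (Am.mem_reg.1 (Am.pl_reg (𝟙 X.X) U a)))
    rw [← G2]
    refine sum_mem fun m hm => sm _ _ ?_
    have k : θ (mon y m) ∈ O :=
      dm.mem ((eS _).2 (Submodule.subset_span ⟨m, G1 hm, rfl⟩) x xU)
    have := sm (chi m t)⁻¹ _ k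
    rwa [hθ, inv_smul_smul₀ (chi_ne m t)] at this
  obtain ⟨c, c1, c2⟩ := cov (f x') (UV hx')
  have u := (Am.un_pl (f := f) (V := V) (x := x') (UV hx') c).2 c2
  rcases (ValuationSubring.mem_nonunits_iff_or _).1
    (O2 ⟨φ c, Ideal.mem_map_of_mem φ (Ideal.subset_span c1), rfl⟩) with a | a
  exacts [u.1 a, a (dm'.mem u.2.2)]

end Vale.Agent.P283R.Gl
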