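import Vale.Agent.P283R.To.Sch

/-!
# P283R, block TOR: an invariant affine neighbourhood in the base of a contraction, the rows
-/

open Set CategoryTheory AlgebraicGeometry

noncomputable section

namespace Vale.Agent.P283R.Gl

open Vale.Agent.P289 (Pt)
open Vale.Agent.P283M.Stm Vale.Agent.P283M.Stm.Var Vale.Agent.P283M Vale.Agent.P283M.Br
open Vale.Agent.P283R.To Vale.Agent.P283R.Tor

variable {X : Var}

/-- `a` is a section over `W` of the `k`-th power of the system `t` -/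
def Sct (t : Finset X.K) (k : ℕ) (a : X.K) (W : X.X.Opens) : Prop :=
  ∀ x ∈ W, ∀ g, GenAt t g x → RegAt (a / g ^ k) x

/-- the section `a` does not vanish at `x` -/
def Nv (t : Finset X.K) (k : ℕ) (a : X.K) (x : Pt X.X) : Prop :=
  ∀ g, GenAt t g x → UnAt (a / g ^ k) x

/-- `W` is toric, the coordinates of the torus are `y` -/
def TorY {d : ℕ} (W : X.X.Opens) (y : Fin d → X.K) : Prop :=
  AlgebraicIndependent ℂ y ∧ ∀ x ∈ W, ∃ U ≤ W, IsAffineOpen U ∧ x ∈ U ∧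
    ∃ S : Set (Fin d → ℤ), AddSubgroup.closure S = ⊤ ∧
      ∀ g, (∀ x' ∈ U, RegAt g x') ↔ g ∈ Submodule.span ℂ (mon y '' S)

theorem toric_iff {d : ℕ} {W : X.X.Opens} : Toric W d ↔ ∃ y : Fin d → X.K, TorY W y :=
  ⟨fun ⟨y, h, k⟩ => ⟨y, h, fun x hx =>
      let ⟨U, a, b, c, S, e, l⟩ := k x hx; ⟨U, a, b, c, S, e, fun g => Set.ext_iff.1 l g⟩⟩,
    fun ⟨y, h, k⟩ => ⟨y, h, fun x hx =>
      let ⟨U, a, b, c, S, e, l⟩ := k x hx; ⟨U, a, b, c, S, e, Set.ext l⟩⟩⟩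

/-- **AMZ**: an ample system on a quasi-projective variety -/
def AMZ : Prop := ∀ Z : Var, ∃ t : Finset Z.K, Bpf t ⊤ ∧ ∀ (W : Z.X.Opens), ∀ z ∈ W,
  ∃ (k : ℕ) (a : Z.K) (U : Z.X.Opens), 0 < k ∧ IsAffineOpen U ∧ z ∈ U ∧ U ≤ W ∧ Sct t k a ⊤ ∧
    ∀ p, p ∈ U ↔ Nv t k a p

/-- **PUL**: the pull back of the rational functions -/
def PUL : Prop := ∀ (X Z : Var) (f : X.X ⟶ Z.X), Contraction f → ∃ p : Z.K →+* X.K,
  (∀ (x : Pt X.X) a, RegAt a (x.map f) → RegAt (p a) x ∧ (UnAt (p a) x → UnAt a (x.map f))) ∧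
  ∀ (V : Z.X.Opens) [Nonempty V] [Nonempty ↑(f ⁻¹ᵁ V)] (b : Γ(Z.X, V)),
    p (P289.H594.secK V b) = Am.pl f V b

/-- **MSE**: monomial sections -/
def MSE : Prop := ∀ (X : Var) (d : ℕ) (W : X.X.Opens) (y : Fin d → X.K) (t : Finset X.K) (k : ℕ)
  (a : X.K) (x : Pt X.X), TorY W y → Bpf t W → Sct t k a W → x ∈ W → Nv t k a x →
    ∃ s : X.K, Sct t k s W ∧ Nv t k s x ∧ (∃ g : (Fin d → ℤ) →₀ ℂ, g 0 ≠ 0 ∧ a / s = lau y g) ∧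
      ∀ W' : X.X.Opens, (∀ x', x' ∈ W' ↔ x' ∈ W ∧ Nv t k s x') → TorY W' y

/-- **AFF**: the criterion for affineness -/
def AFF : Prop := ∀ (X Z : Var) (f : X.X ⟶ Z.X) (d : ℕ) (V : Z.X.Opens) [Nonempty ↑(f ⁻¹ᵁ V)]
  (y : Fin d → X.K) (b : Γ(Z.X, V)) (g : (Fin d → ℤ) →₀ ℂ), Contraction f → TorY (f ⁻¹ᵁ V) y →
    IsAffineOpen (Z.X.basicOpen b) → Am.pl f V b = lau y g → g 0 ≠ 0 →
    (∀ z ∈ V, ∃ c : Γ(Z.X, V), IsAffineOpen (Z.X.basicOpen c) ∧ z ∈ Z.X.basicOpen c) →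
    IsAffineOpen V

/-- **SUM**: the invariant affine neighbourhood -/
def SUM : Prop := ∀ (X Z : Var) (f : X.X ⟶ Z.X) (d : ℕ) (W : Z.X.Opens) (z : Pt Z.X),
  Contraction f → z ∈ W → Toric (f ⁻¹ᵁ W) d → ∃ V, IsAffineOpen V ∧ z ∈ V ∧ Toric (f ⁻¹ᵁ V) d

end Vale.Agent.P283R.Gl
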