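import Mathlib.AlgebraicGeometry.QuasiAffine
import Vale.Agent.P283R.To.GlSt

/-!
# P283R, block TOR: an ample system on a quasi-projective variety
-/

set_option linter.all false

open Set CategoryTheory AlgebraicGeometry TopologicalSpace
open Vale.Agent.P289 Vale.Agent.P289.H219 Vale.Agent.P270L Vale.Agent.P270L.S Vale.Agent.P299.G

noncomputable section

namespace Vale.Agent.P283R.Gl

open Vale.Agent.P283M Vale.Agent.P283M.Br Vale.Agent.P283M.Am Vale.Agent.P283M.Stm.Var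

namespace Amz

/-- the standard charts -/
structure At {X : Stm.Var} {ι : Type} (x : ι → X.K) (U : ι → X.X.Opens) : Prop where
  ne : ∀ j, x j ≠ 0
  cov : ∀ p : Pt X.X, ∃ j, p ∈ U j
  reg : ∀ j l, ∀ p ∈ U j, RegAt (x l / x j) p
  un : ∀ j l, ∀ p ∈ U j, UnAt (x l / x j) p → p ∈ U l
  qa : ∀ j (W : X.X.Opens), ∀ z ∈ U j, z ∈ W → ∃ (f : X.K) (V : X.X.Opens), IsAffineOpen V ∧
    z ∈ V ∧ V ≤ W ∧ (∀ p ∈ U j, RegAt f p) ∧ ∀ p, p ∈ V ↔ p ∈ U j ∧ UnAt f p

theorem qaf {X : Scheme.{0}} [IsIntegral X] [IsNoetherian X] (U : X.Opens)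
    [U.toScheme.IsQuasiAffine] (W : X.Opens) {z : X} (hz : z ∈ U) (hW : z ∈ W) :
    ∃ r : Γ(X, U), IsAffineOpen (X.basicOpen r) ∧ z ∈ X.basicOpen r ∧ X.basicOpen r ≤ W := by
  obtain ⟨_, ⟨r, hr, rfl⟩, a, b⟩ := Opens.isBasis_iff_nbhd.1
    (Scheme.IsQuasiAffine.isBasis_basicOpen U.toScheme) (U := U.ι ⁻¹ᵁ W) (x := ⟨z, hz⟩) hW
  have e := Scheme.Opens.ι_image_basicOpen' U r
  refine ⟨X.presheaf.map (eqToHom U.ι_image_top.symm).op r, ?_, ?_, ?_⟩ <;> rw [← e]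
  · exact hr.image_of_isOpenImmersion U.ι
  · exact ⟨_, a, rfl⟩
  · rintro _ ⟨p, c, rfl⟩
    exact b c

theorem exists_at (X : Stm.Var) :
    ∃ (ι : Type) (_ : Fintype ι) (x : ι → X.K) (U : ι → X.X.Opens), At x U := by
  classical
  obtain ⟨n, i, hi, hs⟩ := X.qproj
  let J := {j : Fin (n + 1) // genericPoint X.X ∈ H719.ch i j}
  have cov : ∀ p : X.X, ∃ j : J, p ∈ H719.ch i j.1 := fun p =>
    let ⟨j, hj⟩ := H719.exists_mem_ch i p
    ⟨⟨j, H719.gen_mem_of_nonempty _ ⟨p, hj⟩⟩, hj⟩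
  obtain ⟨j₀, -⟩ := cov (genericPoint X.X)
  let x : J → X.K := fun l => H719.kap i X.str hs j₀.1 j₀.2 l.1
  have ne : ∀ j, x j ≠ 0 := fun j => left_ne_zero_of_mul
    ((H719.kap_mul i X.str hs j₀.1 j.1 j₀.2 j.2 j₀.1).trans_ne (by
      rw [H719.kap_self]; exact one_ne_zero))
  have hx : ∀ (j l : J) p (hp : p ∈ H719.ch i j.1), x l / x j =
      toK p (X.X.presheaf.germ _ p hp
        ((H719.ch i j.1).topIso.hom.hom (H719.coord i X.str hs j.1 l.1))) := fun j l p hp => by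
    rw [toK_germ' _ j.2, ← H719.toKU_eq]
    exact (div_eq_iff (ne j)).2
      ((H719.kap_mul i X.str hs j₀.1 j.1 j₀.2 j.2 l.1).symm.trans (mul_comm _ _))
  refine ⟨J, inferInstance, x, fun j => H719.ch i j.1, ne, cov,
    fun j l p hp => ⟨_, (hx j l p hp).symm⟩, fun j l p hp u => ?_, fun j W z hz hW => ?_⟩
  · have u' : Un p (x l / x j) := u
    rw [hx j l p hp, un_toK, ← Scheme.mem_basicOpen _ _ _ hp, H719.basicOpen_coord] at u'
    exact u'.2
  · have : CompactSpace (H719.ch i j.1).toScheme :=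
      isCompact_iff_compactSpace.1 (NoetherianSpace.isCompact (H719.ch i j.1 : Set X.X))
    have : IsImmersion (H719.toSp (H719.chHom i X.str hs j.1)) := by
      rw [H719.toSp_chHom_eq]
      have h1 : IsImmersion (i ∣_ H719.DP j.1) := inferInstance
      have h2 : IsImmersion (H719.chIso ℂ j.1).hom := inferInstance
      exact @IsImmersion.comp _ _ _ (i ∣_ H719.DP j.1) (H719.chIso ℂ j.1).hom h1 h2
    have := Scheme.IsQuasiAffine.of_isImmersion (H719.toSp (H719.chHom i X.str hs j.1))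
    obtain ⟨r, a, b, c⟩ := qaf (H719.ch i j.1) W hz hW
    have : Nonempty (H719.ch i j.1) := ⟨⟨z, hz⟩⟩
    exact ⟨H594.secK _ r, _, a, b, c, mem_reg.1 (secK_reg _ r), fun p =>
      ⟨fun k => ⟨X.X.basicOpen_le r k, (un_secK r (X.X.basicOpen_le r k)).2 k⟩,
        fun k => (un_secK r k.1).1 k.2⟩⟩

theorem un_right {X : Stm.Var} {a b : X.K} {p : Pt X.X} (u : UnAt (a * b) p) (ha : RegAt a p)
    (hb : RegAt b p) : UnAt b p := ⟨right_ne_zero_of_mul u.1, hb, by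
  have := reg_mul ha u.2.2
  rwa [mul_inv, mul_inv_cancel_left₀ (left_ne_zero_of_mul u.1)] at this⟩

theorem un_pow {X : Stm.Var} {a : X.K} {p : Pt X.X} (u : UnAt a p) (k : ℕ) : UnAt (a ^ k) p :=
  ⟨pow_ne_zero _ u.1, reg_pow u.2.1 k, by rw [← inv_pow]; exact reg_pow u.2.2 k⟩

end Amz

open Amz in
/-- **AMZ** -/
theorem amz : AMZ := by
  classical
  intro X
  obtain ⟨ι, _, x, U, h⟩ := exists_at X
  have mem : ∀ j, x j ∈ Finset.univ.image x := fun j => Finset.mem_image_of_mem x (Finset.mem_univ j)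
  have gen : ∀ j, ∀ p ∈ U j, GenAt (Finset.univ.image x) (x j) p := fun j p hp =>
    ⟨mem j, h.ne j, fun g hg => by
      obtain ⟨l, -, rfl⟩ := Finset.mem_image.1 hg
      exact h.reg j l p hp⟩
  have bp : Bpf (Finset.univ.image x) ⊤ := fun p _ => let ⟨j, c⟩ := h.cov p; ⟨_, gen j p c⟩
  refine ⟨_, bp, fun W z hW => ?_⟩
  obtain ⟨D, hD⟩ := exists_sys bp
  obtain ⟨j, hj⟩ := h.cov z
  obtain ⟨f, V, a, b, c, r, e⟩ := h.qa j W z hj hW
  obtain ⟨N, hN⟩ := ext_sec (W := ⊤) (D := D) (f := f) fs_zero (h.ne j) (hD.sec _ (mem j))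
    fun p _ k => (sc_zero (nrm X)).2 (r p (by
      obtain ⟨l, hl⟩ := h.cov p
      exact h.un l j p hl ((gen l p hl).un (genAt_of hD trivial (mem j) k))))
  have sc : ∀ n, N ≤ n → Sct (Finset.univ.image x) n (f * x j ^ n) ⊤ := fun n hn p _ g hg =>
    div_loc (nrm X) ((hg.gn hD trivial).pow n) (by simpa using hN n hn p trivial)
  refine ⟨N + 1, f * x j ^ (N + 1), V, N.succ_pos, a, b, c, sc _ N.le_succ, fun p =>
    (e p).trans ⟨fun k g hg => ?_, fun k => ?_⟩⟩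
  · rw [mul_div_assoc, ← div_pow]
    exact k.2.mul (un_pow (hg.un (gen j p k.1)) _)
  · obtain ⟨l, hl⟩ := h.cov p
    have u := k _ (gen l p hl)
    rw [pow_succ, pow_succ, ← mul_assoc, mul_div_mul_comm] at u
    have pj := h.un l j p hl (un_right u (sc N le_rfl p trivial _ (gen l p hl)) (h.reg l j p hl))
    have v := k _ (gen j p pj)
    rw [mul_div_cancel_right₀ _ (pow_ne_zero _ (h.ne j))] at v
    exact ⟨pj, v⟩

end Vale.Agent.P283R.Gl
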