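import Vale.Agent.P283R.To.GlSt

/-!
# P283R, block TOR: the pull back of the rational functions along a contraction
-/

set_option linter.all false

open Set CategoryTheory AlgebraicGeometry

noncomputable section

namespace Vale.Agent.P283R.Gl

open Vale.Agent.P289 (Pt)
open Vale.Agent.P283M.Stm Vale.Agent.P283M.Stm.Var Vale.Agent.P283M Vale.Agent.P283M.Br

/-- **PUL** -/
theorem pul' : PUL := by
  intro X Z f hf
  have h : f (genericPoint X.X) ⤳ genericPoint Z.X := by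
    obtain ⟨x, hx⟩ := hf.2.2.1.surj (genericPoint Z.X)
    exact hx ▸ (genericPoint_specializes x).map f.continuous
  let p : Z.K →+* X.K := (Z.X.presheaf.stalkSpecializes h ≫ f.stalkMap (genericPoint X.X)).hom
  have p2 : ∀ (V : Z.X.Opens) [Nonempty V] [Nonempty ↑(f ⁻¹ᵁ V)] (b : Γ(Z.X, V)),
      p (P289.H594.secK V b) = Am.pl f V b := fun V _ _ b => by
    change f.stalkMap _ (Z.X.presheaf.stalkSpecializes h (Z.X.presheaf.germ V _ _ b)) = _
    rw [TopCat.Presheaf.germ_stalkSpecializes_apply, Scheme.Hom.germ_stalkMap_apply]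
    rfl
  refine ⟨p, ?_, p2⟩
  rintro x _ ⟨c, rfl⟩
  obtain ⟨U, hx, σ, rfl⟩ := Z.X.presheaf.germ_exist c
  have : Nonempty U := ⟨⟨_, hx⟩⟩
  have : Nonempty ↑(f ⁻¹ᵁ U) := ⟨⟨x, hx⟩⟩
  have e := P289.H594.toK_germ U _ hx σ
  change RegAt (p (P299.G.toK _ _)) x ∧ (UnAt (p (P299.G.toK _ _)) x → UnAt (P299.G.toK _ _) _)
  rw [e, p2]
  exact ⟨Am.mem_reg.1 (Am.pl_reg f U σ) x hx,
    fun u => (Am.un_secK σ hx).2 ((Am.un_pl hx σ).1 u)⟩

end Vale.Agent.P283R.Gl
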