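import Vale.Agent.P283R.To.GlSum
import Vale.Agent.P283R.To.GlAmz
import Vale.Agent.P283R.To.GlPu
import Vale.Agent.P283R.To.GlAf

/-!
# P283R, block TOR: an invariant affine neighbourhood in the base of a contraction
-/

namespace Vale.Agent.P283R.Gl

/-- **SUM** -/
theorem sum : SUM := sum_of amz pul' aff'

end Vale.Agent.P283R.Gl
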