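import Vale.Agent.P283R.To.GlMse

/-!
# P283R, block TOR: the invariant affine neighbourhood, the glue
-/

set_option linter.all false

open Set CategoryTheory AlgebraicGeometry

noncomputable section

namespace Vale.Agent.P283R.Gl

open Vale.Agent.P289 (Pt)
open Vale.Agent.P283M.Stm Vale.Agent.P283M.Stm.Var
open Vale.Agent.P283M Vale.Agent.P283M.Br Vale.Agent.P283R.To Vale.Agent.P283R.Tor

variable {X Z : Var} {k : ℕ} {t : Finset X.K} {a b g : X.K} {x : Pt X.X}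

theorem open_reg (a : X.K) : IsOpen {x : X.X | RegAt a x} := by
  refine isOpen_iff_forall_mem_open.2 ?_
  rintro x ⟨c, rfl⟩
  obtain ⟨U, hx, σ, rfl⟩ := X.X.presheaf.germ_exist c
  have : Nonempty U := ⟨⟨x, hx⟩⟩
  exact ⟨U, fun p hp => ⟨_, (P289.H594.toK_germ U p hp σ).trans
    (P289.H594.toK_germ U x hx σ).symm⟩, U.isOpen, hx⟩

theorem open_gen (t : Finset X.K) (g : X.K) : IsOpen {x : X.X | GenAt t g x} := by
  have : IsOpen (⋂ b ∈ t, {x : X.X | RegAt (b / g) x}) := isOpen_biInter_finset fun b _ => open_reg _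
  refine isOpen_iff_forall_mem_open.2 fun x hx =>
    ⟨_, fun p hp => ⟨hx.1, hx.2.1, mem_iInter₂.1 hp⟩, this, mem_iInter₂.2 hx.2.2⟩

theorem UnAt.pow (h : UnAt a x) (k : ℕ) : UnAt (a ^ k) x := P270L.S.Un.pow h k

theorem chg (h : g ≠ 0) (a b : X.K) (k : ℕ) : a / b ^ k = a / g ^ k * (g / b) ^ k := by
  rw [div_pow, div_mul_div_cancel₀ (pow_ne_zero _ h)]

theorem nv_iff (h : GenAt t g x) : Nv t k a x ↔ UnAt (a / g ^ k) x :=
  ⟨fun q => q g h, fun q b hb => chg h.2.1 a b k ▸ q.mul (UnAt.pow (hb.un h) k)⟩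

theorem reg_div (h : RegAt (a / g) x) (u : UnAt (b / g) x) : RegAt (a / b) x := by
  have := reg_mul h u.2.2
  rwa [inv_div, div_mul_div_cancel₀ (div_ne_zero_iff.1 u.1).2] at this

theorem un_div (u : UnAt (b / g) x) : UnAt (a / b) x ↔ UnAt (a / g) x := by
  obtain ⟨b0, g0⟩ := div_ne_zero_iff.1 u.1
  refine ⟨fun h => ?_, fun h => ?_⟩
  · have := h.mul u
    rwa [div_mul_div_cancel₀ b0] at this
  · have := h.div u
    rwa [div_div_div_cancel_right₀ g0] at this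

theorem sum_of (h1 : AMZ) (h2 : PUL) (h4 : AFF) : SUM := by
  classical
  intro X Z f d W z hf zW ht
  obtain ⟨y, ht⟩ := toric_iff.1 ht
  obtain ⟨t, bt, H⟩ := h1 Z
  obtain ⟨p, p1, p2⟩ := h2 X Z f hf
  have p0 : ∀ {a}, a ≠ 0 → p a ≠ 0 := fun h => (map_ne_zero p).2 h
  have pu : ∀ (x : Pt X.X) a, UnAt a (x.map f) → UnAt (p a) x := fun x a h =>
    ⟨p0 h.1, (p1 x a h.2.1).1, map_inv₀ p a ▸ (p1 x _ h.2.2).1⟩
  have pg : ∀ (x : Pt X.X) g, GenAt t g (x.map f) → GenAt (t.image p) (p g) x := fun x g h =>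
    ⟨Finset.mem_image_of_mem _ h.1, p0 h.2.1, fun b hb => by
      obtain ⟨c, hc, rfl⟩ := Finset.mem_image.1 hb
      exact map_div₀ p c g ▸ (p1 x _ (h.2.2 c hc)).1⟩
  have pe : ∀ a g k, p (a / g ^ k) = p a / p g ^ k := fun a g k => by rw [map_div₀, map_pow]
  have ne : ∀ O : Z.X.Opens, Nonempty O → Nonempty ↑(f ⁻¹ᵁ O) := fun O ⟨q⟩ =>
    let ⟨x, hx⟩ := hf.2.2.1.surj q.1
    ⟨⟨x, show f x ∈ O from hx ▸ q.2⟩⟩
  have dn : ∀ (O : Z.X.Opens) [Nonempty O] c, (∀ x ∈ f ⁻¹ᵁ O, RegAt c x) →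
      ∃ b : Γ(Z.X, O), p (P289.H594.secK O b) = c := fun O _ c h => by
    have := ne O ‹_›
    have := hf.2.2.2 O
    obtain ⟨b, hb⟩ := Am.exists_pl f O (Am.mem_reg.2 h)
    exact ⟨b, (p2 O b).trans hb⟩
  obtain ⟨k, a, U, k0, hU, zU, UW, sa, eU⟩ := H W z zW
  obtain ⟨x₀, rfl⟩ := hf.2.2.1.surj z
  have nv : ∀ (x : Pt X.X) c, (∀ g, GenAt t g (x.map f) → RegAt (c / g ^ k) (x.map f)) →
      (Nv (t.image p) k (p c) x ↔ Nv t k c (x.map f)) := fun x c h => by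
    obtain ⟨g, hg⟩ := bt (Pt.map f x) trivial
    rw [nv_iff hg, nv_iff (pg x g hg), ← pe]
    exact ⟨(p1 x _ (h g hg)).2, pu x _⟩
  have sp : Sct (t.image p) k (p a) (f ⁻¹ᵁ W) := fun x _ b hb => by
    obtain ⟨g, hg⟩ := bt (Pt.map f x) trivial
    rw [chg (pg x g hg).2.1, ← pe]
    exact reg_mul (p1 x _ (sa _ trivial g hg)).1 (reg_pow (hb.2.2 _ (pg x g hg).1) k)
  obtain ⟨s, s1, s2, ⟨G, G0, eG⟩, s3⟩ := mse X d _ y (t.image p) k (p a) x₀ ht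
    (fun x _ => let ⟨g, hg⟩ := bt (Pt.map f x) trivial; ⟨_, pg x g hg⟩) sp zW
    ((nv x₀ a (sa _ trivial)).2 ((eU _).1 zU))
  have : Nonempty U := ⟨⟨_, zU⟩⟩
  obtain ⟨b₀, hb₀⟩ := dn U (s / p a) fun x hx => by
    obtain ⟨g, hg⟩ := bt (Pt.map f x) trivial
    exact reg_div (s1 x (UW hx) _ (pg x g hg)) (pe a g k ▸ pu x _ ((eU _).1 hx g hg))
  have a0 : a ≠ 0 :=
    let ⟨g, hg⟩ := bt (f x₀) trivial
    (div_ne_zero_iff.1 ((eU _).1 zU g hg).1).1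
  obtain ⟨s₀, rfl, e₀⟩ : ∃ s₀, p s₀ = s ∧ P289.H594.secK U b₀ = s₀ / a :=
    ⟨P289.H594.secK U b₀ * a, by rw [map_mul, hb₀, div_mul_cancel₀ _ (p0 a0)],
      (mul_div_cancel_right₀ _ a0).symm⟩
  have s4 : Sct t k s₀ W := fun q hq g hg => by
    let O : Z.X.Opens := W ⊓ ⟨_, open_gen t g⟩
    have : Nonempty O := ⟨⟨q, hq, hg⟩⟩
    obtain ⟨b, hb⟩ := dn O (p (s₀ / g ^ k)) fun x hx => pe s₀ g k ▸ s1 x hx.1 _ (pg x g hx.2)
    rw [← p.injective hb]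
    exact Am.mem_reg.1 (Am.secK_reg O b) q ⟨hq, hg⟩
  let V : Z.X.Opens := ⟨{q | q ∈ W ∧ Nv t k s₀ q}, isOpen_iff_forall_mem_open.2 fun q hq => by
    obtain ⟨g, hg⟩ := bt q trivial
    have u := hq.2 g hg
    exact ⟨(W : Set Z.X) ∩ ({r | GenAt t g r} ∩ {r | RegAt (s₀ / g ^ k)⁻¹ r}), fun r hr =>
      ⟨hr.1, (nv_iff hr.2.1).2 ⟨u.1, s4 r hr.1 g hr.2.1, hr.2.2⟩⟩,
      W.isOpen.inter ((open_gen t g).inter (open_reg _)), hq.1, hg, u.2.2⟩⟩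
  have zV : f x₀ ∈ V := ⟨zW, (nv x₀ s₀ (s4 _ zW)).1 s2⟩
  have tV : TorY (f ⁻¹ᵁ V) y := s3 _ fun x =>
    and_congr_right fun c => (nv x s₀ (s4 _ c)).symm
  have : Nonempty V := ⟨⟨_, zV⟩⟩
  have := ne V ‹_›
  have mb : ∀ {O : Z.X.Opens} [Nonempty O] (c : Γ(Z.X, O)) (q : Z.X),
      q ∈ Z.X.basicOpen c ↔ q ∈ O ∧ UnAt (P289.H594.secK O c) q := fun c q =>
    ⟨fun a => ⟨Z.X.basicOpen_le c a, (Am.un_secK c (Z.X.basicOpen_le c a)).2 a⟩,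
      fun a => (Am.un_secK c a.1).1 a.2⟩
  obtain ⟨b, hb⟩ := (Am.reg_iff (U := V) (f := a / s₀)).1 (Am.mem_reg.2 fun q hq =>
    let ⟨g, hg⟩ := bt q trivial
    reg_div (sa q trivial g hg) (hq.2 g hg))
  refine ⟨V, h4 X Z f d V y b G hf tV ?_ (by rw [← p2, hb, map_div₀, eG]) G0 fun q hq => ?_, zV,
    toric_iff.2 ⟨y, tV⟩⟩
  · have : Z.X.basicOpen b = Z.X.basicOpen b₀ := TopologicalSpace.Opens.ext (Set.ext fun q => by
      obtain ⟨g, hg⟩ := bt q trivial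
      refine (mb b q).trans (Iff.trans ?_ (mb b₀ q).symm)
      rw [hb, e₀]
      refine ⟨fun c => ?_, fun c => ?_⟩
      · have u := (un_div (c.1.2 g hg)).1 c.2
        exact ⟨(eU q).2 ((nv_iff hg).2 u), (un_div u).2 (c.1.2 g hg)⟩
      · have u := (un_div ((eU q).1 c.1 g hg)).1 c.2
        exact ⟨⟨UW c.1, (nv_iff hg).2 u⟩, (un_div u).2 ((eU q).1 c.1 g hg)⟩)
    rw [this]
    exact hU.basicOpen b₀
  · obtain ⟨k', a', U', -, hU', qU, UV, sa', eU'⟩ := H V q hq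
    have e1 : ∀ g : Z.K, a' ^ k / g ^ (k * k') = (a' / g ^ k') ^ k := fun g => by
      rw [div_pow, ← pow_mul, mul_comm]
    have e2 : ∀ g : Z.K, s₀ ^ k' / g ^ (k * k') = (s₀ / g ^ k) ^ k' := fun g => by
      rw [div_pow, ← pow_mul]
    obtain ⟨c, hc⟩ := (Am.reg_iff (U := V) (f := a' ^ k / s₀ ^ k')).1 (Am.mem_reg.2 fun r hr =>
      let ⟨g, hg⟩ := bt r trivial
      reg_div (e1 g ▸ reg_pow (sa' r trivial g hg) k) (e2 g ▸ UnAt.pow (hr.2 g hg) k'))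
    have : Z.X.basicOpen c = U' := TopologicalSpace.Opens.ext (Set.ext fun r => by
      obtain ⟨g, hg⟩ := bt r trivial
      refine (mb c r).trans ?_
      rw [hc]
      refine ⟨fun w => (eU' r).2 ((nv_iff hg).2 ?_), fun w => ⟨UV w, ?_⟩⟩
      · have u := (un_div (e2 g ▸ UnAt.pow (w.1.2 g hg) k')).1 w.2
        obtain ⟨j, rfl⟩ := Nat.exists_eq_succ_of_ne_zero k0.ne'
        rw [e1, pow_succ'] at u
        exact P270L.S.un_of_mul (sa' r trivial g hg) (reg_pow (sa' r trivial g hg) j) u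
      · exact (un_div (e2 g ▸ UnAt.pow ((UV w).2 g hg) k')).2
          (e1 g ▸ UnAt.pow ((eU' r).1 w g hg) k))
    exact ⟨c, this ▸ hU', this ▸ qU⟩

end Vale.Agent.P283R.Gl
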