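import Vale.Agent.P283R.To.St

/-!
# P283R, block TOR: Laurent polynomials
-/

set_option linter.all false

open Set

noncomputable section

namespace Vale.Agent.P283R.To

open Vale.Agent.P287D

variable {K : Type} [Field K] [Algebra ℂ K] {d : ℕ} {y : Fin d → K} {g : (Fin d → ℤ) →₀ ℂ}

theorem lau_ne_zero (hy : AlgebraicIndependent ℂ y) (hg : g ≠ 0) : lau y g ≠ 0 := by
  classical
  have y0 : ∀ j, y j ≠ 0 := hy.ne_zero
  obtain ⟨T, hT⟩ : ∃ T : ℕ, ∀ m ∈ g.support, ∀ j, 0 ≤ m j + T := by
    refine ⟨g.support.sup fun m => Finset.univ.sup fun j => (m j).natAbs, fun m hm j => ?_⟩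
    have := (Finset.le_sup (f := fun j => (m j).natAbs) (Finset.mem_univ j)).trans
      (Finset.le_sup (f := fun m => Finset.univ.sup fun j => (m j).natAbs) hm)
    omega
  let s : (Fin d → ℤ) → Fin d →₀ ℕ := fun m =>
    Finsupp.equivFunOnFinite.symm fun j => (m j + T).toNat
  have hs : ∀ m ∈ g.support, ∀ j, (s m j : ℤ) = m j + T := fun m hm j =>
    Int.toNat_of_nonneg (hT m hm j)
  intro h
  have e : MvPolynomial.aeval y (∑ m ∈ g.support, MvPolynomial.monomial (s m) (g m)) =
      lau y g * mon y fun _ => T := by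
    rw [map_sum, lau, Finsupp.sum, Finset.sum_mul]
    refine Finset.sum_congr rfl fun m hm => ?_
    rw [MvPolynomial.aeval_monomial, Finsupp.prod_fintype _ _ (by simp), smul_mul_assoc,
      ← mon_add y0, Algebra.smul_def, mon]
    refine congrArg _ (Finset.prod_congr rfl fun j _ => ?_)
    rw [← zpow_natCast, hs m hm j, Pi.add_apply]
  rw [h, zero_mul] at e
  obtain ⟨m, hm⟩ := Finsupp.support_nonempty_iff.2 hg
  have := congrArg (MvPolynomial.coeff (s m)) (algebraicIndependent_iff.1 hy _ e)
  rw [MvPolynomial.coeff_sum, Finset.sum_eq_single m (fun a ha n => by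
      rw [MvPolynomial.coeff_monomial, if_neg fun k => n (funext fun j => by
        have := hs a ha j
        rw [k, hs m hm j] at this
        omega)]) (fun k => (k hm).elim), MvPolynomial.coeff_monomial, if_pos rfl] at this
  exact Finsupp.mem_support_iff.1 hm this

/-- the order of a Laurent polynomial is at least the least order of its monomials -/
theorem exists_le_ord (hy : AlgebraicIndependent ℂ y) (hg : g ≠ 0) (P : Pl K) :
    ∃ m ∈ g.support, ∑ j, m j * P.ord (y j) ≤ P.ord (lau y g) := by
  classical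
  obtain ⟨m, hm, h⟩ := g.support.exists_min_image (fun m => ∑ j, m j * P.ord (y j))
    (Finsupp.support_nonempty_iff.2 hg)
  refine ⟨m, hm, ?_⟩
  have : lau y g ∈ P.sub (-(∑ j, m j * P.ord (y j) : ℤ)) :=
    Submodule.sum_mem _ fun a ha => Submodule.smul_mem _ _ (.inr (by
      rw [ord_mon P hy.ne_zero, ← sub_eq_add_neg, sub_nonneg]; exact_mod_cast h a ha))
  have := (P.mem_sub.1 this).resolve_left (lau_ne_zero hy hg)
  rw [← sub_eq_add_neg, sub_nonneg] at this
  exact_mod_cast this

end Vale.Agent.P283R.To
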