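import Vale.Agent.P283R.To.Tc
import Vale.Agent.P283R.To.Lau
import Vale.Agent.P283M.Kl.Bas

/-!
# P283R, block TOR: from the monomial sections to the complement
-/

open Set
open Vale.Agent.P297Z
open Vale.Agent.P287D Vale.Agent.P283M

noncomputable section

namespace Vale.Agent.P283R.To

variable {K : Type} [Field K] [Algebra ℂ K] {n : ℕ} {ι : Type} [Fintype ι] {u : Finset K}
  {Λ Γ Γ' : BD K} {y : Fin (n + 1) → K} {E : ι → Pl K} {ρ : ι → Fin (n + 1) → ℤ}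

section

variable (h : Dat n u Λ Γ Γ') (hy : D.Rat y) (hρ : ∀ l j, ρ l j = (E l).ord (y j))
  (all : ∀ P, Ov u P → On n Λ P → (∀ i, P.ord (y i) = 0) ∨ ∃ l, P = E l)

include h hy hρ all

omit [Fintype ι] in
/-- the invariant monomials are regular over `V` -/
theorem mon_ov (P : Pl K) (o : Ov u P) (m : Fin (n + 1) → ℤ) (hm : ∀ l, 0 ≤ m ⬝ᵥ ρ l) :
    0 ≤ P.ord (mon y m) := by
  have := Kl.harto' h.ff h.big (Dsc.dv h.smp (mon y m)) h.base (fun R r s => by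
    change (0 : ℝ) ≤ (R.ord (mon y m) : ℤ)
    rw [ord_mon R hy.ind.ne_zero, Int.cast_nonneg_iff]
    obtain z | ⟨l, rfl⟩ := all R r s
    · simp [z]
    · simpa only [dotProduct, hρ] using hm l) o
  exact Int.cast_nonneg_iff.1 this

/-- the weight of a place over `V` lies in the cone of the rays -/
theorem exists_rp (P : Pl K) (o : Ov u P) : ∃ w : ι → ℝ, (∀ l, 0 ≤ w l) ∧ Rp y ρ P w :=
  cone ρ (fun j => P.ord (y j)) fun m hm => by
    have := mon_ov h hy hρ all P o m hm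
    rwa [ord_mon P hy.ind.ne_zero] at this

/-- **the complement** -/
theorem cpl_of {Q N : ℕ} {ε : ℝ} {k : ι → ℤ} {g : (Fin (n + 1) → ℤ) →₀ ℂ} {a : K} {ψ : Pl K → ℝ}
    (hQ : 0 < Q) (hd : Q ∣ N) (hN : 2 ≤ N)
    (q : At (0 ≤ ·) (n + 1) (fun _ _ _ _ _ _ _ _ => True) Q ε N) (dt : Dt Q y ρ k g)
    (hH : Hy (0 ≤ ·) Q ε y ρ k g) (a0 : a ≠ 0)
    (hψ : ∀ P, ψ P = P.ord a + (P.ord (lau y g) : ℝ) / Q - Γ P)
    (dic : ∀ P, dsc (n + 1) Γ P + 1 = al Q y g P + ψ P)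
    (z : ∀ P, Ov u P → On n Λ P → (∀ i, P.ord (y i) = 0) → 0 ≤ ψ P)
    (r : ∀ l, (k l : ℝ) / Q ≤ ψ (E l)) : Cpl n N u Λ Γ := by
  by_cases ne : ∃ P, Ov u P
  swap
  · exact ⟨1, 1, one_ne_zero, by simp, fun P p => (ne ⟨P, p⟩).elim⟩
  obtain ⟨s, s0, s1, s2⟩ := back hy dt.ne hQ hd hN (mon_ov h hy hρ all) ne fun P p => by
    obtain ⟨w, w0, hw⟩ := exists_rp h hy hρ all P p
    exact q K y ι ρ k g dt hH P w trivial w0 hw
  obtain ⟨c, rfl⟩ := hd
  have g0 := lau_ne_zero hy.ind dt.ne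
  have l0 := lau_ne_zero hy.ind s0
  have q0 : (0 : ℝ) < Q := by exact_mod_cast hQ
  have n0 : (0 : ℝ) < (Q * c : ℕ) := by exact_mod_cast (by omega : 0 < Q * c)
  have c0 : (c : ℝ) ≠ 0 := fun e => by simp [e] at n0
  have e : ∀ P : Pl K, ((Q * c : ℕ) : ℝ)⁻¹ * dv (a ^ (Q * c) * lau y g ^ c * lau y s) P =
      ψ P + Γ P + P.ord (lau y s) / (Q * c : ℕ) := fun P => by
    rw [dv, Pl.ord_mul _ (mul_ne_zero (pow_ne_zero _ a0) (pow_ne_zero _ g0)) l0,
      Pl.ord_mul _ (pow_ne_zero _ a0) (pow_ne_zero _ g0), Pl.ord_pow, Pl.ord_pow, hψ]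
    push_cast
    field_simp
    ring
  refine ⟨_, 1, mul_ne_zero (mul_ne_zero (pow_ne_zero (Q * c) a0) (pow_ne_zero c g0)) l0,
    by simp, fun P p _ => ⟨fun o => ?_, ?_⟩⟩
  · rw [e]
    obtain ⟨m, hm, le⟩ := exists_le_ord hy.ind s0 P
    obtain t | ⟨l, rfl⟩ := all P p o
    · have : (0 : ℝ) ≤ P.ord (lau y s) := by simpa [t] using le
      linarith [z P p o t, div_nonneg this n0.le]
    · have k1 : (0 : ℝ) ≤ Q * (E l).ord (lau y s) + (Q * c : ℕ) * k l := by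
        have := s1 m hm l
        simp only [dotProduct, hρ] at this
        exact_mod_cast this.trans (add_le_add_left
          (mul_le_mul_of_nonneg_left le (Int.natCast_nonneg Q)) _)
      have k2 : 0 ≤ (k l : ℝ) / Q + (E l).ord (lau y s) / (Q * c : ℕ) := by
        rw [div_add_div _ _ q0.ne' n0.ne']
        exact div_nonneg (by linarith) (mul_pos q0 n0).le
      linarith [r l]
  · have k1 := dic P
    have k2 := (div_lt_iff₀' n0).2 (s2 P p)
    simp only [dsc, Pi.sub_apply, Pi.smul_apply, smul_eq_mul] at k1 ⊢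
    rw [e]
    linarith

end

end Vale.Agent.P283R.To
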