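import Vale.Agent.P283R.To.Cv
import Vale.Agent.P283R.To.Tf
import Vale.Agent.P283R.Br.Glue

/-!
# P283R, block TOR: the tier side of the bridge
-/

noncomputable section

namespace Vale.Agent.P283R.To

open Vale.Agent.P287D Vale.Agent.P283M

/-- **TIE** -/
theorem tie : TIE := by
  intro M _ q n ε e0 R hR
  obtain ⟨Q, Q1, hQ⟩ : ∃ Q : ℕ, 1 ≤ Q ∧ ∀ r ∈ R, ∃ k : ℕ, (Q : ℚ) * r = k :=
    ⟨_, Finset.prod_pos (s := R) fun a _ => Rat.den_pos a, fun r x => Br.den R x (hR r x).1⟩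
  obtain ⟨N, N1, hN⟩ := q (n + 1) Q Q1 ε e0
  have N2 : 2 ≤ 2 * Q * N := by nlinarith [Nat.mul_le_mul Q1 N1]
  refine ⟨2 * Q * N, by omega, fun K _ _ u Λ Γ Γ' y a t b c => ?_⟩
  have := Cv.fin_ray (y := y) a
  have := Fintype.ofFinite (Cv.Ray n u Λ y)
  obtain ⟨k, g, h, d1, d2, d3⟩ := Cv.data M a t Q1 b.lc (fun P o p => by
    rcases b.cf P o p with e | ⟨r, x, e⟩
    · exact ⟨0, by rw [e]; simp⟩
    · obtain ⟨j, hj⟩ := hQ r x
      exact ⟨j, by rw [e, mul_neg, neg_inj]; exact_mod_cast hj⟩) c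
  refine cpl_of a t.rat (E := fun l : Cv.Ray n u Λ y => l.1) (ρ := Cv.rho) (fun _ _ => rfl)
    (fun P o p => (Cv.tq_or o p).imp (fun r => r.2.2) fun ⟨l, e⟩ => ⟨l, e.symm⟩) Q1
    ((dvd_mul_left Q 2).mul_right N) N2 (hN.of_dvd (dvd_mul_left N (2 * Q)) (by omega))
    d1 d2 d3.ne (ψ := fun P => P.ord h + (P.ord (lau y g) : ℝ) / Q - Γ P) (fun _ => rfl)
    (fun P => ?_) (fun P o p r => ?_) fun l => ?_
  · rw [dsc, Pi.sub_apply, al]
    linarith [d3.cn P]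
  · linarith [d3.tq P ⟨o, p, r⟩]
  · linarith [d3.ray l]

end Vale.Agent.P283R.To
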