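import Vale.Agent.P283R.To.Qtt
import Vale.Agent.P283R.To.Tie
import Vale.Agent.P283R.To.Mop
import Vale.Agent.P283R.To.Pri
import Vale.Agent.P283R.To.Sch
import Vale.Agent.P283R.Co.All

/-!
# P283R, block TOR: bounded klt complements for toric contractions
-/

namespace Vale.Agent.P283R.To

theorem qt : Qt := qt_tt Co.tt

theorem qtAt (n : ℕ) : QtAt n := tie mop pri qt n

theorem qT : Tor.QT := sch qtAt

end Vale.Agent.P283R.To
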