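import Vale.Agent.P283R.To.St
import Vale.Agent.P283R.To.Stm
import Vale.Agent.P283M.Qv

/-!
# P283R, block TOR: the rows of the bridge from `Qt` to the scheme statement `Tor.QT`
-/

open Set

noncomputable section

namespace Vale.Agent.P283R.To

open Vale.Agent.P287D Vale.Agent.P283M

section

variable {K : Type} [Field K] [Algebra ℂ K] {d : ℕ}

/-- `P` is a prime divisor of the affine toric variety of the monoid generated by `S` -/
structure Chp (y : Fin d → K) (S : Set (Fin d → ℤ)) (P : Pl K) : Prop where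
  top : AddSubgroup.closure S = ⊤
  mem : ∀ m ∈ S, mon y m ∈ P.ring
  frac : ∀ a ∈ P.ring, ∃ g h : (Fin d → ℤ) →₀ ℂ, (g.support : Set _) ⊆ S ∧ (h.support : Set _) ⊆ S ∧
    P.rd (lau y h) ≠ 0 ∧ a = lau y g / lau y h

/-- `P` is a prime divisor of the torus -/
def Tpr (y : Fin d → K) (P : Pl K) : Prop := (∀ i, P.ord (y i) = 0) ∧
  ∀ a ∈ P.ring, ∃ g h : (Fin d → ℤ) →₀ ℂ, P.rd (lau y h) ≠ 0 ∧ a = lau y g / lau y h

/-- `V Λ` is toric over the base -/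
structure Tor (n : ℕ) (u : Finset K) (Λ : BD K) (y : Fin (n + 1) → K) : Prop where
  rat : D.Rat y
  cht : ∀ P, Ov u P → On n Λ P → ∃ S, Chp y S P
  har : ∀ s : K, (∀ P, Ov u P → On n Λ P → (∀ i, P.ord (y i) = 0) → s ∈ P.ring) →
    ∃ g, s = lau y g

end

/-- the statement on the tier -/
def QtAt (n : ℕ) : Prop := ∀ ε : ℝ, 0 < ε → ∀ R : Finset ℚ, (∀ r ∈ R, 0 ≤ r ∧ r ≤ 1) →
  ∃ N : ℕ, 1 ≤ N ∧ ∀ (K : Type) [Field K] [Algebra ℂ K] (u : Finset K) (Λ Γ Γ' : BD K)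
    (y : Fin (n + 1) → K), Dat n u Λ Γ Γ' → Tor n u Λ y → Elc n ε R u Λ Γ → NefO n K u (-Γ) →
    Cpl n N u Λ Γ

/-- **MOP**: a prime divisor outside the torus is a monomial place -/
def MOP : Prop := ∀ (d : ℕ) (K : Type) [Field K] [Algebra ℂ K] (y : Fin d → K)
  (S : Set (Fin d → ℤ)) (P : Pl K), D.Rat y → Chp y S P → (∃ i, P.ord (y i) ≠ 0) →
    ∀ g : (Fin d → ℤ) →₀ ℂ, ∀ m ∈ g.support, P.ord (lau y g) ≤ P.ord (mon y m)

/-- **PRI**: the prime divisors of the torus are principal -/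
def PRI : Prop := ∀ (d : ℕ) (K : Type) [Field K] [Algebra ℂ K] (y : Fin d → K) (P : Pl K),
  D.Rat y → Tpr y P → ∃ π : K, π ≠ 0 ∧ P.ord π = 1 ∧ ∀ P', Tpr y P' → P' ≠ P → P'.ord π = 0

/-- **SCH**: the scheme side -/
def SCH : Prop := (∀ n, QtAt n) → Tor.QT

/-- **TIE**: the tier side -/
def TIE : Prop := MOP → PRI → Qt → ∀ n, QtAt n

end Vale.Agent.P283R.To
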