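import Vale.Agent.P283R.To.St
import Vale.Agent.P283R.To.Gs3

/-!
# P283R, block TOR: the Cox field, Gauss lifts, restrictions, monomial places
-/

open Set
open Vale.Agent.P297Z
open Vale.Agent.P287D

noncomputable section

namespace Vale.Agent.P283R.To

variable {K F : Type} [Field K] [Field F] [Algebra ℂ K] [Algebra ℂ F] {d N : ℕ}

/-- the rational function field -/
theorem rat_frac (N : ℕ) : D.Rat fun j : Fin N => algebraMap (MvPolynomial (Fin N) ℂ)
    (FractionRing (MvPolynomial (Fin N) ℂ)) (MvPolynomial.X j) := by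
  have e : ∀ p, MvPolynomial.aeval (fun j : Fin N => algebraMap (MvPolynomial (Fin N) ℂ)
      (FractionRing (MvPolynomial (Fin N) ℂ)) (MvPolynomial.X j)) p = algebraMap _ _ p := fun p =>
    (MvPolynomial.aeval_algebraMap_apply _ _ p).trans (by rw [MvPolynomial.aeval_X_left_apply])
  refine ⟨algebraicIndependent_iff.2 fun p hp => IsFractionRing.injective _
    (FractionRing (MvPolynomial (Fin N) ℂ)) (by rw [← e, hp, map_zero]), fun x => ?_⟩
  obtain ⟨a, b, -, rfl⟩ := IsFractionRing.div_surjective (A := MvPolynomial (Fin N) ℂ) x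
  have k : ∀ p : MvPolynomial (Fin N) ℂ, algebraMap _ (FractionRing (MvPolynomial (Fin N) ℂ)) p ∈
      IntermediateField.adjoin ℂ (range fun j : Fin N => algebraMap (MvPolynomial (Fin N) ℂ)
        (FractionRing (MvPolynomial (Fin N) ℂ)) (MvPolynomial.X j)) := fun p =>
    IntermediateField.algebra_adjoin_le_adjoin _ _ (by
      rw [Algebra.adjoin_range_eq_range_aeval]
      exact ⟨p, e p⟩)
  exact div_mem (k a) (k b)

theorem mon_inj {y : Fin d → K} (h : D.Rat y) {m : Fin d → ℤ} (e : mon y m = 1) : m = 0 := by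
  have : CharZero K := charZero_of_injective_algebraMap (algebraMap ℂ K).injective
  obtain ⟨L, hL⟩ := Cb.fr_of h.ff h.ind
  funext i
  have k := der_mon (L i) h.ind.ne_zero m
  rw [e, Derivation.map_one_eq_zero, one_mul, Finset.sum_eq_single i
    (fun j _ hj => by rw [hL.dual i j, if_neg (by tauto)]; simp) (by simp), hL.dual i i, if_pos rfl] at k
  simpa [h.ind.ne_zero i] using k.symm

theorem sp_ind {ρ : Fin N → Fin d → ℤ} (h : Sp 0 ρ) :
    LinearIndependent ℤ fun j l => ρ l j := by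
  obtain ⟨v, hv⟩ := h
  refine Fintype.linearIndependent_iff.2 fun m hm => congrFun (hv m (fun l => ?_) finZeroElim)
  simpa [dotProduct] using congrFun hm l

theorem cox_mon {y : Fin d → K} {z : Fin N → F} {ρ : Fin N → Fin d → ℤ} {φ : K →ₐ[ℂ] F}
    (hz : ∀ l, z l ≠ 0) (h : ∀ j, φ (y j) = mon z fun l => ρ l j) (m : Fin d → ℤ) :
    φ (mon y m) = mon z fun l => m ⬝ᵥ ρ l := by
  refine (map_mon φ.toRingHom y m).trans (.trans ?_ (mon_mon hz (fun j l => ρ l j) m))
  exact congrArg (mon · m) (funext h)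

theorem cox_ind {y : Fin d → K} {z : Fin N → F} {ρ : Fin N → Fin d → ℤ} {φ : K →ₐ[ℂ] F}
    (hy : D.Rat y) (hz : D.Rat z) (h : ∀ j, φ (y j) = mon z fun l => ρ l j) :
    LinearIndependent ℤ fun j l => ρ l j := by
  refine Fintype.linearIndependent_iff.2 fun m hm => congrFun (mon_inj hy (φ.injective ?_))
  have : (fun l => m ⬝ᵥ ρ l) = 0 := funext fun l => by simpa [dotProduct] using congrFun hm l
  change φ _ = φ _
  rw [cox_mon hz.ind.ne_zero h, this, map_one]
  simp [mon]

theorem emb : EMB := fun _ N _ _ _ _ _ hy h => by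
  obtain ⟨φ, k, -⟩ := exists_emb (rat_frac N).ff hy.ind hy.gen (rat_frac N).ind (sp_ind h)
  exact ⟨_, _, _, _, φ, rat_frac N, k⟩

theorem up_row : UP := fun _ _ _ _ _ _ _ _ y z ρ φ hy hz h P w hw => by
  obtain ⟨u, l, h1, h2⟩ := upQ (φ := φ.toRingHom) hy.ff hz.ff φ.commutes hz.ind
    (cox_ind hy hz h) h P (w := w) fun i => by
      have := hw i
      rw [← Rat.cast_inj (α := ℝ)]
      push_cast
      rw [this]
      exact Finset.sum_congr rfl fun _ _ => mul_comm _ _
  obtain ⟨e, he⟩ := Int.eq_ofNat_of_zero_le l.e_pos.le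
  refine ⟨u, e, by have := l.e_pos; omega, fun a _ => he ▸ l.ord a, fun j => ?_, ?_⟩
  · rw [h1, he, Int.cast_natCast]
  · rw [h2, he, Int.cast_natCast]

theorem down_row : DOWN := fun _ _ _ _ _ _ _ _ y z ρ φ hy hz h u ⟨a, _, ha⟩ => by
  obtain t | ⟨P, l⟩ := trv_or (φ := φ.toRingHom) hz.ff φ.commutes u
  · exact (ha (t.ord a)).elim
  have k := down hy.ff hz.ff φ.commutes hz.ind (cox_ind hy hz h) h l
  obtain ⟨e, he⟩ := Int.eq_ofNat_of_zero_le l.e_pos.le
  refine ⟨P, e, by have := l.e_pos; omega, fun a _ => he ▸ l.ord a, ?_⟩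
  rwa [← Int.cast_natCast, ← he]

end Vale.Agent.P283R.To
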