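import Vale.Agent.P283R.To.Lin
import Vale.Agent.P283R.To.Lau
import Vale.Agent.P283R.To.Bas

/-!
# P283R, block TOR: the case without invariant monomials
-/

set_option linter.all false

open Filter Finset
open Vale.Agent.P283.H647 (limLat)

noncomputable section

namespace Vale.Agent.P283R.To

open Vale.Agent.P287D

namespace Hz

variable {ι : Type} [Fintype ι]

/-- no nonnegative vector, no small positive dual vector -/
def Gd (ε : ℝ) (M : AddSubgroup (ι → ℤ)) : Prop := (∀ c ∈ M, (∀ j, 0 ≤ c j) → c = 0) ∧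
  ∀ w : ι → ℝ, (∀ j, 0 < w j) → (∀ m ∈ M, ∃ k : ℤ, ∑ j, w j * m j = k) →
    (∃ m ∈ M, ∑ j, w j * m j ≠ 0) → ε ≤ ∑ j, w j

/-- an integral vertex below the dual bound -/
def Vx (n : ℕ) (κ : ι → ℤ) (M : AddSubgroup (ι → ℤ)) : Prop := ∀ (w : ι → ℝ) (s : ℝ),
  (∀ j, 0 ≤ w j) → (∀ ζ : ι → ℝ, (∀ m ∈ M, ∑ j, ζ j * m j = 0) → (∀ j, 0 ≤ w j + ζ j) →
    -∑ j, ζ j * κ j < s) →
  ∃ c : ι → ℕ, (fun j => (c j : ℤ) - n * κ j) ∈ M ∧ ∑ j, c j * w j < n * s

theorem Vx.dvd {n n' : ℕ} {κ : ι → ℤ} {M : AddSubgroup (ι → ℤ)} (h : Vx n κ M) (hn : n ∣ n')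
    (h0 : 0 < n') : Vx n' κ M := fun w s a b => by
  obtain ⟨r, rfl⟩ := hn
  obtain ⟨c, h1, h2⟩ := h w s a b
  have r0 : (0 : ℝ) < r := by exact_mod_cast Nat.pos_of_mul_pos_left h0
  refine ⟨fun j => r * c j, Lp.mem_of_eq (M.zsmul_mem h1 r) fun j => by simp; ring, ?_⟩
  have := mul_lt_mul_of_pos_left h2 r0
  rw [mul_sum] at this
  push_cast
  simpa only [mul_assoc, mul_left_comm] using this

theorem one {ε : ℝ} (hε : 0 < ε) (κ : ι → ℤ) :
    ∃ n, 0 < n ∧ ∀ M : AddSubgroup (ι → ℤ), Gd ε M → Vx n κ M := by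
  by_contra hc
  push Not at hc
  choose M g v using fun i : ℕ => hc i.factorial i.factorial_pos
  let U := hyperfilter ℕ
  rcases cases U M with h | h
  · obtain ⟨D, w, u, -, a, b, c⟩ := gt (limLat U M) 0 fun _ _ => le_rfl
    obtain ⟨i, hi⟩ := (show ∀ᶠ i in U, _ ∈ M i from b).exists
    have u0 := (g i).1 _ hi fun j => Int.natCast_nonneg _
    have w1 : ∀ j, (1 : ℝ) ≤ w j := fun j => by
      have := congrFun u0 j
      have := c j
      simp only [Pi.zero_apply] at *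
      exact_mod_cast (show 1 ≤ w j by omega)
    have S : 0 < ∑ j, ((w j : ℝ) + 1) + 1 := by positivity
    have d0 := div_pos hε S
    obtain ⟨i, y, y1, -, y2, m, y3, y4⟩ := (avoid U M h 0
      (fun j => ε / (∑ j, ((w j : ℝ) + 1) + 1) * w j) (fun m hm => by
        have := a ⟨m, hm⟩
        simp only [AddMonoidHom.zero_apply, mul_zero] at this
        have e : ∑ j, (w j : ℝ) * m j = 0 := by
          exact_mod_cast (sum_congr rfl fun j _ => mul_comm _ _).trans this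
        simp only [mul_assoc, ← mul_sum, e, mul_zero]) d0).exists
    have k := (g i).2 y (fun j => by nlinarith [(abs_lt.1 (y2 j)).1, w1 j]) y1
      ⟨m, y3, by simpa using y4⟩
    have l : ∑ j, y j ≤ ε / (∑ j, ((w j : ℝ) + 1) + 1) * ∑ j, ((w j : ℝ) + 1) := by
      rw [mul_sum]
      exact sum_le_sum fun j _ => by linarith [(abs_lt.1 (y2 j)).2]
    have := div_mul_cancel₀ ε S.ne'
    nlinarith
  · obtain ⟨n, V, n0, a, b⟩ := Lp.vert (limLat U M) κ
    have e : ∀ᶠ i in (U : Filter ℕ), n ≤ i :=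
      Nat.hyperfilter_le_atTop (eventually_ge_atTop n)
    obtain ⟨i, h1, h2, h3⟩ := (h.and (e.and ((eventually_all_finset V).2 a))).exists
    refine v i (Vx.dvd (fun w s hw k => ?_) (Nat.dvd_factorial n0 h2) i.factorial_pos)
    by_contra q
    obtain ⟨ζ, z1, z2, z3⟩ := b w s hw fun c hc => not_lt.1 fun l => q ⟨c, h3 c hc, l⟩
    exact (k ζ (h1 ζ z1) z2).not_ge z3

theorem all (ι : Type) [Fintype ι] {ε : ℝ} (hε : 0 < ε) (B : ℤ) :
    ∃ n, 0 < n ∧ ∀ (κ : ι → ℤ) (M : AddSubgroup (ι → ℤ)), (∀ j, -B ≤ κ j ∧ κ j ≤ B) →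
      Gd ε M → Vx n κ M := by
  classical
  choose n a b using one (ι := ι) hε
  have p : 0 < ∏ κ ∈ Fintype.piFinset fun _ : ι => Icc (-B) B, n κ := prod_pos fun κ _ => a κ
  exact ⟨_, p, fun κ M h g => (b κ M g).dvd
    (dvd_prod_of_mem _ (Fintype.mem_piFinset.2 fun j => mem_Icc.2 (h j))) p⟩

variable {K : Type} [Field K] [Algebra ℂ K] {d Q : ℕ} {ε : ℝ} {y : Fin d → K}
  {ρ : ι → Fin d → ℤ} {k : ι → ℤ} {g : (Fin d → ℤ) →₀ ℂ}

theorem swap (m : Fin d → ℤ) (w : ι → ℝ) :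
    ∑ j, (m j : ℝ) * ∑ l, w l * ρ l j = ∑ l, w l * (m ⬝ᵥ ρ l : ℤ) := by
  simp only [mul_sum, dotProduct, Int.cast_sum, Int.cast_mul]
  rw [sum_comm]
  exact sum_congr rfl fun l _ => sum_congr rfl fun j _ => by ring

/-- the monomial places -/
theorem key (hM : MON) (hQ : 1 ≤ Q) (hε : 0 < ε) (h : Dt Q y ρ k g) (H : Hy (0 < ·) Q ε y ρ k g)
    {w : ι → ℝ} (hw : ∀ l, 0 < w l) {v : Fin d → ℤ} (v0 : v ≠ 0)
    (hv : ∀ j, (v j : ℝ) = ∑ l, w l * ρ l j) :
    ∃ m ∈ g.support, ε * Q ≤ ∑ l, w l * (k l - m ⬝ᵥ ρ l : ℤ) := by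
  obtain ⟨P, e, e0, a, b⟩ := hM d K y v h.rat v0
  have e1 : (1 : ℝ) ≤ e := by exact_mod_cast e0
  have Q0 : (0 : ℝ) < Q := by exact_mod_cast hQ
  have r : Rp y ρ P fun l => w l / e := fun j => by
    have : (v j : ℝ) = e * P.ord (y j) := by exact_mod_cast a j
    simp only [div_mul_eq_mul_div, ← sum_div, ← hv j, this]
    field_simp
  have c := H P _ (fun l => div_pos (hw l) (by linarith)) r
  obtain ⟨m, hm, o⟩ := exists_le_ord h.rat.ind h.ne P
  refine ⟨m, hm, ?_⟩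
  have o' : ∑ j, (m j : ℝ) * P.ord (y j) ≤ P.ord (lau y g) := by exact_mod_cast o
  simp only [r _, swap] at o'
  simp only [div_mul_eq_mul_div, ← sum_div] at o' c
  simp only [Int.cast_sub, mul_sub, sum_sub_distrib]
  have t : ε * Q ≤ (∑ l, w l * k l) / e - (∑ l, w l * (m ⬝ᵥ ρ l : ℤ)) / e := by
    rw [al] at c
    have := mul_le_mul_of_nonneg_right c Q0.le
    rw [add_mul, sub_mul, div_mul_cancel₀ _ Q0.ne', div_mul_cancel₀ _ Q0.ne'] at this
    nlinarith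
  rw [← sub_div, le_div_iff₀ (by linarith)] at t
  nlinarith [mul_pos hε Q0]

/-- the closure of the hypothesis -/
theorem clo {P : Pl K} (H : Hy (0 < ·) Q ε y ρ k g) {w ζ : ι → ℝ} (hw : ∀ l, 0 < w l)
    (r : Rp y ρ P w) (z : ∀ j, ∑ l, ζ l * ρ l j = 0) (p : ∀ l, 0 ≤ w l + ζ l) :
    ε ≤ al Q y g P + (∑ l, w l * k l) / Q + (∑ l, ζ l * k l) / Q := by
  have a : ∀ t : ℝ, 0 ≤ t → t < 1 →
      ε ≤ al Q y g P + (∑ l, w l * k l) / Q + t * ((∑ l, ζ l * k l) / Q) := fun t t0 t1 => by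
    have := H P (fun l => w l + t * ζ l)
      (fun l => by nlinarith [mul_nonneg t0 (p l), mul_pos (sub_pos.2 t1) (hw l)]) fun j => by
      simp only [add_mul, sum_add_distrib, mul_assoc, ← mul_sum, z j, r j, mul_zero, add_zero]
    simp only [add_mul, sum_add_distrib, mul_assoc, ← mul_sum, add_div, mul_div_assoc] at this
    linarith
  refine ge_of_tendsto (x := nhdsWithin 1 (Set.Iio 1)) (f := fun t : ℝ =>
    al Q y g P + (∑ l, w l * k l) / Q + t * ((∑ l, ζ l * k l) / Q)) ?_ ?_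
  · refine tendsto_nhdsWithin_of_tendsto_nhds (Continuous.tendsto' (by fun_prop) _ _ (by simp))
  · filter_upwards [Ico_mem_nhdsLT (zero_lt_one' ℝ)] with t ht using a t ht.1 ht.2

theorem main (hM : MON) (ι : Type) [Fintype ι] (hQ : 1 ≤ Q) (hε : 0 < ε) : ∃ n, 1 ≤ n ∧
    ∀ (K : Type) [Field K] [Algebra ℂ K] (y : Fin d → K) (ρ : ι → Fin d → ℤ) (k : ι → ℤ)
      (g : (Fin d → ℤ) →₀ ℂ), Dt Q y ρ k g → Hy (0 < ·) Q ε y ρ k g → ¬ Iv ρ →
      ∀ P w, (∀ l, 0 < w l) → Rp y ρ P w → Cn Q n y ρ k g P := by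
  classical
  obtain ⟨n, n0, hn⟩ := all ι hε (Q * (2 * Fintype.card ι + 1))
  refine ⟨Q * n, Nat.mul_pos hQ n0, fun K _ _ y ρ k g h H hi P w hw r => ?_⟩
  have Q0 : (0 : ℝ) < Q := by exact_mod_cast hQ
  rcases d with _ | d
  · exact (Bm.no_pl h.rat.ff P).elim
  obtain ⟨l₀, hl⟩ : ∃ l, ρ l 0 ≠ 0 := by
    by_contra c
    push Not at c
    exact hi ⟨Pi.single 0 1, by simp, fun l => by simp [c]⟩
  obtain ⟨u, u1, u2⟩ : ∃ u : ι → ℤ, (∀ l, 1 ≤ u l ∧ u l ≤ 2) ∧ ∑ l, u l * ρ l 0 ≠ 0 := by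
    by_cases c : ∑ l, ρ l 0 = 0
    · refine ⟨fun l => 1 + if l = l₀ then 1 else 0, fun l => by
        dsimp only; split_ifs <;> omega, ?_⟩
      simpa [add_mul, sum_add_distrib, c] using hl
    · exact ⟨fun _ => 1, fun _ => ⟨le_rfl, one_le_two⟩, by simpa using c⟩
  obtain ⟨m, hm, a⟩ := key hM hQ hε h H (w := fun l => u l)
    (fun l => by exact_mod_cast (u1 l).1) (v := fun j => ∑ l, u l * ρ l j)
    (fun c => u2 (congrFun c 0)) fun j => by push_cast; rfl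
  have a' : 0 < ∑ l, u l * (k l - m ⬝ᵥ ρ l) := by exact_mod_cast (mul_pos hε Q0).trans_le a
  have b : ∀ l, 0 ≤ Q - (k l - m ⬝ᵥ ρ l) := fun l => by linarith [h.eff m hm l]
  let A : (Fin (d + 1) → ℤ) →+ ι → ℤ :=
    { toFun := fun m l => m ⬝ᵥ ρ l
      map_zero' := funext fun l => zero_dotProduct _
      map_add' := fun a b => funext fun l => add_dotProduct _ _ _ }
  have sg : ∀ (w : ι → ℝ) (j), ∑ l, w l * (A (Pi.single j 1) l) = ∑ l, w l * ρ l j :=
    fun w j => by simp [A]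
  obtain ⟨c, ⟨m', c1⟩, c2⟩ := hn (fun l => k l - m ⬝ᵥ ρ l) A.range (fun l => by
      have x := single_le_sum (f := fun l => u l * (Q - (k l - m ⬝ᵥ ρ l)))
        (fun l _ => mul_nonneg (by linarith [(u1 l).1]) (b l)) (mem_univ l)
      have z : ∑ l, u l * (Q : ℤ) ≤ ∑ l : ι, 2 * (Q : ℤ) :=
        sum_le_sum fun l _ => by nlinarith [(u1 l).2]
      simp only [mul_sub (u _) (Q : ℤ), sum_sub_distrib] at x
      simp only [sum_const, card_univ, nsmul_eq_mul] at z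
      constructor
      · nlinarith [b l, (u1 l).1]
      · nlinarith [b l])
    ⟨by
      rintro _ ⟨m, rfl⟩ p
      rw [by_contra fun c : m ≠ 0 => hi ⟨m, c, p⟩, map_zero], fun w hw i ⟨_, ⟨m, rfl⟩, z⟩ => by
      choose v hv using fun j => i _ ⟨Pi.single j 1, rfl⟩
      have hv' : ∀ j, (v j : ℝ) = ∑ l, w l * ρ l j := fun j => by rw [← hv j, sg]
      obtain ⟨m', hm', a⟩ := key hM hQ hε h H hw (v := v) (fun c => z (by
        refine (swap m w).symm.trans (sum_eq_zero fun j _ => ?_)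
        rw [← hv' j, c]; simp)) hv'
      have : ∑ l, w l * (k l - m' ⬝ᵥ ρ l : ℤ) ≤ (∑ l, w l) * Q := by
        rw [sum_mul]
        exact sum_le_sum fun l _ => mul_le_mul_of_nonneg_left
          (by exact_mod_cast (show k l - m' ⬝ᵥ ρ l ≤ Q by linarith [h.eff m' hm' l])) (hw l).le
      exact le_of_mul_le_mul_right (a.trans this) Q0⟩
    w (Q * al Q y g P + ∑ l, w l * k l) (fun l => (hw l).le) fun ζ z p => by
      have x := clo H hw r (fun j => by rw [← sg]; exact z _ ⟨_, rfl⟩) p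
      have e : ∑ l, ζ l * (m ⬝ᵥ ρ l : ℤ) = 0 := z _ ⟨m, rfl⟩
      simp only [Int.cast_sub, mul_sub, sum_sub_distrib, e]
      have := mul_lt_mul_of_pos_right (hε.trans_le x) Q0
      rw [add_mul, add_mul, div_mul_cancel₀ _ Q0.ne', div_mul_cancel₀ _ Q0.ne'] at this
      linarith
  have c3 : ∀ l, (m' - (n : ℤ) • m) ⬝ᵥ ρ l = c l - n * k l := fun l => by
    have : m' ⬝ᵥ ρ l = c l - n * (k l - m ⬝ᵥ ρ l) := congrFun c1 l
    rw [sub_dotProduct, smul_dotProduct, this, smul_eq_mul]; ring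
  refine ⟨m' - (n : ℤ) • m, fun l => ?_, ?_⟩
  · rw [c3]; push_cast; nlinarith [mul_nonneg (Int.natCast_nonneg Q) (Int.natCast_nonneg (c l))]
  · simp only [r _, swap, c3]
    push_cast
    simp only [mul_sub, sum_sub_distrib, mul_left_comm (w _) (n : ℝ), ← mul_sum,
      mul_comm (w _) (c _ : ℝ)]
    linarith

end Hz

theorem d2_mon (hM : MON) : D2 := fun d N Q hQ ε hε => by
  obtain ⟨n, n1, h⟩ := Hz.main (d := d) hM (Fin N) hQ hε
  refine ⟨n, n1, fun K _ _ y ι _ ρ k g a b P w ⟨c, _, i⟩ hw r => ?_⟩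
  let e : Fin N ≃ ι := (Fintype.equivFinOfCardEq c).symm
  obtain ⟨m, m1, m2⟩ := h K y (fun l => ρ (e l)) (fun l => k (e l)) g
    ⟨a.rat, a.ne, fun m hm l => a.eff m hm (e l)⟩
    (fun P w hw r => by
      have := b P (fun l => w (e.symm l)) (fun l => hw _) fun j => by
        rw [r j, ← e.sum_comp]; simp
      rw [← e.sum_comp] at this
      simpa using this)
    (fun ⟨m, p, q⟩ => i ⟨m, p, fun l => by simpa using q (e.symm l)⟩)
    P (fun l => w (e l)) (fun l => hw _) fun j => by rw [r j, ← e.sum_comp]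
  exact ⟨m, fun l => by simpa using m1 (e.symm l), m2⟩

theorem d2 : D2 := d2_mon mon'

end Vale.Agent.P283R.To
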