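import Vale.Agent.P283R.To.Trs
import Vale.Agent.P283R.To.Bas

/-!
# P283R, block TOR: the case without invariant monomials, reduction to the lattice statement
-/

open Finset

noncomputable section

namespace Vale.Agent.P283R.To

open Vale.Agent.P287D

/-- the lattice statement of the case without invariant monomials -/
def HZ : Prop := ∀ (N Q : ℕ) (ε : ℝ), 1 ≤ Q → 0 < ε → ∃ n : ℕ, 0 < n ∧ Q ∣ n ∧
  ∀ (M : AddSubgroup (Fin N → ℤ)) (b : Fin N → ℕ), (∀ j, b j ≤ Q * N) →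
    (∀ c ∈ M, (∀ j, 0 ≤ c j) → c = 0) →
    (∀ w : Fin N → ℝ, (∀ j, 0 < w j) → (∀ m ∈ M, ∃ k : ℤ, ∑ j, w j * m j = k) →
      (∃ m ∈ M, ∑ j, w j * m j ≠ 0) → ε ≤ ∑ j, w j) →
    ∀ (w : Fin N → ℝ) (s : ℝ), (∀ j, 0 ≤ w j) →
      (∀ ζ : Fin N → ℝ, (∀ m ∈ M, ∑ j, ζ j * m j = 0) → (∀ j, 0 ≤ w j + ζ j) →
        0 < s + ∑ j, (1 - (b j : ℝ) / Q) * ζ j) →
      ∃ c : Fin N → ℕ, (fun j => (c j : ℤ) - n + (n / Q : ℕ) * b j) ∈ M ∧
        ∑ j, (c j : ℝ) * w j < n * s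

namespace Dh

variable {K : Type} [Field K] [Algebra ℂ K] {d : ℕ} {ι : Type} [Fintype ι] {Q : ℕ} {ε : ℝ}
  {y : Fin d → K} {ρ : ι → Fin d → ℤ} {k : ι → ℤ} {g : (Fin d → ℤ) →₀ ℂ}

/-- the order of a Laurent polynomial is at least the order of one of its monomials -/
theorem ord_lau (hy : AlgebraicIndependent ℂ y) (hg : g ≠ 0) (P : Pl K) :
    ∃ m ∈ g.support, ∑ j, m j * P.ord (y j) ≤ P.ord (lau y g) := by
  obtain ⟨m, hm, h⟩ := exists_min_image g.support (fun m => ∑ j, m j * P.ord (y j))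
    (Finsupp.support_nonempty_iff.2 hg)
  refine ⟨m, hm, ?_⟩
  have : lau y g ∈ P.sub (-(∑ j, m j * P.ord (y j) : ℤ)) :=
    Submodule.sum_mem _ fun a ha => Submodule.smul_mem _ _ (P.mem_sub.2 (.inr (by
      rw [ord_mon P hy.ne_zero, ← sub_eq_add_neg, sub_nonneg]
      exact_mod_cast h a ha)))
  have := (P.mem_sub.1 this).resolve_left (Tr.lau_ne hy hg)
  rw [← sub_eq_add_neg, sub_nonneg] at this
  exact_mod_cast this

theorem swap (ρ : ι → Fin d → ℤ) (w : ι → ℝ) (m : Fin d → ℤ) :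
    ∑ l, w l * ((m ⬝ᵥ ρ l : ℤ) : ℝ) = ∑ j, (m j : ℝ) * ∑ l, w l * ρ l j := by
  simp only [dotProduct, Int.cast_sum, Int.cast_mul, mul_sum]
  rw [sum_comm]
  exact sum_congr rfl fun _ _ => sum_congr rfl fun _ _ => by ring

/-- the hypothesis at a monomial place -/
theorem at_mon (hQ : 1 ≤ Q) (hε : 0 < ε) (hD : Dt Q y ρ k g) (hH : Hy (0 < ·) Q ε y ρ k g)
    {w : ι → ℝ} (hw : ∀ l, 0 < w l) {v : Fin d → ℤ} (hv : ∀ j, (v j : ℝ) = ∑ l, w l * ρ l j)
    (h0 : v ≠ 0) : ∃ m ∈ g.support,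
      ε * Q ≤ ∑ l, w l * k l - ∑ l, w l * ((m ⬝ᵥ ρ l : ℤ) : ℝ) := by
  obtain ⟨P, e, he, h1, h2⟩ := mon' d K y v hD.rat h0
  obtain ⟨m, hm, h3⟩ := ord_lau hD.rat.ind hD.ne P
  have e1 : (1 : ℝ) ≤ e := by exact_mod_cast he
  have e0 : (0 : ℝ) < e := by linarith
  have q0 : (0 : ℝ) < Q := by exact_mod_cast hQ
  have a : ∀ j, ∑ l, w l * ρ l j = e * (P.ord (y j) : ℝ) := fun j => by
    rw [← hv]
    exact_mod_cast h1 j
  have h := hH P (fun l => w l / e) (fun l => div_pos (hw l) e0) fun j => by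
    simp only [div_mul_eq_mul_div, ← sum_div, a]
    field_simp
  refine ⟨m, hm, ?_⟩
  have h4 : ∑ j, (m j : ℝ) * P.ord (y j) ≤ P.ord (lau y g) := by exact_mod_cast h3
  have b : ∑ l, w l * ((m ⬝ᵥ ρ l : ℤ) : ℝ) = e * ∑ j, (m j : ℝ) * P.ord (y j) := by
    rw [swap, mul_sum]
    exact sum_congr rfl fun j _ => by rw [a]; ring
  simp only [al, div_mul_eq_mul_div, ← sum_div] at h
  have c : ε * Q * e ≤ ∑ l, w l * k l - e * P.ord (lau y g) := by
    have : ε ≤ ((∑ l, w l * k l) / e - P.ord (lau y g)) / Q := by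
      rw [sub_div]
      linarith
    rw [le_div_iff₀ q0, le_sub_iff_add_le, le_div_iff₀ e0] at this
    linarith
  have := mul_le_mul_of_nonneg_left h4 e0.le
  have := le_mul_of_one_le_right (mul_pos hε q0).le e1
  linarith

/-- a monomial with small exponents -/
theorem small_mon (hQ : 1 ≤ Q) (hε : 0 < ε) (hD : Dt Q y ρ k g) (hH : Hy (0 < ·) Q ε y ρ k g)
    {P : Pl K} {w : ι → ℝ} (hw : ∀ l, 0 < w l) (hR : Rp y ρ P w) :
    ∃ m ∈ g.support, ∑ l, m ⬝ᵥ ρ l ≤ ∑ l, k l := by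
  have q0 : (0 : ℝ) < Q := by exact_mod_cast hQ
  by_cases h : ∑ l, ρ l = 0
  · obtain ⟨m, hm⟩ := Finsupp.support_nonempty_iff.2 hD.ne
    refine ⟨m, hm, ?_⟩
    rw [← dotProduct_sum, h, dotProduct_zero]
    by_contra hn
    have s : ∑ l, (k l : ℝ) ≤ -1 := by exact_mod_cast (show ∑ l, k l ≤ -1 by omega)
    let t := |Q * al Q y g P + ∑ l, w l * k l|
    have t0 : 0 ≤ t := abs_nonneg _
    have := hH P (fun l => w l + t) (fun l => add_pos_of_pos_of_nonneg (hw l) t0) fun j => by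
      have z : ∑ l, (ρ l j : ℝ) = 0 := by
        have := congrFun h j
        rw [Finset.sum_apply] at this
        exact_mod_cast this
      simp only [add_mul, sum_add_distrib, ← mul_sum, z, mul_zero, add_zero]
      exact hR j
    simp only [add_mul, sum_add_distrib, ← mul_sum] at this
    rw [← sub_le_iff_le_add', le_div_iff₀ q0] at this
    have a : Q * al Q y g P + ∑ l, w l * k l ≤ t := le_abs_self _
    have b := mul_le_mul_of_nonneg_left s t0
    have c := mul_pos hε q0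
    linarith
  · obtain ⟨m, hm, a⟩ := at_mon hQ hε hD hH (w := fun _ => 1) (fun _ => one_pos)
      (fun j => by simp) h
    refine ⟨m, hm, ?_⟩
    simp only [one_mul] at a
    have c := mul_pos hε q0
    have : ∑ l, ((m ⬝ᵥ ρ l : ℤ) : ℝ) ≤ ∑ l, (k l : ℝ) := by linarith
    exact_mod_cast this

theorem clo {ε s a : ℝ} (hε : 0 < ε) (h : ∀ δ : ℝ, 0 < δ → δ ≤ 1 → ε ≤ s + (1 - δ) * a) :
    0 < s + a := by
  have p : 0 < ε + |a| := by positivity
  have := h (ε / (ε + |a|)) (div_pos hε p) ((div_le_one p).2 (by linarith [abs_nonneg a]))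
  have b : ε / (ε + |a|) * |a| < ε := by
    rw [div_mul_eq_mul_div, div_lt_iff₀ p]
    exact mul_lt_mul_of_pos_left (by linarith) hε
  have c := mul_le_mul_of_nonneg_left (neg_le_abs a) (div_pos hε p).le
  linarith

theorem fin {N n : ℕ} {ρ : Fin N → Fin d → ℤ} {k : Fin N → ℤ} (hQ : 1 ≤ Q) (hε : 0 < ε)
    (hn : Q ∣ n)
    (H : ∀ (M : AddSubgroup (Fin N → ℤ)) (b : Fin N → ℕ), (∀ j, b j ≤ Q * N) →
      (∀ c ∈ M, (∀ j, 0 ≤ c j) → c = 0) →
      (∀ w : Fin N → ℝ, (∀ j, 0 < w j) → (∀ m ∈ M, ∃ k : ℤ, ∑ j, w j * m j = k) →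
        (∃ m ∈ M, ∑ j, w j * m j ≠ 0) → ε ≤ ∑ j, w j) →
      ∀ (w : Fin N → ℝ) (s : ℝ), (∀ j, 0 ≤ w j) →
        (∀ ζ : Fin N → ℝ, (∀ m ∈ M, ∑ j, ζ j * m j = 0) → (∀ j, 0 ≤ w j + ζ j) →
          0 < s + ∑ j, (1 - (b j : ℝ) / Q) * ζ j) →
        ∃ c : Fin N → ℕ, (fun j => (c j : ℤ) - n + (n / Q : ℕ) * b j) ∈ M ∧
          ∑ j, (c j : ℝ) * w j < n * s)
    (hD : Dt Q y ρ k g) (hH : Hy (0 < ·) Q ε y ρ k g) (hI : ¬ Iv ρ) {P : Pl K} {w : Fin N → ℝ}
    (hw : ∀ l, 0 < w l) (hR : Rp y ρ P w) : Cn Q n y ρ k g P := by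
  have q0 : (0 : ℝ) < Q := by exact_mod_cast hQ
  obtain ⟨r, rfl⟩ := hn
  obtain ⟨a, ha, h1⟩ := small_mon hQ hε hD hH hw hR
  have b0 : ∀ l, 0 ≤ Q + a ⬝ᵥ ρ l - k l := fun l => sub_nonneg.2 (hD.eff a ha l)
  let b : Fin N → ℕ := fun l => (Q + a ⬝ᵥ ρ l - k l).toNat
  have hb : ∀ l, (b l : ℤ) = Q + a ⬝ᵥ ρ l - k l := fun l => Int.toNat_of_nonneg (b0 l)
  have hb' : ∀ l, (b l : ℝ) = Q + ((a ⬝ᵥ ρ l : ℤ) : ℝ) - k l := fun l => by exact_mod_cast hb l
  let A : (Fin d → ℤ) →+ (Fin N → ℤ) := AddMonoidHom.mk' (fun m l => m ⬝ᵥ ρ l)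
    fun _ _ => funext fun _ => add_dotProduct _ _ _
  have sg : ∀ (u : Fin N → ℝ) (j : Fin d), ∑ l, u l * (A (Pi.single j 1) l : ℝ) =
      ∑ l, u l * ρ l j := fun u j => by simp [A]
  obtain ⟨c, ⟨m, hm⟩, hc⟩ := H A.range b (fun l => by
      have := single_le_sum (fun l _ => b0 l) (mem_univ l)
      rw [sum_sub_distrib, sum_add_distrib, sum_const, card_fin, nsmul_eq_mul, ← hb] at this
      exact_mod_cast (show (b l : ℤ) ≤ Q * N by linarith))
    (by
      rintro _ ⟨m, rfl⟩ h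
      by_contra h0
      exact hI ⟨m, fun e => h0 (e ▸ map_zero A), h⟩)
    (fun u u0 u1 ⟨_, ⟨m, hm⟩, u2⟩ => by
      choose v hv using fun j => u1 _ ⟨Pi.single j 1, rfl⟩
      simp only [sg] at hv
      obtain ⟨x, hx, h⟩ := at_mon hQ hε hD hH u0 (fun j => (hv j).symm) fun e => u2 (by
        rw [← hm]
        refine (swap ρ u m).trans (sum_eq_zero fun j _ => ?_)
        rw [hv, e]
        simp)
      have : ∑ l, u l * k l ≤ ∑ l, u l * (Q + ((x ⬝ᵥ ρ l : ℤ) : ℝ)) := sum_le_sum fun l _ =>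
        mul_le_mul_of_nonneg_left (by exact_mod_cast hD.eff x hx l) (u0 l).le
      simp only [mul_add, sum_add_distrib, ← sum_mul] at this
      exact le_of_mul_le_mul_right (by linarith) q0)
    w (al Q y g P + (∑ l, w l * k l) / Q) (fun l => (hw l).le) fun ζ z0 z1 => clo hε
      fun δ d0 d1 => by
        have := hH P (fun l => w l + (1 - δ) * ζ l) (fun l => by
          have := mul_nonneg (sub_nonneg.2 d1) (z1 l)
          have := mul_pos d0 (hw l)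
          linarith) fun j => by
          have z := z0 _ ⟨Pi.single j 1, rfl⟩
          rw [sg] at z
          simp only [add_mul, sum_add_distrib, mul_assoc, ← mul_sum, z, mul_zero, add_zero]
          exact hR j
        have z : ∑ l, ζ l * ((a ⬝ᵥ ρ l : ℤ) : ℝ) = 0 := z0 _ ⟨a, rfl⟩
        have e : ∑ l, (1 - (b l : ℝ) / Q) * ζ l = (∑ l, ζ l * k l) / Q := by
          rw [eq_div_iff q0.ne', ← sub_zero (∑ l, ζ l * k l), ← z, ← sum_sub_distrib, sum_mul]
          refine sum_congr rfl fun l _ => ?_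
          rw [hb']
          field_simp
          ring
        simp only [add_mul, sum_add_distrib, mul_assoc, ← mul_sum, add_div, mul_div_assoc] at this
        rw [e]
        linarith
  have hm' : ∀ l, (m - (r : ℤ) • a) ⬝ᵥ ρ l = c l - r * k l := fun l => by
    have : m ⬝ᵥ ρ l = _ := congrFun hm l
    rw [Nat.mul_div_cancel_left _ hQ, hb] at this
    rw [sub_dotProduct, smul_dotProduct, this]
    push_cast
    ring
  refine ⟨m - (r : ℤ) • a, fun l => ?_, ?_⟩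
  · rw [hm']
    push_cast
    have : (0 : ℤ) ≤ Q * c l := by positivity
    linarith
  · have e := swap ρ w (m - (r : ℤ) • a)
    simp only [hm', ← hR _, Int.cast_sub, Int.cast_mul, Int.cast_natCast, mul_sub,
      sum_sub_distrib] at e
    have f : ∑ l, w l * (r * k l) = ((Q * r : ℕ) : ℝ) * ((∑ l, w l * k l) / Q) := by
      push_cast
      rw [mul_comm (Q : ℝ), mul_assoc, mul_div_cancel₀ _ q0.ne', mul_sum]
      exact sum_congr rfl fun _ _ => by ring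
    simp only [mul_comm (w _) (c _ : ℝ)] at e
    rw [← e, f]
    linarith

end Dh

/-- **D2** from the lattice statement -/
theorem d2_of (h : HZ) : D2 := fun d N Q hQ ε hε => by
  obtain ⟨n, h0, h1, H⟩ := h N Q ε hQ hε
  refine ⟨n, h0, fun K _ _ y ι _ ρ k g hD hH P w ⟨hN, _, hI⟩ hw hR => ?_⟩
  let e := (Fintype.equivFinOfCardEq hN).symm
  obtain ⟨m, a, b⟩ := Dh.fin (ρ := fun l => ρ (e l)) (k := fun l => k (e l)) hQ hε h1 H
    ⟨hD.rat, hD.ne, fun m hm l => hD.eff m hm _⟩ (fun R u u0 u1 => by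
      have := hH R (fun l => u (e.symm l)) (fun l => u0 _) fun j => by
        rw [u1 j, ← e.sum_comp]
        simp
      rw [← e.sum_comp] at this
      simpa using this)
    (fun ⟨m, a, b⟩ => hI ⟨m, a, fun l => by simpa using b (e.symm l)⟩) (P := P)
    (w := fun l => w (e l)) (fun l => hw _) fun j => by rw [hR j, ← e.sum_comp]
  exact ⟨m, fun l => by simpa using a (e.symm l), b⟩

end Vale.Agent.P283R.To
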