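import Vale.Agent.P283R.To.St
import Vale.Agent.P283R.To.Lin

/-!
# P283R, block TOR: reduction to the face which contains the weight in its relative interior
-/

open Finset

noncomputable section

namespace Vale.Agent.P283R.To

open Vale.Agent.P287D

/-- the face of the cone through `p`, with a monomial which cuts it out -/
theorem face_lat {ι : Type} [Fintype ι] {d : ℕ} (ρ : ι → Fin d → ℤ) (p : Fin d → ℤ) (w : ι → ℝ)
    (hw : ∀ l, 0 ≤ w l) (hp : ∀ j, (p j : ℝ) = ∑ l, w l * ρ l j) :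
    ∃ (m : Fin d → ℤ) (v : ι → ℝ), (∀ l, 0 ≤ m ⬝ᵥ ρ l) ∧ m ⬝ᵥ p ≤ 0 ∧
      (∀ l, m ⬝ᵥ ρ l = 0 → 0 < v l) ∧ (∀ l, m ⬝ᵥ ρ l ≠ 0 → v l = 0) ∧
      ∀ j, (p j : ℝ) = ∑ l, v l * ρ l j := by
  classical
  let A : Option ι → Fin d → ℤ := fun o => o.elim (-p) ρ
  obtain ⟨m, hm⟩ := farkas_int' A
    (fun o => ∀ x : Option ι → ℚ, (∀ i, 0 ≤ x i) → (∀ k, ∑ i, x i * A i k = 0) → x o = 0)
    fun x h1 h2 i hi => hi x h1 h2
  have e : ∀ l, ∑ k, A (some l) k * m k = m ⬝ᵥ ρ l := fun l =>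
    sum_congr rfl fun _ _ => mul_comm _ _
  have h0 : ∀ l, 0 ≤ m ⬝ᵥ ρ l := fun l => e l ▸ (hm (some l)).1
  have h1 : m ⬝ᵥ p ≤ 0 := by
    have := (hm none).1
    simp only [A, Option.elim_none, Pi.neg_apply, neg_mul, sum_neg_distrib] at this
    rw [dotProduct_comm]
    exact neg_nonneg.1 this
  have hx : ∀ l, ∃ x : Option ι → ℚ, (∀ i, 0 ≤ x i) ∧ (∀ k, ∑ i, x i * A i k = 0) ∧
      (m ⬝ᵥ ρ l = 0 → 0 < x (some l)) := fun l => by
    by_cases h : m ⬝ᵥ ρ l = 0
    · by_contra hc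
      have := (hm (some l)).2 fun x a b => by
        by_contra c
        exact hc ⟨x, a, b, fun _ => lt_of_le_of_ne (a _) (Ne.symm c)⟩
      rw [e, h] at this
      exact lt_irrefl _ this
    · exact ⟨0, fun _ => le_rfl, fun _ => by simp, fun c => absurd c h⟩
  choose x x0 x1 x2 using hx
  let X : Option ι → ℝ := fun o => ∑ l, (x l o : ℝ)
  have X0 : ∀ o, 0 ≤ X o := fun o => sum_nonneg fun l _ => by exact_mod_cast x0 l o
  have X1 : ∀ j, ∑ l, X (some l) * ρ l j = X none * p j := fun j => by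
    have : ∑ o, X o * A o j = 0 := by
      simp only [X, sum_mul]
      rw [sum_comm]
      exact sum_eq_zero fun l _ => by exact_mod_cast x1 l j
    rw [Fintype.sum_option] at this
    simp only [A, Option.elim_none, Option.elim_some, Pi.neg_apply, Int.cast_neg] at this
    linarith
  have t0 : 0 < 1 + X none := by linarith [X0 none]
  let v : ι → ℝ := fun l => (w l + X (some l)) / (1 + X none)
  have v0 : ∀ l, 0 ≤ v l := fun l => div_nonneg (add_nonneg (hw l) (X0 _)) t0.le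
  have v1 : ∀ j, (p j : ℝ) = ∑ l, v l * ρ l j := fun j => by
    simp only [v, div_mul_eq_mul_div, ← sum_div, add_mul, sum_add_distrib, X1, ← hp]
    field_simp
  refine ⟨m, v, h0, h1, fun l h => div_pos (add_pos_of_nonneg_of_pos (hw l) ?_) t0, fun l h => ?_,
    v1⟩
  · exact sum_pos' (fun i _ => by exact_mod_cast x0 i _) ⟨l, mem_univ l, by exact_mod_cast x2 l h⟩
  · have s : ∑ l, v l * ((m ⬝ᵥ ρ l : ℤ) : ℝ) = ((m ⬝ᵥ p : ℤ) : ℝ) := by
      simp only [dotProduct, Int.cast_sum, Int.cast_mul, v1, mul_sum]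
      rw [sum_comm]
      exact sum_congr rfl fun _ _ => sum_congr rfl fun _ _ => by ring
    have n : ∀ l ∈ univ, 0 ≤ v l * ((m ⬝ᵥ ρ l : ℤ) : ℝ) := fun l _ =>
      mul_nonneg (v0 l) (by exact_mod_cast h0 l)
    have z := (sum_eq_zero_iff_of_nonneg n).1
      (le_antisymm (s ▸ by exact_mod_cast h1) (sum_nonneg n)) l (mem_univ l)
    exact (mul_eq_zero.1 z).resolve_right (by exact_mod_cast h)

theorem sum_face {ι : Type} [Fintype ι] (q : ι → Prop) [DecidablePred q] (v a : ι → ℝ)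
    (h : ∀ l, ¬ q l → v l = 0) : ∑ l, v l * a l = ∑ l : {l // q l}, v l * a l := by
  rw [← Fintype.sum_subtype_add_sum_subtype q, add_eq_left]
  exact sum_eq_zero fun l _ => by rw [h l l.2, zero_mul]

/-- **FACE** -/
theorem face : FACE := by
  classical
  intro d N Q ε n hQ h K _ _ y ι _ ρ k g hD hH P w hN hw hR
  obtain ⟨m, v, m0, m1, v0, v1, v2⟩ := face_lat ρ (fun j => P.ord (y j)) w hw hR
  obtain ⟨a, a0, a1⟩ := h K y {l // m ⬝ᵥ ρ l = 0} (fun l => ρ l) (fun l => k l) g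
    ⟨hD.rat, hD.ne, fun s hs l => hD.eff s hs l⟩ (fun R u u0 u1 => by
      let u' : ι → ℝ := fun l => if h : m ⬝ᵥ ρ l = 0 then u ⟨l, h⟩ else 0
      have e : ∀ a : ι → ℝ, ∑ l, u' l * a l = ∑ l, u l * a l := fun a => by
        rw [sum_face (fun l => m ⬝ᵥ ρ l = 0) u' a fun l h => dif_neg h]
        exact sum_congr rfl fun l _ => by rw [show u' l = u l from dif_pos l.2]
      have := hH R u' (fun l => by
        by_cases h : m ⬝ᵥ ρ l = 0
        · rw [show u' l = u ⟨l, h⟩ from dif_pos h]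
          exact (u0 _).le
        · exact (show u' l = 0 from dif_neg h).ge) fun j => (u1 j).trans (e fun l => ρ l j).symm
      rwa [e fun l => k l] at this)
    P (fun l => v l) ⟨(Fintype.card_subtype_le _).trans hN, fun i => Pi.single i 1, fun s _ hs =>
      funext fun i => by simpa using hs i⟩ (fun l => v0 l l.2)
    fun j => (v2 j).trans (sum_face _ v (fun l => ρ l j) v1)
  let T : ℤ := ∑ l, |Q * (a ⬝ᵥ ρ l) + n * k l|
  have T0 : 0 ≤ T := sum_nonneg fun _ _ => abs_nonneg _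
  refine ⟨a + T • m, fun l => ?_, lt_of_le_of_lt ?_ a1⟩
  · rw [add_dotProduct, smul_dotProduct, smul_eq_mul]
    by_cases hl : m ⬝ᵥ ρ l = 0
    · rw [hl, mul_zero, add_zero]
      exact a0 ⟨l, hl⟩
    · have b : |Q * (a ⬝ᵥ ρ l) + n * k l| ≤ T :=
        single_le_sum (f := fun l => |Q * (a ⬝ᵥ ρ l) + n * k l|) (fun _ _ => abs_nonneg _)
          (mem_univ l)
      have c : 1 ≤ m ⬝ᵥ ρ l := lt_of_le_of_ne (m0 l) (Ne.symm hl)
      have q : (1 : ℤ) ≤ Q := by exact_mod_cast hQ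
      have := neg_abs_le (Q * (a ⬝ᵥ ρ l) + n * k l)
      have r : T ≤ T * (m ⬝ᵥ ρ l) := le_mul_of_one_le_right T0 c
      have s : T * (m ⬝ᵥ ρ l) ≤ Q * (T * (m ⬝ᵥ ρ l)) := le_mul_of_one_le_left (T0.trans r) q
      linarith
  · have b : ((T * (m ⬝ᵥ fun j => P.ord (y j)) : ℤ) : ℝ) ≤ 0 := by
      exact_mod_cast mul_nonpos_of_nonneg_of_nonpos T0 m1
    simp only [dotProduct, Int.cast_mul, Int.cast_sum, mul_sum] at b
    simp only [Pi.add_apply, Pi.smul_apply, smul_eq_mul, Int.cast_add, Int.cast_mul, add_mul,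
      sum_add_distrib, mul_assoc]
    linarith

end Vale.Agent.P283R.To
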