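import Vale.Agent.P287D.Gf.Res
import Vale.Agent.P287D.Cb.Row
import Vale.Agent.P287D.Gm.Unit

/-!
# P283R, block TOR: the geometric generic fibre over some of the coordinates
-/

open Set
open Vale.Agent.P297Z
open Vale.Agent.P287D

noncomputable section

namespace Vale.Agent.P283R.To

variable {K : Type} [Field K] [Algebra ℂ K] {r m n : ℕ}

theorem ff_cl (hK : FF K n) {s : Fin m → K} (hs : AlgebraicIndependent ℂ s) :
    FF (cl (IntermediateField.adjoin ℂ (range s))) m := by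
  set L₀ := IntermediateField.adjoin ℂ (range s)
  obtain ⟨k, -, hk⟩ := Gm.ff_sub hK (cl L₀)
  have h0 : FF L₀ m := Gm.Un.ff_adjoin hs
  let _ : Algebra L₀ (cl L₀) := inferInstanceAs (Algebra L₀ (algebraicClosure L₀ K))
  have : IsScalarTower ℂ L₀ (cl L₀) := IsScalarTower.of_algebraMap_eq fun _ => rfl
  have : Algebra.IsAlgebraic L₀ (cl L₀) :=
    inferInstanceAs (Algebra.IsAlgebraic L₀ (algebraicClosure L₀ K))
  have t := trdeg_add_eq ℂ L₀ (A := cl L₀)
  rw [h0.trdeg, hk.trdeg, trdeg_eq_zero (R := L₀), add_zero, Nat.cast_inj] at t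
  exact t ▸ hk

theorem hor_cl {s : Fin m → K} {Q : Pl K} (hm : ∀ i, s i ∈ Q.ring)
    (hi : AlgebraicIndependent ℂ fun i => Q.rd (s i)) :
    Hor (cl (IntermediateField.adjoin ℂ (range s))) Q := by
  set L₀ := IntermediateField.adjoin ℂ (range s)
  have pm : ∀ p : MvPolynomial (Fin m) ℂ, MvPolynomial.aeval s p ∈ Q.ring := fun p =>
    Cb.adj_mem (S := range s) (by rintro _ ⟨i, rfl⟩; exact hm i)
      (by rw [Algebra.adjoin_range_eq_range_aeval]; exact ⟨p, rfl⟩)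
  have h0 : ∀ a : L₀, algebraMap L₀ K a ∈ Q.ring := by
    rintro ⟨a, ha⟩
    obtain ⟨p, q, rfl⟩ := (IntermediateField.mem_adjoin_range_iff _ _ _).1 ha
    change _ / _ ∈ Q.ring
    by_cases q0 : q = 0
    · simp [q0, zero_mem]
    have k := Gf.ord_of_rd (pm q) (by
      rw [Cb.rd_aeval hm]
      exact fun h => q0 (algebraicIndependent_iff.1 hi q h))
    rw [div_eq_mul_inv]
    exact mul_mem (pm p) ((Pl.ord_nonneg_iff _ (inv_ne_zero k.1)).1 (by rw [Pl.ord_inv, k.2]; simp))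
  intro a ha
  obtain ⟨p, p1, p2⟩ := (mem_algebraicClosure_iff.1 ha : IsAlgebraic L₀ a).isIntegral
  exact Gf.int_mem Q.ring h0 p1 p2

/-- the geometric generic fibre of the coordinates `s` -/
structure Fib {K' : Type} [Field K'] [Algebra ℂ K'] (z : Fin r → K) (s : Fin m → K) (φ : K →+* K')
    (j : ℂ →+* ℂ) (σ : Fin m → ℂ) : Prop where
  ff : FF K' r
  con : ∀ c, φ (algebraMap ℂ K c) = algebraMap ℂ K' (j c)
  val : ∀ i, φ (s i) = algebraMap ℂ K' (σ i)
  ind : AlgebraicIndependent ℂ fun i => φ (z i)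
  gen : Subfield.closure (range φ ∪ range (algebraMap ℂ K')) = ⊤
  below : ∀ P : Pl K', ∃ Q, Lies φ P Q
  ord : ∀ P Q, Lies φ P Q → ∀ f, P.ord (φ f) = Q.ord f
  kap : ∀ P Q, Lies φ P Q → kap (fun i => φ (z i)) P = kap (Fin.append z s) Q
  above : ∀ Q : Pl K, (∀ i, s i ∈ Q.ring) → AlgebraicIndependent ℂ (fun i => Q.rd (s i)) →
    ∃ P, Lies φ P Q

theorem exists_fib (hK : FF K (r + m)) {z : Fin r → K} {s : Fin m → K}
    (hi : AlgebraicIndependent ℂ (Fin.append z s)) :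
    ∃ (K' : Type) (_ : Field K') (_ : Algebra ℂ K') (φ : K →+* K') (j : ℂ →+* ℂ) (σ : Fin m → ℂ),
      Fib z s φ j σ := by
  have hs : AlgebraicIndependent ℂ s :=
    (Cb.ind_append.1 hi).comp (Sum.inr : Fin m → Fin r ⊕ Fin m) Sum.inr_injective
  set L := cl (IntermediateField.adjoin ℂ (range s))
  have hL : FF L m := ff_cl hK hs
  obtain ⟨K', _, _, φ, h⟩ := gen_ex _ K hK L (Gf.cld_cl _)
  have hK' := h.toExt.ff hL hK
  have sm : ∀ i, s i ∈ L := fun i => (algebraicClosure _ K).algebraMap_mem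
    (⟨s i, IntermediateField.subset_adjoin _ _ ⟨i, rfl⟩⟩ : IntermediateField.adjoin ℂ (range s))
  have a := Cb.alg_of_gf h
  have hc : ∀ c, φ (algebraMap ℂ K c) ∈ range (algebraMap ℂ K') :=
    fun c => h.cst _ (L.algebraMap_mem c)
  obtain ⟨D, hD⟩ := Cb.fr_of hK hi
  refine ⟨K', inferInstance, inferInstance, φ, h.toExt.j.comp (algebraMap ℂ L),
    fun i => h.toExt.j ⟨s i, sm i⟩, hK', fun c => (h.toExt.j_spec (algebraMap ℂ L c)).symm,
    fun i => (h.toExt.j_spec ⟨s i, sm i⟩).symm,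
    Cb.ind_map hc (fun j => h.cst _ (sm j)) hD hK' a.alc, h.gen, h.below hK',
    fun P Q l => h.ord_eq l, fun P Q l => ?_, fun Q q1 q2 => h.above hL (hor_cl q1 q2)⟩
  have := Cb.rel_eq hK hK' hc a.alc l (a.sp l) (fun j => h.cst _ (sm j)) hi
  rw [h.e_one l] at this
  push_cast at this
  linarith

end Vale.Agent.P283R.To
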