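import Vale.Agent.P283R.To.St
import Vale.Agent.P283R.To.Gf0

/-!
# P283R, block TOR: the row GFS
-/

open Set
open Vale.Agent.P297Z
open Vale.Agent.P287D

noncomputable section

namespace Vale.Agent.P283R.To

namespace Gfs

variable {K K' : Type} [Field K] [Algebra ℂ K] [Field K'] [Algebra ℂ K'] {d : ℕ}

theorem lau_lin (y : Fin d → K) (g : (Fin d → ℤ) →₀ ℂ) :
    lau y g = Finsupp.linearCombination ℂ (mon y) g := rfl

theorem aeval_mon (y : Fin d → K) {m : Fin d → ℤ} (h : ∀ j, 0 ≤ m j) (c : ℂ) :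
    MvPolynomial.aeval y (MvPolynomial.monomial
      (Finsupp.equivFunOnFinite.symm fun j => (m j).toNat) c) = c • mon y m := by
  rw [MvPolynomial.aeval_monomial, Finsupp.prod_fintype _ _ (by simp), Algebra.smul_def, mon]
  congr 1
  refine Finset.prod_congr rfl fun j _ => ?_
  rw [← zpow_natCast]
  simp [h j]

/-- Laurent monomials are linearly independent -/
theorem lau_ne {y : Fin d → K} (hy : AlgebraicIndependent ℂ y) {g : (Fin d → ℤ) →₀ ℂ}
    (hg : g ≠ 0) : lau y g ≠ 0 := by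
  classical
  let a : Fin d → ℤ := fun j => ∑ m ∈ g.support, |m j|
  have ha : ∀ m ∈ g.support, ∀ j, 0 ≤ (m + a) j := fun m hm j => by
    have := Finset.single_le_sum (f := fun m : Fin d → ℤ => |m j|) (fun _ _ => abs_nonneg _) hm
    have := neg_abs_le (m j)
    simp only [a, Pi.add_apply]
    omega
  let e : (Fin d → ℤ) → Fin d →₀ ℕ := fun m =>
    Finsupp.equivFunOnFinite.symm fun j => ((m + a) j).toNat
  have e1 : MvPolynomial.aeval y (∑ m ∈ g.support, MvPolynomial.monomial (e m) (g m)) =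
      lau y g * mon y a := by
    rw [map_sum, lau, Finsupp.sum, Finset.sum_mul]
    refine Finset.sum_congr rfl fun m hm => ?_
    rw [aeval_mon y (ha m hm), mon_add hy.ne_zero, smul_mul_assoc]
  intro h0
  rw [h0, zero_mul] at e1
  obtain ⟨m, hm⟩ := Finsupp.support_nonempty_iff.2 hg
  have := congrArg (MvPolynomial.coeff (e m)) (algebraicIndependent_iff.1 hy _ e1)
  rw [MvPolynomial.coeff_sum, Finset.sum_eq_single m, MvPolynomial.coeff_monomial,
    if_pos rfl] at this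
  · exact Finsupp.mem_support_iff.1 hm this
  · intro m' hm' ne
    rw [MvPolynomial.coeff_monomial, if_neg]
    intro h
    refine ne (funext fun j => ?_)
    have k := DFunLike.congr_fun h j
    have k1 := ha m hm j
    have k2 := ha m' hm' j
    simp only [e, Finsupp.equivFunOnFinite_symm_apply_apply, Pi.add_apply] at k k1 k2
    omega
  · exact fun h => (h hm).elim

theorem append_eq {α : Type} (y : Fin (d + 1) → α) :
    Fin.append (Fin.tail y) (fun _ : Fin 1 => y 0) = y ∘ finRotate (d + 1) := by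
  rw [Fin.append_right_eq_snoc, Fin.snoc_eq_cons_rotate, Fin.cons_self_tail]
  rfl

theorem dot {ρ : Fin (d + 1) → ℤ} (h : ρ 0 = 0) (m : Fin (d + 1) → ℤ) :
    m ⬝ᵥ ρ = Fin.tail m ⬝ᵥ Fin.tail ρ := by
  simp [dotProduct, Fin.sum_univ_succ, h, Fin.tail]

variable {y : Fin (d + 1) → K} {φ : K →+* K'} {j : ℂ →+* ℂ} {σ : Fin 1 → ℂ}

/-- the Laurent polynomial on the fibre -/
def dn (j : ℂ →+* ℂ) (a : ℂ) (g : (Fin (d + 1) → ℤ) →₀ ℂ) : (Fin d → ℤ) →₀ ℂ :=
  g.sum fun m c => Finsupp.single (Fin.tail m) (j c * a ^ m 0)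

theorem supp_dn {a : ℂ} {g : (Fin (d + 1) → ℤ) →₀ ℂ} {m : Fin d → ℤ}
    (h : m ∈ (dn j a g).support) : ∃ m' ∈ g.support, Fin.tail m' = m := by
  classical
  obtain ⟨m', h1, h2⟩ := Finset.mem_biUnion.1 (Finsupp.support_sum h)
  exact ⟨m', h1, (Finset.mem_singleton.1 (Finsupp.support_single_subset h2)).symm⟩

variable (h : Fib (Fin.tail y) (fun _ : Fin 1 => y 0) φ j σ)
include h

theorem lau_dn (g : (Fin (d + 1) → ℤ) →₀ ℂ) :
    lau (fun i => φ (Fin.tail y i)) (dn j (σ 0) g) = φ (lau y g) := by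
  rw [lau_lin, dn, Finsupp.sum, map_sum, lau, Finsupp.sum, map_sum]
  refine Finset.sum_congr rfl fun m _ => ?_
  rw [Finsupp.linearCombination_single, Algebra.smul_def, Algebra.smul_def, map_mul, map_mul,
    h.con, map_mon, mon, mon, Fin.prod_univ_succ, h.val 0, map_zpow₀, mul_assoc]
  rfl

theorem rat (hy : D.Rat y) : D.Rat fun i => φ (Fin.tail y i) := by
  refine ⟨h.ind, fun x => ?_⟩
  set T := IntermediateField.adjoin ℂ (range fun i => φ (Fin.tail y i))
  have k : ∀ a, φ a ∈ T := fun a => by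
    induction hy.gen a using IntermediateField.adjoin_induction with
    | mem x hx =>
      obtain ⟨i, rfl⟩ := hx
      refine Fin.cases ?_ (fun i => IntermediateField.subset_adjoin _ _ ⟨i, rfl⟩) i
      rw [h.val 0]
      exact T.algebraMap_mem _
    | algebraMap c => rw [h.con]; exact T.algebraMap_mem _
    | add a b _ _ h1 h2 => rw [map_add]; exact add_mem h1 h2
    | inv a _ h1 => rw [map_inv₀]; exact inv_mem h1
    | mul a b _ _ h1 h2 => rw [map_mul]; exact mul_mem h1 h2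
  have le : Subfield.closure (range φ ∪ range (algebraMap ℂ K')) ≤ T.toSubfield :=
    Subfield.closure_le.2 (by
      rintro _ (⟨a, rfl⟩ | ⟨c, rfl⟩)
      exacts [k a, T.algebraMap_mem c])
  exact le (h.gen ▸ Subfield.mem_top x)

variable {P : Pl K'} {R : Pl K} (l : Lies φ P R)
include l

theorem ord0 : R.ord (y 0) = 0 := by
  rw [← h.ord P R l, h.val 0]
  exact P.ord_const _

theorem al_eq (hy : D.Rat y) (Q : ℕ) (g : (Fin (d + 1) → ℤ) →₀ ℂ) :
    al Q (fun i => φ (Fin.tail y i)) (dn j (σ 0) g) P = al Q y g R := by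
  rw [al, al, lau_dn h, h.ord P R l, la, la, h.kap P R l, append_eq, Cb.kap_perm hy.ff,
    Fin.sum_univ_succ, ord0 h l]
  simp only [h.ord P R l, Fin.tail, Int.cast_zero, zero_add]

theorem rp_iff {ι : Type} [Fintype ι] {ρ : ι → Fin (d + 1) → ℤ} (h0 : ∀ l, ρ l 0 = 0)
    (w : ι → ℝ) : Rp (fun i => φ (Fin.tail y i)) (fun l => Fin.tail (ρ l)) P w ↔ Rp y ρ R w := by
  simp only [Rp, h.ord P R l, Fin.forall_fin_succ, ord0 h l, h0, Fin.tail]
  simp

end Gfs

open Gfs in
theorem gfs : GFS := by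
  intro d N r Q ε n H K _ _ y ι _ ρ k g dt hy R w ⟨c1, c2, c3, c4⟩ hw rp
  obtain ⟨K', _, _, φ, j, σ, h⟩ := exists_fib (r := d) (m := 1) dt.rat.ff (z := Fin.tail y)
    (s := fun _ => y 0) (by rw [append_eq]; exact dt.rat.ind.comp _ (finRotate _).injective)
  have o : R.ord (y 0) = 0 := by simpa [c2] using rp 0
  obtain ⟨P, l⟩ := h.above R
    (fun _ => (Pl.ord_nonneg_iff _ (dt.rat.ind.ne_zero 0)).1 o.ge)
    (algebraicIndependent_unique_type_iff.2 fun a => c4 (let ⟨c, e⟩ := Gf.mem_range a; ⟨c, e.symm⟩))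
  obtain ⟨m, m1, m2⟩ := H K' (fun i => φ (Fin.tail y i)) ι (fun l => Fin.tail (ρ l)) k
    (dn j (σ 0) g) ⟨rat h dt.rat, fun e => lau_ne dt.rat.ind dt.ne (φ.injective (by
      rw [← lau_dn h, e, map_zero]; simp [lau])), fun m hm l => by
      obtain ⟨m', h1, rfl⟩ := supp_dn hm
      rw [← dot (c2 l)]
      exact dt.eff m' h1 l⟩
    (fun P' w' p1 p2 => by
      obtain ⟨R', l'⟩ := h.below P'
      rw [al_eq h l' dt.rat]
      exact hy R' w' p1 ((rp_iff h l' c2 w').1 p2)) P w ⟨c1, c3⟩ hw ((rp_iff h l c2 w).2 rp)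
  refine ⟨Fin.cons 0 m, fun i => by rw [dot (c2 i), Fin.tail_cons]; exact m1 i, ?_⟩
  rw [al_eq h l dt.rat] at m2
  simpa [Fin.sum_univ_succ, h.ord P R l, Fin.tail] using m2

end Vale.Agent.P283R.To
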