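import Vale.Agent.P283R.To.St
import Vale.Agent.P283R.He.Car

/-!
# P283R, block TOR: any number of rays
-/

namespace Vale.Agent.P283R.To

open Finset Vale.Agent.P287D

/-- extension by zero -/
theorem sum_ext {ι : Type} [Fintype ι] [DecidableEq ι] (t : Finset ι) (w : t → ℝ) (f : ι → ℝ) :
    ∑ l, (if h : l ∈ t then w ⟨l, h⟩ else 0) * f l = ∑ l : t, w l * f l := by
  rw [← sum_subset (subset_univ t) fun l _ hl => by simp [hl], ← sum_coe_sort]
  exact sum_congr rfl fun l _ => by simp

theorem hel : HEL := fun d => ⟨2 ^ d + d, fun Q ε n _ h K _ _ y ι _ ρ k g hD hH P w _ hw hR => by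
  classical
  obtain ⟨t₀, v, a1, a2, a3, -, a5⟩ := He.cara (fun l j => (ρ l j : ℝ)) w hw
  obtain ⟨m, h1, h2⟩ := He.helly_rays (univ : Finset ι) (fun l j => (Q : ℝ) * ρ l j)
    (fun l => -((n : ℝ) * k l)) (fun j => (P.ord (y j) : ℝ)) (n * al Q y g P) fun t _ ht => by
      obtain ⟨m, h1, h2⟩ := h K y (t ∪ t₀ : Finset ι) (fun l => ρ l) (fun l => k l) g
        ⟨hD.rat, hD.ne, fun m hm l => hD.eff m hm l⟩
        (fun P' w' hw' hR' => by
          have := hH P' (fun l => if h : l ∈ t ∪ t₀ then w' ⟨l, h⟩ else 0)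
            (fun l => by
              by_cases hl : l ∈ t ∪ t₀
              · simpa only [dif_pos hl] using hw' ⟨l, hl⟩
              · simp only [dif_neg hl, le_refl])
            fun j => (hR' j).trans (sum_ext _ w' fun l => (ρ l j : ℝ)).symm
          rwa [sum_ext _ w' fun l => (k l : ℝ)] at this)
        P (fun l => v l)
        ((Fintype.card_coe _).trans_le ((card_union_le _ _).trans (by omega))) (fun l => a2 l)
        fun j => by
          rw [hR j, ← a5 j, sum_coe_sort _ fun l => v l * (ρ l j : ℝ)]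
          exact (sum_subset (subset_univ _) fun l _ hl => by
            rw [a3 l fun h' => hl (mem_union_right _ h'), zero_mul]).symm
      refine ⟨m, fun l hl => ?_, h2⟩
      have h3 : (0 : ℝ) ≤ ((Q * (m ⬝ᵥ ρ l) + n * k l : ℤ) : ℝ) := by
        exact_mod_cast h1 ⟨l, mem_union_left _ hl⟩
      simp only [dotProduct] at h3
      push_cast at h3
      rw [mul_sum] at h3
      have h4 : ∑ j, (m j : ℝ) * (Q * ρ l j) = ∑ j, (Q : ℝ) * (m j * ρ l j) :=
        sum_congr rfl fun j _ => by ring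
      linarith
  refine ⟨m, fun l => ?_, h2⟩
  have h3 := h1 l (mem_univ l)
  have h4 : ∑ j, (m j : ℝ) * (Q * ρ l j) = Q * ∑ j, (m j : ℝ) * ρ l j := by
    rw [mul_sum]; exact sum_congr rfl fun j _ => by ring
  have h5 : (0 : ℝ) ≤ ((Q * (m ⬝ᵥ ρ l) + n * k l : ℤ) : ℝ) := by
    simp only [dotProduct]
    push_cast
    linarith
  exact_mod_cast h5⟩

end Vale.Agent.P283R.To
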