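import Vale.Agent.P283R.To.Dh
import Vale.Agent.P283R.To.Lin

/-!
# P283R, block TOR: the case without invariant monomials
-/

open Filter Finset
open Vale.Agent.P283.H647 (limLat ultra_finite)

namespace Vale.Agent.P283R.To

theorem hz1 : HZ := fun N Q ε hQ hε => by
  classical
  by_contra hc
  push Not at hc
  choose M b hb h0 h1 w s hw hk hn using fun i : ℕ =>
    hc (Q * i.factorial) (Nat.mul_pos hQ i.factorial_pos) (Dvd.intro _ rfl)
  let U := hyperfilter ℕ
  have q0 : (0 : ℝ) < Q := by exact_mod_cast hQ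
  obtain ⟨D, z, u, -, z1, z2, z3⟩ := gt (limLat U M) 0 fun _ _ => le_rfl
  have z0 : ∀ j, (1 : ℝ) ≤ z j := fun j => by
    obtain ⟨i, hi⟩ := (show ∀ᶠ i in U, (fun j => (u j : ℤ)) ∈ M i from z2).exists
    have := congrFun (h0 i _ hi fun _ => Int.natCast_nonneg _) j
    have e : z j ≠ 0 := fun e => by
      have := (z3 j).2 e
      simp only [Pi.zero_apply] at *
      omega
    exact_mod_cast Nat.pos_of_ne_zero e
  rcases cases U M with h | h
  · have S0 : 0 ≤ ∑ j, ((z j : ℝ) + 1) := sum_nonneg fun _ _ => by positivity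
    let t := ε / (∑ j, ((z j : ℝ) + 1) + 1)
    have t0 : 0 < t := div_pos hε (by linarith)
    obtain ⟨i, y, y1, -, y2, y3⟩ := (avoid U M h 0 (fun j => t * z j) (fun m hm => by
      have := z1 ⟨m, hm⟩
      simp only [AddMonoidHom.zero_apply, mul_zero] at this
      have e : ∑ j, (m j : ℝ) * z j = 0 := by exact_mod_cast this
      simp only [mul_assoc, ← mul_sum, mul_comm (z _ : ℝ), e, mul_zero]) t0).exists
    have a := h1 i y (fun j => by
      have := (abs_lt.1 (y2 j)).1
      have := mul_le_mul_of_nonneg_left (z0 j) t0.le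
      linarith) y1 (by simpa using y3)
    have c : ∑ j, y j ≤ ∑ j, t * (z j + 1) := sum_le_sum fun j _ => by
      have := (abs_lt.1 (y2 j)).2
      linarith
    have e : t * (∑ j, ((z j : ℝ) + 1) + 1) = ε := div_mul_cancel₀ _ (by linarith)
    rw [← mul_sum] at c
    linarith
  · obtain ⟨i₀, hi⟩ := (ultra_finite U (fun i x => b i = x) {x | ∀ j, x j ≤ Q * N}
      (Set.Finite.pi' fun _ => Set.finite_le_nat _)).exists
    obtain ⟨n, V, n0, hV, H⟩ := Lp.vert (limLat U M) fun j => (Q : ℤ) - b i₀ j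
    have e1 : ∀ᶠ i in U, n ≤ i := Nat.hyperfilter_le_atTop (eventually_ge_atTop n)
    obtain ⟨i, ⟨a1, a2⟩, a3, a4⟩ := ((h.and ((hi _ (hb i₀)).1 rfl)).and
      ((V.eventually_all.2 hV).and e1)).exists
    obtain ⟨r, hr⟩ := Nat.dvd_factorial n0 a4
    obtain ⟨ζ, b1, b2, b3⟩ := H (w i) (Q * s i) (hw i) fun c hc => by
      have r0 : (0 : ℝ) < r := by
        exact_mod_cast Nat.pos_of_mul_pos_left (hr ▸ i.factorial_pos)
      have := hn i (fun j => r * c j) (Lp.mem_of_eq ((M i).zsmul_mem (a3 c hc) r) fun j => by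
        rw [Nat.mul_div_cancel_left _ hQ, hr, a2]
        simp only [Pi.smul_apply, smul_eq_mul]
        push_cast
        ring)
      rw [hr] at this
      push_cast at this
      simp only [mul_assoc, ← mul_sum] at this
      exact le_of_mul_le_mul_left (by linarith) r0
    have c := hk i ζ (a1 ζ b1) b2
    have e : ∑ j, (1 - (b i j : ℝ) / Q) * ζ j =
        (∑ j, ζ j * (((Q : ℤ) - b i₀ j : ℤ) : ℝ)) / Q := by
      rw [sum_div, a2]
      refine sum_congr rfl fun j _ => ?_
      push_cast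
      field_simp
    rw [e, ← neg_lt_iff_pos_add', lt_div_iff₀ q0] at c
    linarith

/-- **D2** -/
theorem d2' : D2 := d2_of hz1

end Vale.Agent.P283R.To
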