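import Vale.Agent.P283R.To.Hz1
import Vale.Agent.P283R.To.Face
import Vale.Agent.P283R.To.Hel
import Vale.Agent.P283R.To.Gfs
import Vale.Agent.P283R.To.D1
import Vale.Agent.P283R.To.Td
import Vale.Agent.P283R.To.Cox

/-!
# P283R, block TOR: the toric statement from the core statement
-/

namespace Vale.Agent.P283R.To

/-- **the toric statement follows from TT** -/
theorem qt_tt (h : Co.TT) : Qt :=
  qt_of hel face bas gfs trs (d1_of (td_of h) emb up_row down_row) d2'

end Vale.Agent.P283R.To
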