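import Vale.Agent.P283R.D.Sem
import Vale.Agent.P283R.To.Gs

/-!
# P283R, block TOR: toric varieties with an arbitrary boundary, the statements

`K = ℂ(y)` is the function field of the torus, `ρ l` are the rays, `B = div g / Q + toric`, and
`-(K + B) ∼ ∑ (k l / Q) D_l`.
-/

open Set

noncomputable section

namespace Vale.Agent.P283R.To

open Vale.Agent.P287D

section defs

variable {K : Type} [Field K] [Algebra ℂ K] {d : ℕ} {ι : Type} [Fintype ι]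

/-- Laurent polynomials -/
def lau (y : Fin d → K) (g : (Fin d → ℤ) →₀ ℂ) : K := g.sum fun m c => c • mon y m

/-- the log discrepancy for the invariant form of the torus and the boundary `div g / Q` -/
def al (Q : ℕ) (y : Fin d → K) (g : (Fin d → ℤ) →₀ ℂ) (P : Pl K) : ℝ :=
  la y P - (P.ord (lau y g) : ℝ) / Q

/-- the weight of `P` is the combination of the rays with the coefficients `w` -/
def Rp (y : Fin d → K) (ρ : ι → Fin d → ℤ) (P : Pl K) (w : ι → ℝ) : Prop :=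
  ∀ j, (P.ord (y j) : ℝ) = ∑ l, w l * ρ l j

/-- the data; the boundary is effective along the rays -/
structure Dt (Q : ℕ) (y : Fin d → K) (ρ : ι → Fin d → ℤ) (k : ι → ℤ) (g : (Fin d → ℤ) →₀ ℂ) :
    Prop where
  rat : D.Rat y
  ne : g ≠ 0
  eff : ∀ m ∈ g.support, ∀ l, k l ≤ Q + m ⬝ᵥ ρ l

/-- `ε`-lc and nef, for the coefficient vectors of the class `s` -/
def Hy (s : ℝ → Prop) (Q : ℕ) (ε : ℝ) (y : Fin d → K) (ρ : ι → Fin d → ℤ) (k : ι → ℤ)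
    (g : (Fin d → ℤ) →₀ ℂ) : Prop :=
  ∀ P w, (∀ l, s (w l)) → Rp y ρ P w → ε ≤ al Q y g P + (∑ l, w l * k l) / Q

/-- a monomial section of `-n (K + B)` which is klt at `P` -/
def Cn (Q n : ℕ) (y : Fin d → K) (ρ : ι → Fin d → ℤ) (k : ι → ℤ) (g : (Fin d → ℤ) →₀ ℂ)
    (P : Pl K) : Prop :=
  ∃ m : Fin d → ℤ, (∀ l, 0 ≤ Q * (m ⬝ᵥ ρ l) + n * k l) ∧
    ∑ j, (m j : ℝ) * P.ord (y j) < n * al Q y g P

/-- the rays and `r` more vectors span -/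
def Sp (r : ℕ) (ρ : ι → Fin d → ℤ) : Prop := ∃ v : Fin r → Fin d → ℤ,
  ∀ m : Fin d → ℤ, (∀ l, m ⬝ᵥ ρ l = 0) → (∀ i, m ⬝ᵥ v i = 0) → m = 0

/-- there is a nonconstant invariant monomial -/
def Iv (ρ : ι → Fin d → ℤ) : Prop := ∃ m : Fin d → ℤ, m ≠ 0 ∧ ∀ l, 0 ≤ m ⬝ᵥ ρ l

end defs

/-- a class of families of rays, coordinates and places -/
abbrev Cl (d : ℕ) := ∀ (K : Type) [Field K] [Algebra ℂ K] (ι : Type) [Fintype ι],
  (ι → Fin d → ℤ) → (Fin d → K) → Pl K → Prop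

/-- the statement for the coefficient vectors of the class `s` and the data of the class `c` -/
def At (s : ℝ → Prop) (d : ℕ) (c : Cl d) (Q : ℕ) (ε : ℝ) (n : ℕ) : Prop :=
  ∀ (K : Type) [Field K] [Algebra ℂ K] (y : Fin d → K) (ι : Type) [Fintype ι]
    (ρ : ι → Fin d → ℤ) (k : ι → ℤ) (g : (Fin d → ℤ) →₀ ℂ), Dt Q y ρ k g → Hy s Q ε y ρ k g →
    ∀ P w, c K ι ρ y P → (∀ l, s (w l)) → Rp y ρ P w → Cn Q n y ρ k g P

/-- **the target**: any number of rays -/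
def Qt : Prop := ∀ d Q : ℕ, 1 ≤ Q → ∀ ε : ℝ, 0 < ε →
  ∃ n, 1 ≤ n ∧ At (0 ≤ ·) d (fun _ _ _ _ _ _ _ _ => True) Q ε n

/-- at most `N` rays -/
def NAt (d N : ℕ) := At (0 ≤ ·) d fun _ _ _ ι _ _ _ _ => Fintype.card ι ≤ N

/-- positive coefficients, corank at most `r` -/
def PAt (d N r : ℕ) := At (0 < ·) d fun _ _ _ ι _ ρ _ _ => Fintype.card ι ≤ N ∧ Sp r ρ

/-- the first coordinate is a unit; `t` decides on its residue -/
def ZAt (t : Prop → Prop) (d N r : ℕ) := At (0 < ·) (d + 1) fun _ _ _ ι _ ρ y P =>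
  Fintype.card ι ≤ N ∧ (∀ l, ρ l 0 = 0) ∧ Sp r (fun l => Fin.tail (ρ l)) ∧
    t (∃ c : ℂ, P.rd (y 0) = algebraMap ℂ P.κ c)

/-- the rays span; `t` decides on the invariant monomials -/
def CAt (t : Prop → Prop) (d N : ℕ) := At (0 < ·) d fun _ _ _ ι _ ρ _ _ =>
  Fintype.card ι = N ∧ Sp 0 ρ ∧ t (Iv ρ)

/-- **TT + D** for a polynomial -/
def TD : Prop := ∀ N Q : ℕ, 1 ≤ N → 1 ≤ Q → ∀ ε : ℝ, 0 < ε → ∃ n : ℕ, 1 ≤ n ∧ Q ∣ n ∧
  ∀ (K : Type) [Field K] [Algebra ℂ K] (z : Fin N → K) (M : AddSubgroup (Fin N → ℤ))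
    (b : Fin N → ℤ) (f : MvPolynomial (Fin N) ℂ), D.Rat z → M.FiniteIndex → f ≠ 0 →
    (∀ s ∈ f.support, (fun j => (s j : ℤ) - b j) ∈ M) →
    (∀ P : Pl K, (∀ j, 0 < P.ord (z j)) → ∀ e : ℕ, (∀ p : MvPolynomial (Fin N) ℂ, p ≠ 0 →
      (∀ s ∈ p.support, (fun j => (s j : ℤ)) ∈ M) → (e : ℤ) ∣ P.ord (MvPolynomial.aeval z p)) →
      ε * e ≤ 1 + kap z P - (P.ord (MvPolynomial.aeval z f) : ℝ) / Q) →
    ∀ P : Pl K, (∀ j, 0 < P.ord (z j)) → ∃ c : Fin N → ℕ,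
      (fun j => (c j : ℤ) - n + (n / Q : ℕ) * b j) ∈ M ∧
      (P.ord (MvPolynomial.aeval z f) : ℝ) / Q + (∑ j, (c j : ℝ) * P.ord (z j)) / n < 1 + kap z P

/-- the Cox field -/
def EMB : Prop := ∀ (d N : ℕ) (K : Type) [Field K] [Algebra ℂ K] (y : Fin d → K)
  (ρ : Fin N → Fin d → ℤ), D.Rat y → Sp 0 ρ → ∃ (F : Type) (_ : Field F) (_ : Algebra ℂ F)
    (z : Fin N → F) (φ : K →ₐ[ℂ] F), D.Rat z ∧ ∀ j, φ (y j) = mon z fun l => ρ l j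

/-- a property of the Cox field -/
def ForC (p : ∀ (d N : ℕ) (K F : Type) [Field K] [Algebra ℂ K] [Field F] [Algebra ℂ F],
    (Fin d → K) → (Fin N → F) → (Fin N → Fin d → ℤ) → (K →ₐ[ℂ] F) → Prop) : Prop :=
  ∀ (d N : ℕ) (K F : Type) [Field K] [Algebra ℂ K] [Field F] [Algebra ℂ F] (y : Fin d → K)
    (z : Fin N → F) (ρ : Fin N → Fin d → ℤ) (φ : K →ₐ[ℂ] F), D.Rat y → D.Rat z →
    (∀ j, φ (y j) = mon z fun l => ρ l j) → p d N K F y z ρ φ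

/-- Gauss lifts -/
def UP : Prop := ForC fun _ N K F _ _ _ _ y z ρ φ => ∀ (P : Pl K) (w : Fin N → ℚ),
  Rp y ρ P (fun l => w l) → ∃ (u : Pl F) (e : ℕ), 0 < e ∧
    (∀ a, a ≠ 0 → u.ord (φ a) = e * P.ord a) ∧ (∀ l, (u.ord (z l) : ℚ) = e * w l) ∧
    la z u ≤ e * la y P

/-- restrictions -/
def DOWN : Prop := ForC fun _ _ K F _ _ _ _ y z _ φ => ∀ u : Pl F, (∃ a, a ≠ 0 ∧ u.ord (φ a) ≠ 0) →
  ∃ (P : Pl K) (e : ℕ), 0 < e ∧ (∀ a, a ≠ 0 → u.ord (φ a) = e * P.ord a) ∧ e * la y P ≤ la z u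

/-- monomial places -/
def MON : Prop := ∀ (d : ℕ) (K : Type) [Field K] [Algebra ℂ K] (y : Fin d → K) (v : Fin d → ℤ),
  D.Rat y → v ≠ 0 → ∃ (P : Pl K) (e : ℕ), 0 < e ∧ (∀ j, v j = e * P.ord (y j)) ∧ la y P ≤ 0

/-- integer Helly -/
def HEL : Prop := ∀ d, ∃ N, ∀ Q ε n, 1 ≤ Q → NAt d N Q ε n →
  At (0 ≤ ·) d (fun _ _ _ _ _ _ _ _ => True) Q ε n

/-- the rays outside the face are repaired by an invariant monomial of order zero -/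
def FACE : Prop := ∀ d N Q ε n, 1 ≤ Q → PAt d N d Q ε n → NAt d N Q ε n

/-- change of the basis of the lattice -/
def BAS : Prop := ∀ d N r Q ε n, PAt (d + 1) N r Q ε n → ZAt (fun _ => True) d N r Q ε n →
  PAt (d + 1) N (r + 1) Q ε n

/-- geometric generic fibre -/
def GFS : Prop := ∀ d N r Q ε n, PAt d N r Q ε n → ZAt Not d N r Q ε n

/-- translation -/
def TRS : Prop := ∀ d N r Q ε n, 1 ≤ Q → PAt (d + 1) (N + 1) r Q ε n → ZAt id d N r Q ε n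

/-- the case with an invariant monomial -/
def D1 : Prop := ∀ d N Q : ℕ, 1 ≤ Q → ∀ ε : ℝ, 0 < ε → ∃ n, 1 ≤ n ∧ CAt id d N Q ε n

/-- the case without invariant monomials -/
def D2 : Prop := ∀ d N Q : ℕ, 1 ≤ Q → ∀ ε : ℝ, 0 < ε → ∃ n, 1 ≤ n ∧ CAt Not d N Q ε n

section

variable {K : Type} [Field K] [Algebra ℂ K] {d : ℕ} {ι : Type} [Fintype ι] {Q n : ℕ}
  {y : Fin d → K} {ρ : ι → Fin d → ℤ} {k : ι → ℤ} {g : (Fin d → ℤ) →₀ ℂ} {P : Pl K}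

theorem Cn.mul (h : Cn Q n y ρ k g P) {r : ℕ} (hr : 1 ≤ r) : Cn Q (r * n) y ρ k g P := by
  obtain ⟨m, h1, h2⟩ := h
  refine ⟨(r : ℤ) • m, fun l => ?_, ?_⟩
  · have := mul_nonneg (Int.natCast_nonneg r) (h1 l)
    rw [smul_dotProduct, smul_eq_mul]; push_cast; linarith
  · have := mul_lt_mul_of_pos_left h2 (show (0 : ℝ) < r by exact_mod_cast hr)
    rw [Finset.mul_sum] at this
    simp only [Pi.smul_apply, smul_eq_mul]; push_cast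
    simpa only [mul_assoc] using this

end

theorem At.of_dvd {s : ℝ → Prop} {d : ℕ} {c : Cl d} {Q n n' : ℕ} {ε : ℝ} (h : At s d c Q ε n)
    (hn : n ∣ n') (h1 : 1 ≤ n') : At s d c Q ε n' := by
  obtain ⟨r, rfl⟩ := hn
  intro K _ _ y ι _ ρ k g a b P w e f i
  rw [mul_comm]
  exact (h K y ι ρ k g a b P w e f i).mul (Nat.pos_of_mul_pos_left h1)

theorem At.mono {s : ℝ → Prop} {d : ℕ} {c c' : Cl d} {Q n : ℕ} {ε : ℝ} (h : At s d c Q ε n)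
    (hc : ∀ (K : Type) [Field K] [Algebra ℂ K] (ι : Type) [Fintype ι] ρ y P,
      c' K ι ρ y P → c K ι ρ y P) : At s d c' Q ε n :=
  fun K _ _ y ι _ ρ k g a b P w e => h K y ι ρ k g a b P w (hc K ι ρ y P e)

theorem pat_zero (h1 : D1) (h2 : D2) (d N Q : ℕ) (hQ : 1 ≤ Q) (ε : ℝ) (hε : 0 < ε) :
    ∃ n, 1 ≤ n ∧ PAt d N 0 Q ε n := by
  choose a a1 a2 using fun N => h1 d N Q hQ ε hε
  choose b b1 b2 using fun N => h2 d N Q hQ ε hε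
  have p : 1 ≤ ∏ i ∈ Finset.range (N + 1), a i * b i :=
    Finset.prod_pos fun i _ => Nat.mul_pos (a1 i) (b1 i)
  refine ⟨_, p, fun K _ _ y ι _ ρ k g u v P w ⟨e, s⟩ => ?_⟩
  have q := Finset.dvd_prod_of_mem (fun i => a i * b i) (Finset.mem_range.2 (Nat.lt_succ_of_le e))
  by_cases t : Iv ρ
  · exact (a2 _).of_dvd ((dvd_mul_right _ _).trans q) p K y ι ρ k g u v P w ⟨rfl, s, t⟩
  · exact (b2 _).of_dvd ((dvd_mul_left _ _).trans q) p K y ι ρ k g u v P w ⟨rfl, s, t⟩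

theorem pat (hB : BAS) (hG : GFS) (hT : TRS) (h1 : D1) (h2 : D2) (Q : ℕ) (hQ : 1 ≤ Q) (ε : ℝ)
    (hε : 0 < ε) (r : ℕ) : ∀ d N, ∃ n, 1 ≤ n ∧ PAt d N r Q ε n := by
  induction r with
  | zero => exact fun d N => pat_zero h1 h2 d N Q hQ ε hε
  | succ r ih =>
    intro d N
    cases d with
    | zero =>
      obtain ⟨n, a, b⟩ := ih 0 N
      exact ⟨n, a, b.mono fun _ _ _ _ _ _ _ _ e =>
        ⟨e.1, fun _ => 0, fun _ _ _ => Subsingleton.elim _ _⟩⟩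
    | succ d =>
      obtain ⟨a, a1, a2⟩ := ih (d + 1) N
      obtain ⟨b, b1, b2⟩ := ih d N
      obtain ⟨c, c1, c2⟩ := ih (d + 1) (N + 1)
      have p : 1 ≤ a * (b * c) := Nat.mul_pos a1 (Nat.mul_pos b1 c1)
      refine ⟨_, p, hB _ _ _ _ _ _ (a2.of_dvd (dvd_mul_right _ _) p)
        fun K _ _ y ι _ ρ k g u v P w e => ?_⟩
      by_cases t : ∃ c : ℂ, P.rd (y 0) = algebraMap ℂ P.κ c
      · exact (hT _ _ _ _ _ _ hQ c2).of_dvd ((dvd_mul_left _ _).mul_left _) p K y ι ρ k g u v P w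
          ⟨e.1, e.2.1, e.2.2.1, t⟩
      · exact (hG _ _ _ _ _ _ b2).of_dvd ((dvd_mul_right _ _).mul_left _) p K y ι ρ k g u v P w
          ⟨e.1, e.2.1, e.2.2.1, t⟩

/-- the glue -/
theorem qt_of (hH : HEL) (hF : FACE) (hB : BAS) (hG : GFS) (hT : TRS) (h1 : D1) (h2 : D2) : Qt :=
  fun d Q hQ ε hε => by
    obtain ⟨N, h⟩ := hH d
    obtain ⟨n, a, b⟩ := pat hB hG hT h1 h2 Q hQ ε hε d d N
    exact ⟨n, a, h Q ε n hQ (hF d N Q ε n hQ b)⟩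

end Vale.Agent.P283R.To
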