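import Vale.Agent.P283M.Stm

/-!
# Toric open subsets of a variety
-/

open CategoryTheory AlgebraicGeometry

namespace Vale.Agent.P283R.Tn

open Vale.Agent.P289 Vale.Agent.P283M.Stm Vale.Agent.P283M.Stm.Var

/-- `A` is spanned by the monomials `y ^ m`, `m ∈ S`, and `S` generates the lattice. -/
def ToricRing {K : Type} [Field K] [Algebra ℂ K] {d : ℕ} (y : Fin d → K) (A : Set K) : Prop :=
  ∃ S : Set (Fin d → ℤ), AddSubgroup.closure S = ⊤ ∧
    A = Submodule.span ℂ ((fun m => ∏ i, y i ^ m i) '' S)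

/-- The point `x` lies in the open subset `U`. -/
def In {X : Var} (x : Pt X.X) (U : X.X.Opens) : Prop := x ∈ U

/-- `W` is covered by affine toric varieties of dimension `d` with the same torus. -/
def Toric {X : Var} (W : X.X.Opens) (d : ℕ) : Prop :=
  ∃ y : Fin d → X.K, AlgebraicIndependent ℂ y ∧ ∀ x, In x W → ∃ U ≤ W, IsAffineOpen U ∧
    In x U ∧ ToricRing y {g | ∀ x', In x' U → RegAt g x'}

end Vale.Agent.P283R.Tn
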