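import Vale.Agent.P283R.To.Br
import Vale.Agent.P283R.To.Lin
import Vale.Agent.P287D.Va.Cone

/-!
# P283R, block TOR: tools for the tier side of the bridge
-/

open Set

noncomputable section

namespace Vale.Agent.P283R.To.Tie

open Vale.Agent.P287D

variable {K : Type} [Field K] [Algebra ℂ K] {T : Set (Pl K)}

/-- the places in `T` behave like the prime divisors of a factorial affine variety -/
structure Fac (T : Set (Pl K)) : Prop where
  fin : ∀ f : K, {R | R ∈ T ∧ dv f R ≠ 0}.Finite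
  pri : ∀ R ∈ T, ∃ π : K, π ≠ 0 ∧ R.ord π = 1 ∧ ∀ R' ∈ T, R' ≠ R → R'.ord π = 0

theorem Fac.sys (h : Fac T) : ∃ π : Pl K → K, (∀ R, π R ≠ 0) ∧
    ∀ (k : Pl K → ℝ) (s : Finset (Pl K)), (∀ R ∈ s, R ∈ T) → (∀ R ∈ T, R ∉ s → k R = 0) →
      ∀ R ∈ T, (∑ Q ∈ s, k Q • dv (π Q)) R = k R := by
  classical
  choose! π a b c using h.pri
  refine ⟨fun R => if R ∈ T then π R else 1, fun R => ?_, fun k s hs hk R hR => ?_⟩
  · beta_reduce
    split_ifs with e
    exacts [a R e, one_ne_zero]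
  rw [Finset.sum_apply, Finset.sum_eq_single R]
  · simp [hR, dv_apply, b R hR]
  · intro Q hQ e
    simp [hs Q hQ, dv_apply, c Q (hs Q hQ) R hR e.symm]
  · intro e
    simp [hk R hR e]

theorem dv_prod_zpow {π : Pl K → K} (h : ∀ R, π R ≠ 0) (k : Pl K → ℤ) (s : Finset (Pl K)) :
    dv (∏ Q ∈ s, π Q ^ k Q) = ∑ Q ∈ s, (k Q : ℝ) • dv (π Q) := by
  rw [dv_prod _ fun Q _ => zpow_ne_zero _ (h Q)]
  exact Finset.sum_congr rfl fun Q _ => dv_zpow _ _

/-- a function with prescribed orders -/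
theorem Fac.eqn (h : Fac T) (k : Pl K → ℤ) (hk : {R | R ∈ T ∧ k R ≠ 0}.Finite) :
    ∃ f : K, f ≠ 0 ∧ ∀ R ∈ T, R.ord f = k R := by
  obtain ⟨π, a, b⟩ := h.sys
  refine ⟨∏ Q ∈ hk.toFinset, π Q ^ k Q,
    Finset.prod_ne_zero_iff.2 fun Q _ => zpow_ne_zero _ (a Q), fun R hR => ?_⟩
  have := b (fun R => k R) hk.toFinset (fun R e => (hk.mem_toFinset.1 e).1)
    (fun R e e' => by_contra fun c => e' (hk.mem_toFinset.2 ⟨e, fun z => c (by simp [z])⟩)) R hR
  rw [← dv_prod_zpow a, dv_apply] at this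
  exact_mod_cast this

/-- a functional which is nonnegative on the regular functions is nonnegative on the effective
real principal divisors -/
theorem Fac.conv (h : Fac T) (Φ : BD K →ₗ[ℝ] ℝ)
    (hΦ : ∀ f : K, f ≠ 0 → (∀ R ∈ T, 0 ≤ dv f R) → 0 ≤ Φ (dv f)) {φ : BD K} (hφ : φ ∈ Prn K)
    (h0 : ∀ R ∈ T, 0 ≤ φ R) : 0 ≤ Φ φ := by
  classical
  obtain ⟨π, a, b⟩ := h.sys
  have pos : ∀ R ∈ T, 0 ≤ Φ (dv (π R)) := fun R hR => hΦ _ (a R) fun Q hQ => by
    have := b (fun Q => if Q = R then 1 else 0) {R} (by simpa using hR)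
      (fun Q _ e => if_neg (by simpa using e)) Q hQ
    rw [Finset.sum_singleton, if_pos rfl, one_smul] at this
    rw [this]
    split_ifs <;> norm_num
  have key : ∃ s : Finset (Pl K), (∀ R ∈ s, R ∈ T) ∧ (∀ R ∈ T, R ∉ s → φ R = 0) ∧
      Φ φ = ∑ Q ∈ s, φ Q * Φ (dv (π Q)) := by
    clear h0
    induction hφ using Submodule.span_induction with
    | mem x hx =>
      obtain ⟨f, rfl⟩ := hx
      by_cases f0 : f = 0
      · exact ⟨∅, by simp, by simp [f0], by simp [f0]⟩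
      have z : ∀ R ∈ T, R ∉ (h.fin f).toFinset → dv f R = 0 := fun R e e' =>
        by_contra fun c => e' ((h.fin f).mem_toFinset.2 ⟨e, c⟩)
      have m : ∀ R ∈ (h.fin f).toFinset, R ∈ T := fun R e => ((h.fin f).mem_toFinset.1 e).1
      refine ⟨_, m, z, ?_⟩
      have p0 : ∏ Q ∈ (h.fin f).toFinset, π Q ^ Q.ord f ≠ 0 :=
        Finset.prod_ne_zero_iff.2 fun Q _ => zpow_ne_zero _ (a Q)
      have e := dv_prod_zpow a (fun Q => Q.ord f) (h.fin f).toFinset
      have e' : ∀ R ∈ T, dv (∏ Q ∈ (h.fin f).toFinset, π Q ^ Q.ord f) R = dv f R := fun R hR => by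
        rw [e]; exact b (dv f) _ m z R hR
      have u := hΦ _ (div_ne_zero f0 p0) fun R hR => by
        rw [dv_div f0 p0, Pi.sub_apply, e' R hR, sub_self]
      have v := hΦ _ (div_ne_zero p0 f0) fun R hR => by
        rw [dv_div p0 f0, Pi.sub_apply, e' R hR, sub_self]
      rw [dv_div f0 p0, map_sub] at u
      rw [dv_div p0 f0, map_sub] at v
      rw [show Φ (dv f) = Φ (dv (∏ Q ∈ (h.fin f).toFinset, π Q ^ Q.ord f)) by linarith, e, map_sum]
      exact Finset.sum_congr rfl fun Q _ => by rw [map_smul]; rfl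
    | zero => exact ⟨∅, by simp, by simp, by simp⟩
    | add x y _ _ hx hy =>
      obtain ⟨s, s1, s2, s3⟩ := hx
      obtain ⟨t, t1, t2, t3⟩ := hy
      have m : ∀ R ∈ s ∪ t, R ∈ T := fun R e => (Finset.mem_union.1 e).elim (s1 R) (t1 R)
      refine ⟨s ∪ t, m, fun R e e' => ?_, ?_⟩
      · rw [Finset.mem_union, not_or] at e'
        rw [Pi.add_apply, s2 R e e'.1, t2 R e e'.2, add_zero]
      · have e1 := Finset.sum_subset (f := fun Q => x Q * Φ (dv (π Q))) (s₂ := s ∪ t)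
          Finset.subset_union_left fun R e e' => by rw [s2 R (m R e) e', zero_mul]
        have e2 := Finset.sum_subset (f := fun Q => y Q * Φ (dv (π Q))) (s₂ := s ∪ t)
          Finset.subset_union_right fun R e e' => by rw [t2 R (m R e) e', zero_mul]
        rw [map_add, s3, t3, e1, e2, ← Finset.sum_add_distrib]
        exact Finset.sum_congr rfl fun Q _ => by rw [Pi.add_apply, add_mul]
    | smul c x _ hx =>
      obtain ⟨s, s1, s2, s3⟩ := hx
      refine ⟨s, s1, fun R e e' => by rw [Pi.smul_apply, s2 R e e', smul_zero], ?_⟩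
      rw [map_smul, s3, smul_eq_mul, Finset.mul_sum]
      exact Finset.sum_congr rfl fun Q _ => by rw [Pi.smul_apply, smul_eq_mul, mul_assoc]
  obtain ⟨s, s1, -, s3⟩ := key
  rw [s3]
  exact Finset.sum_nonneg fun Q e => mul_nonneg (h0 Q (s1 Q e)) (pos Q (s1 Q e))

/-- the lemma of Dickson -/
theorem dickson {α ι : Type} [Nonempty α] [Finite ι] (μ : α → ι → ℕ) (M : Set α) :
    ∃ C : Finset α, (∀ c ∈ C, c ∈ M) ∧ ∀ m ∈ M, ∃ c ∈ C, μ c ≤ μ m := by
  classical
  have f : {a | Minimal (· ∈ μ '' M) a}.Finite :=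
    (setOfPred_minimal_antichain _).finite_of_partiallyWellOrderedOn
      (Set.partiallyWellOrderedOn_of_wellQuasiOrdered wellQuasiOrdered_le _)
  have e : ∀ a : ι → ℕ, Minimal (· ∈ μ '' M) a → ∃ c ∈ M, μ c = a := fun a h => h.prop
  choose! g g1 g2 using e
  refine ⟨f.toFinset.image g, fun c hc => ?_, fun m hm => ?_⟩
  · obtain ⟨a, ha, rfl⟩ := Finset.mem_image.1 hc
    exact g1 a (f.mem_toFinset.1 ha)
  · obtain ⟨a, a1, a2⟩ := exists_minimal_le_of_wellFoundedLT (· ∈ μ '' M) (μ m) ⟨m, hm, rfl⟩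
    exact ⟨g a, Finset.mem_image_of_mem _ (f.mem_toFinset.2 a2), (g2 a a2).le.trans a1⟩

/-- the lemma of Farkas -/
theorem cone {d : ℕ} {ι : Type} [Fintype ι] (ρ : ι → Fin d → ℤ) (p : Fin d → ℤ)
    (h : ∀ m : Fin d → ℤ, (∀ l, 0 ≤ m ⬝ᵥ ρ l) → 0 ≤ m ⬝ᵥ p) :
    ∃ w : ι → ℝ, (∀ l, 0 ≤ w l) ∧ ∀ j, (p j : ℝ) = ∑ l, w l * ρ l j := by
  by_contra c
  obtain ⟨u, hu⟩ := farkas_int' (fun o : Option ι => o.elim (-p) ρ) (· = none)
    fun x hx e i hi => by
      subst hi
      by_contra z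
      have z' : (0 : ℝ) < x none := by exact_mod_cast (hx none).lt_of_ne' z
      refine c ⟨fun l => x (some l) / x none,
        fun l => div_nonneg (by exact_mod_cast hx _) z'.le, fun j => ?_⟩
      have := congrArg (Rat.cast : ℚ → ℝ) (e j)
      rw [Fintype.sum_option] at this
      simp only [Option.elim, Pi.neg_apply] at this
      push_cast at this
      simp only [div_mul_eq_mul_div, ← Finset.sum_div]
      rw [eq_div_iff z'.ne']
      linarith
  have a := h u fun l => by simpa [dotProduct, mul_comm] using (hu (some l)).1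
  have b := (hu none).2 rfl
  simp only [Option.elim, Pi.neg_apply, neg_mul, Finset.sum_neg_distrib] at b
  simp only [dotProduct, mul_comm (u _)] at a
  linarith

variable {d : ℕ} {y : Fin d → K} {P : Pl K}

theorem ord_dot (hy : ∀ j, y j ≠ 0) (P : Pl K) (m : Fin d → ℤ) :
    P.ord (mon y m) = m ⬝ᵥ fun j => P.ord (y j) := ord_mon P hy m

theorem lau_sub {g : (Fin d → ℤ) →₀ ℂ} {r : ℝ} (h : ∀ m ∈ g.support, mon y m ∈ P.sub r) :
    lau y g ∈ P.sub r := Submodule.sum_mem _ fun m e => Submodule.smul_mem _ _ (h m e)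

theorem Rp.dot {ι : Type} [Fintype ι] {ρ : ι → Fin d → ℤ} {w : ι → ℝ} (h : Rp y ρ P w)
    (m : Fin d → ℤ) : ∑ j, (m j : ℝ) * P.ord (y j) = ∑ l, w l * (m ⬝ᵥ ρ l : ℤ) := by
  simp only [h _, dotProduct, Finset.mul_sum]
  push_cast
  simp only [Finset.mul_sum]
  rw [Finset.sum_comm]
  exact Finset.sum_congr rfl fun l _ => Finset.sum_congr rfl fun j _ => by ring

end Vale.Agent.P283R.To.Tie
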